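import Vale.Agent.P073.H244.CxMesh
import Vale.Agent.P073.H193.Cyc
import Vale.Agent.P073.H142.Hull

/-!
# P073, H227: **[OSC-CELL]**, the oscillation of a cell from faces and edges

`isPreconnected_frame`: the union of the edges of a cell is connected.
`osc_cell`: for a homeomorphism `f`, the oscillation of `f j` on a cell is at most twice the maximal
oscillation on the faces plus the sum of the oscillations on the edges.
-/

set_option linter.unusedSectionVars false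

open Set Metric Topology Filter MeasureTheory
open scoped ENNReal

namespace P073.H227

open _root_.P073
open Vale.Agent.P073.St (V)
open Vale.Agent.P073.H73 (Mesh Poly Fat)
open Vale.Agent.P073.H193 (Edges edges)

/-! ### topology -/

section

variable {X : Type*} [TopologicalSpace X] {κ : Type*}

/-- removing the interiors of the faces keeps the union connected -/
theorem isPreconnected_iUnion_bd {T : Set κ} (hT : T.Finite) {F B : κ → Set X}
    (hF : ∀ k ∈ T, IsClosed (F k)) (hB : ∀ k ∈ T, IsPreconnected (B k))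
    (hne : ∀ k ∈ T, (B k).Nonempty) (hsub : ∀ k ∈ T, B k ⊆ F k)
    (hdis : ∀ k ∈ T, ∀ l ∈ T, k ≠ l → F k ∩ F l ⊆ B k)
    (hU : IsPreconnected (⋃ k ∈ T, F k)) : IsPreconnected (⋃ k ∈ T, B k) := by
  classical
  rw [isPreconnected_closed_iff]
  intro C D hC hD hCD ⟨x, hx, hxC⟩ ⟨y, hy, hyD⟩
  by_contra hcon
  have hdj : ∀ k ∈ T, ∀ z ∈ B k, z ∈ C → z ∈ D → False := fun k hk z hz h1 h2 =>
    hcon ⟨z, mem_biUnion hk hz, h1, h2⟩
  -- each boundary is in one of the sets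
  have hone : ∀ k ∈ T, B k ⊆ C ∨ B k ⊆ D := by
    intro k hk
    by_contra hn
    rw [not_or, not_subset, not_subset] at hn
    obtain ⟨⟨u, hu, huC⟩, w, hw, hwD⟩ := hn
    have hBk : B k ⊆ C ∪ D := fun z hz => hCD (mem_biUnion hk hz)
    have huD : u ∈ D := (hBk hu).resolve_left huC
    have hwC : w ∈ C := (hBk hw).resolve_right hwD
    obtain ⟨z, hz, hz1, hz2⟩ := (isPreconnected_closed_iff.1 (hB k hk)) C D hC hD hBk
      ⟨w, hw, hwC⟩ ⟨u, hu, huD⟩
    exact hdj k hk z hz hz1 hz2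
  have hcl : ∀ P : κ → Prop, IsClosed (⋃ k ∈ {k | k ∈ T ∧ P k}, F k) := fun P =>
    (hT.subset fun k hk => hk.1).isClosed_biUnion fun k hk => hF k hk.1
  obtain ⟨k, hk, hxk⟩ := mem_iUnion₂.1 hx
  obtain ⟨l, hl, hyl⟩ := mem_iUnion₂.1 hy
  have hkC : B k ⊆ C := (hone k hk).resolve_right fun h => hdj k hk x hxk hxC (h hxk)
  have hlD : B l ⊆ D := (hone l hl).resolve_left fun h => hdj l hl y hyl (h hyl) hyD
  obtain ⟨z, -, hz1, hz2⟩ := (isPreconnected_closed_iff.1 hU)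
    (⋃ k ∈ {k | k ∈ T ∧ B k ⊆ C}, F k) (⋃ k ∈ {k | k ∈ T ∧ B k ⊆ D}, F k) (hcl _) (hcl _)
    (by
      rintro z hz
      obtain ⟨m, hm, hzm⟩ := mem_iUnion₂.1 hz
      rcases hone m hm with h | h
      · exact Or.inl (mem_biUnion (show m ∈ {k | k ∈ T ∧ B k ⊆ C} from ⟨hm, h⟩) hzm)
      · exact Or.inr (mem_biUnion (show m ∈ {k | k ∈ T ∧ B k ⊆ D} from ⟨hm, h⟩) hzm))
    ⟨x, mem_biUnion hk (hsub k hk hxk),
      mem_biUnion (show k ∈ {k | k ∈ T ∧ B k ⊆ C} from ⟨hk, hkC⟩) (hsub k hk hxk)⟩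
    ⟨y, mem_biUnion hl (hsub l hl hyl),
      mem_biUnion (show l ∈ {k | k ∈ T ∧ B k ⊆ D} from ⟨hl, hlD⟩) (hsub l hl hyl)⟩
  obtain ⟨m, ⟨hm, hmC⟩, hzm⟩ := mem_iUnion₂.1 hz1
  obtain ⟨n, ⟨hn, hnD⟩, hzn⟩ := mem_iUnion₂.1 hz2
  by_cases hmn : m = n
  · subst hmn
    obtain ⟨u, hu⟩ := hne m hm
    exact hdj m hm u hu (hmC hu) (hnD hu)
  · have h1 := hdis m hm n hn hmn ⟨hzm, hzn⟩
    have h2 := hdis n hn m hm (Ne.symm hmn) ⟨hzn, hzm⟩
    exact hdj m hm z h1 (hmC h1) (hnD h2)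

/-- the oscillation on a connected set is at most the sum of the oscillations on the pieces -/
theorem osc_le_sum {U : Set X} (hU : IsPreconnected U) {φ : X → ℝ} (hφ : ContinuousOn φ U)
    {T : Finset κ} {S : κ → Set X} (hcov : U ⊆ ⋃ k ∈ T, S k) {w : κ → ℝ} (hw : ∀ k ∈ T, 0 ≤ w k)
    (hosc : ∀ k ∈ T, ∀ x ∈ S k ∩ U, ∀ y ∈ S k ∩ U, φ x - φ y ≤ w k) :
    ∀ x ∈ U, ∀ y ∈ U, |φ x - φ y| ≤ ∑ k ∈ T, w k := by
  intro x hx y hy
  have himg : IsPreconnected (φ '' U) := hU.image φ hφ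
  have h1 : uIcc (φ x) (φ y) ⊆ φ '' U :=
    himg.ordConnected.uIcc_subset (mem_image_of_mem φ hx) (mem_image_of_mem φ hy)
  have h2 : volume (uIcc (φ x) (φ y)) ≤ ∑ k ∈ T, ENNReal.ofReal (w k) := by
    calc volume (uIcc (φ x) (φ y)) ≤ volume (⋃ k ∈ T, φ '' (S k ∩ U)) := by
          refine measure_mono (h1.trans ?_)
          rintro _ ⟨z, hz, rfl⟩
          obtain ⟨k, hk, hzk⟩ := mem_iUnion₂.1 (hcov hz)
          exact mem_biUnion hk ⟨z, ⟨hzk, hz⟩, rfl⟩
      _ ≤ ∑ k ∈ T, volume (φ '' (S k ∩ U)) := measure_biUnion_finset_le _ _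
      _ ≤ ∑ k ∈ T, ENNReal.ofReal (w k) := by
          refine Finset.sum_le_sum fun k hk => ?_
          refine (Real.volume_le_diam _).trans ?_
          refine Metric.ediam_le ?_
          rintro _ ⟨u, hu, rfl⟩ _ ⟨z, hz, rfl⟩
          rw [edist_dist, Real.dist_eq]
          exact ENNReal.ofReal_le_ofReal (abs_le.2
            ⟨by linarith [hosc k hk z hz u hu], hosc k hk u hu z hz⟩)
  rw [Real.volume_interval, ← ENNReal.ofReal_sum_of_nonneg hw,
    ENNReal.ofReal_le_ofReal_iff (Finset.sum_nonneg hw), abs_sub_comm] at h2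
  exact h2

end

/-! ### cells -/

section

variable {Ω Λ : Set V} {M : Mesh Ω}

/-- the boundary of a cell is the union of the faces -/
theorem frontier_cell (i : M.ι) : frontier (M.Q i) = ⋃ k ∈ {k | M.F k ⊆ M.Q i}, M.F k := by
  apply Subset.antisymm
  · intro x hx
    obtain ⟨k, h1, h2⟩ := M.bd i x hx
    exact mem_biUnion (show k ∈ {k | M.F k ⊆ M.Q i} from h2) h1
  · refine iUnion₂_subset fun k hk x hx => ?_
    rw [(M.poly i).cpt.isClosed.frontier_eq]
    exact ⟨hk hx, fun h => Set.disjoint_left.1 (Vale.Agent.P073.H244.face_disjoint M k i) hx h⟩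

theorem finite_faces (i : M.ι) : {k | M.F k ⊆ M.Q i}.Finite := by
  refine (M.ffin (M.Q i) (M.sub i) (M.poly i).cpt).subset fun k hk => ?_
  obtain ⟨x, hx⟩ := (Vale.Agent.P073.H193.pgn_of_fat (M.fat k)).nonempty
  exact ⟨x, hx, hk hx⟩

theorem bd_conSphere (k : M.κ) : ConSphere 1 (intrinsicFrontier ℝ (M.F k)) :=
  (Vale.Agent.P073.H193.conBall_face (M.fat k)).conSphere

/-- **the union of the edges of a cell is connected** -/
theorem isPreconnected_frame (i : M.ι) :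
    IsPreconnected (⋃ k ∈ {k | M.F k ⊆ M.Q i}, intrinsicFrontier ℝ (M.F k)) := by
  have hP := fun k => Vale.Agent.P073.H193.pgn_of_fat (M.fat k)
  refine isPreconnected_iUnion_bd (finite_faces i) (F := M.F) (fun k _ => (hP k).cpt.isClosed)
    (fun k _ => (bd_conSphere k).isPreconnected) (fun k _ => (bd_conSphere k).nonempty)
    (fun k _ => intrinsicFrontier_subset (hP k).cpt.isClosed) (fun k _ l _ hkl x hx => ?_) ?_
  · rw [(hP k).fr_eq]
    exact ⟨hx.1, fun h => Set.disjoint_left.1 (M.fdisj k l hkl) h hx.2⟩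
  · rw [← frontier_cell i]
    exact (Vale.Agent.P073.H244.conBall_cell M i).conSphere.isPreconnected

theorem finite_edges (E : Edges M) (i : M.ι) : {e | E.seg e ⊆ M.Q i}.Finite := by
  refine (E.fin (M.Q i) (M.sub i) (M.poly i).cpt).subset fun e he => ?_
  exact ⟨E.a e, E.left_mem e, he (E.left_mem e)⟩

/-- **[OSC-CELL]** -/
theorem osc_cell (hΛ : IsOpen Λ) (f : ConHomeo Ω Λ) (E : Edges M) (i : M.ι) (j : Fin 3) {A : ℝ}
    (hA : ∀ k, M.F k ⊆ M.Q i → ∀ x ∈ M.F k, ∀ y ∈ M.F k, f.toFun x j - f.toFun y j ≤ A)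
    {T : Finset E.ε} (hT : ∀ e, E.seg e ⊆ M.Q i → e ∈ T) {w : E.ε → ℝ} (hw : ∀ e ∈ T, 0 ≤ w e)
    (hE : ∀ e ∈ T, E.seg e ⊆ M.Q i →
      ∀ x ∈ E.seg e, ∀ y ∈ E.seg e, f.toFun x j - f.toFun y j ≤ w e) :
    ∀ x ∈ M.Q i, ∀ y ∈ M.Q i, |f.toFun x j - f.toFun y j| ≤ 2 * A + ∑ e ∈ T, w e := by
  classical
  have hP := fun k => Vale.Agent.P073.H193.pgn_of_fat (M.fat k)
  have hsubF : ∀ k, M.F k ⊆ M.Q i → M.F k ⊆ Ω := fun k hk => hk.trans (M.sub i)
  set U : Set V := ⋃ k ∈ {k | M.F k ⊆ M.Q i}, intrinsicFrontier ℝ (M.F k) with hU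
  have hUQ : U ⊆ M.Q i := iUnion₂_subset fun k hk =>
    (intrinsicFrontier_subset (hP k).cpt.isClosed).trans hk
  have hcov : U ⊆ ⋃ e ∈ T.filter fun e => E.seg e ⊆ M.Q i, E.seg e := by
    refine iUnion₂_subset fun k hk x hx => ?_
    rw [E.fr_eq] at hx
    obtain ⟨e, he, hxe⟩ := mem_iUnion₂.1 hx
    have h1 : E.seg e ⊆ M.Q i := Subset.trans he hk
    exact mem_biUnion (Finset.mem_coe.2 (Finset.mem_filter.2 ⟨hT e h1, h1⟩)) hxe
  have hpre : IsPreconnected U := isPreconnected_frame i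
  have hcont : ContinuousOn (fun x => f.toFun x j) U :=
    (continuous_apply j).comp_continuousOn (f.cont.mono (hUQ.trans (M.sub i)))
  have hosc : ∀ x ∈ U, ∀ y ∈ U, |f.toFun x j - f.toFun y j| ≤ ∑ e ∈ T, w e := by
    intro x hx y hy
    refine (osc_le_sum hpre hcont hcov (w := w) (fun e he => hw e (Finset.mem_filter.1 he).1) ?_
      x hx y hy).trans (Finset.sum_le_sum_of_subset_of_nonneg (Finset.filter_subset _ _)
        fun e he _ => hw e he)
    intro e he x hx y hy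
    exact hE e (Finset.mem_filter.1 he).1 (Finset.mem_filter.1 he).2 x hx.1 y hy.1
  -- one direction
  have key : ∀ x ∈ M.Q i, ∀ y ∈ M.Q i, f.toFun x j - f.toFun y j ≤ 2 * A + ∑ e ∈ T, w e := by
    intro x hx y hy
    obtain ⟨a, ha, hxa⟩ := H142.exists_frontier_ge hΛ f (M.poly i).cpt (M.sub i) j hx
    obtain ⟨b, hb, hby⟩ := H142.exists_frontier_le hΛ f (M.poly i).cpt (M.sub i) j hy
    obtain ⟨k, hak, hk⟩ := M.bd i a ha
    obtain ⟨l, hbl, hl⟩ := M.bd i b hb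
    obtain ⟨a', ha'⟩ := (bd_conSphere k).nonempty
    obtain ⟨b', hb'⟩ := (bd_conSphere l).nonempty
    have haF : a' ∈ M.F k := intrinsicFrontier_subset (hP k).cpt.isClosed ha'
    have hbF : b' ∈ M.F l := intrinsicFrontier_subset (hP l).cpt.isClosed hb'
    have h1 := hA k hk a hak a' haF
    have h2 := hA l hl b' hbF b hbl
    have h3 := (le_abs_self _).trans (hosc a' (mem_biUnion hk ha') b' (mem_biUnion hl hb'))
    linarith
  intro x hx y hy
  exact abs_le.2 ⟨by linarith [key y hy x hx], key x hx y hy⟩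

end

end P073.H227
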