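import Vale.Agent.P073.H227.OscS
import Vale.Agent.P073.H227.OscCell

/-!
# P073, H227: **[LAB-OSC]**, oscillation from labels

`φ` is a coordinate of the new map and `ψ` the same coordinate of the old map on a connected set.
If `φ` is in the target band `k` only if `ψ` is close to the level `a k`, then the oscillation of
`φ` is at most a constant times the oscillation of `ψ`, plus the size of a band.
-/

set_option linter.unusedSectionVars false

open Set Metric Topology Filter

namespace P073.H227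

open P073 P073.H236 P073.H579

section

variable {X : Type*} [TopologicalSpace X] {U : Set X} {φ ψ : X → ℝ} {N : ℕ} {al be e c σ B : ℝ}
  {a : ℕ → ℝ}

/-- gaps of a strictly increasing sequence of levels -/
theorem levels_gap (hσ : ∀ n, n + 1 < N → σ ≤ a (n + 1) - a n) {m n : ℕ} (hmn : m ≤ n)
    (hn : n < N) : (n - m : ℝ) * σ ≤ a n - a m := by
  induction n, hmn using Nat.le_induction with
  | base => simp
  | succ n hmn ih =>
    have h1 := ih (by omega)
    have h2 := hσ n hn
    push_cast
    nlinarith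

/-- **[LAB-OSC]**, points of the window -/
theorem lab_osc (hU : IsPreconnected U) (hφ : ContinuousOn φ U) (hN : 0 < N) (hab : al < be)
    (he : 0 < e) (heo : 2 * e < stp N al be) (hσ0 : 0 < σ) (hc : 0 ≤ c)
    (hσ : ∀ n, n + 1 < N → σ ≤ a (n + 1) - a n)
    (hlab : ∀ x ∈ U, ∀ k < N, φ x ∈ bnd N al be e k → |ψ x - a k| ≤ c)
    (hψ : ∀ x ∈ U, ∀ y ∈ U, |ψ x - ψ y| ≤ B) {x y : X} (hx : x ∈ U) (hy : y ∈ U)
    (hp : al ≤ φ x) (hxy : φ x ≤ φ y) (hq : φ y ≤ be) :
    φ y - φ x ≤ stp N al be * ((B + 2 * c) / σ + 1) + 2 * e := by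
  classical
  have hN' : (0:ℝ) < N := by exact_mod_cast hN
  have hω : 0 < stp N al be := div_pos (sub_pos.2 hab) hN'
  obtain ⟨K, hK, hle⟩ := exists_bands hN hab he heo hp hxy hq
  refine hle.trans (add_le_add ?_ le_rfl)
  refine mul_le_mul_of_nonneg_left ?_ hω.le
  -- a point for every band
  have hpt : ∀ k ∈ K, ∃ z ∈ U, |ψ z - a k| ≤ c := by
    intro k hk
    obtain ⟨hkN, t, ht, htI⟩ := hK k hk
    obtain ⟨z, hz, hzt⟩ := hU.intermediate_value hx hy hφ htI
    exact ⟨z, hz, hlab z hz k hkN (by rw [hzt]; exact ht)⟩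
  have hB : 0 ≤ B := (abs_nonneg _).trans (hψ x hx y hy)
  rcases K.eq_empty_or_nonempty with rfl | hne
  · rw [Finset.card_empty, Nat.cast_zero]
    positivity
  · obtain ⟨z1, hz1, h1⟩ := hpt _ (K.min'_mem hne)
    obtain ⟨z2, hz2, h2⟩ := hpt _ (K.max'_mem hne)
    have hmN : K.max' hne < N := (hK _ (K.max'_mem hne)).1
    have hmm : K.min' hne ≤ K.max' hne := K.min'_le _ (K.max'_mem hne)
    have h3 := levels_gap hσ hmm hmN
    have hcard : K.card ≤ K.max' hne - K.min' hne + 1 := by
      have : K ⊆ Finset.Icc (K.min' hne) (K.max' hne) := fun k hk =>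
        Finset.mem_Icc.2 ⟨K.min'_le _ hk, K.le_max' _ hk⟩
      have h4 := Finset.card_le_card this
      rw [Nat.card_Icc] at h4
      omega
    have h5 : (K.card : ℝ) ≤ (K.max' hne : ℝ) - K.min' hne + 1 := by
      have : K.card + K.min' hne ≤ K.max' hne + 1 := by omega
      have : (K.card : ℝ) + (K.min' hne : ℝ) ≤ (K.max' hne : ℝ) + 1 := by exact_mod_cast this
      linarith
    have h6 : ((K.max' hne : ℝ) - K.min' hne) * σ ≤ B + 2 * c := by
      refine h3.trans ?_
      have g1 := abs_le.1 h1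
      have g2 := abs_le.1 h2
      have g3 := abs_le.1 (hψ z1 hz1 z2 hz2)
      linarith
    have h7 : (K.max' hne : ℝ) - K.min' hne ≤ (B + 2 * c) / σ := by
      rw [le_div_iff₀ hσ0]; exact h6
    linarith

end

end P073.H227
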