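import Mathlib

/-!
# P073, H227: **[NLEV]**, counting the levels which are met by a function

`nlev A f X`: number of the levels `l ∈ A` which `f` takes on `X`. `nbet A s t`: number of the
levels in `A` between `s` and `t` (closed interval).

* `nbet_le_nlev`: on a connected set all levels between two values are taken;
* `nlev_of_level`: the count for a face whose levels are met on the boundary or on a set `T`
  (`PlatesOutZ.level`, or a face pattern with `T = ∅`);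
* `nlev_le_spacing`: levels with spacing `δ` and a function with oscillation `r`;
* `nbet_le_strips`: a face cut into connected strips which meet a common edge;
* `osc_of_nbet`: oscillation of the stairs over a set.
-/

open Set Metric Topology Filter

namespace P073.H227

variable {X : Type*}

/-- the number of levels which are met -/
noncomputable def nlev (A : Finset ℝ) (f : X → ℝ) (S : Set X) : ℕ :=
  {l | l ∈ A ∧ ∃ x ∈ S, f x = l}.ncard

/-- the number of levels between two numbers -/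
noncomputable def nbet (A : Finset ℝ) (s t : ℝ) : ℕ := {l | l ∈ A ∧ l ∈ uIcc s t}.ncard

theorem finite_nlev (A : Finset ℝ) (f : X → ℝ) (S : Set X) :
    {l | l ∈ A ∧ ∃ x ∈ S, f x = l}.Finite := A.finite_toSet.subset fun _ hl => hl.1

theorem finite_nbet (A : Finset ℝ) (s t : ℝ) : {l | l ∈ A ∧ l ∈ uIcc s t}.Finite :=
  A.finite_toSet.subset fun _ hl => hl.1

theorem nlev_mono {A : Finset ℝ} {f : X → ℝ} {S T : Set X} (h : S ⊆ T) :
    nlev A f S ≤ nlev A f T := by
  refine ncard_le_ncard (fun l hl => ?_) (finite_nlev A f T)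
  obtain ⟨h1, x, hx, h2⟩ := hl
  exact ⟨h1, x, h hx, h2⟩

theorem nlev_union_le (A : Finset ℝ) (f : X → ℝ) (S T : Set X) :
    nlev A f (S ∪ T) ≤ nlev A f S + nlev A f T := by
  refine (ncard_le_ncard (t := {l | l ∈ A ∧ ∃ x ∈ S, f x = l} ∪ {l | l ∈ A ∧ ∃ x ∈ T, f x = l})
    (fun l hl => ?_) ((finite_nlev A f S).union (finite_nlev A f T))).trans (ncard_union_le _ _)
  obtain ⟨h1, x, hx | hx, h2⟩ := hl
  · exact Or.inl ⟨h1, x, hx, h2⟩
  · exact Or.inr ⟨h1, x, hx, h2⟩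

theorem nlev_empty (A : Finset ℝ) (f : X → ℝ) : nlev A f ∅ = 0 := by
  have : {l | l ∈ A ∧ ∃ x ∈ (∅ : Set X), f x = l} = ∅ := by
    ext l; simp
  rw [nlev, this, ncard_empty]

theorem nlev_biUnion_le {ι : Type*} (A : Finset ℝ) (f : X → ℝ) (I : Finset ι) (S : ι → Set X) :
    nlev A f (⋃ i ∈ I, S i) ≤ ∑ i ∈ I, nlev A f (S i) := by
  classical
  induction I using Finset.induction_on with
  | empty => simp [nlev_empty]
  | insert i I hi ih =>
    rw [Finset.sum_insert hi]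
    refine le_trans ?_ (Nat.add_le_add_left ih _)
    rw [Finset.set_biUnion_insert]
    exact nlev_union_le A f _ _

theorem nlev_congr {A : Finset ℝ} {f g : X → ℝ} {S : Set X}
    (h : ∀ l ∈ A, ∀ x ∈ S, (f x = l ↔ g x = l)) : nlev A f S = nlev A g S := by
  have : {l | l ∈ A ∧ ∃ x ∈ S, f x = l} = {l | l ∈ A ∧ ∃ x ∈ S, g x = l} := by
    ext l
    exact and_congr_right fun hl =>
      ⟨fun ⟨x, hx, h1⟩ => ⟨x, hx, (h l hl x hx).1 h1⟩, fun ⟨x, hx, h1⟩ => ⟨x, hx, (h l hl x hx).2 h1⟩⟩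
  rw [nlev, nlev, this]

/-- not more levels than level points -/
theorem nlev_le_ncard {A : Finset ℝ} {f : X → ℝ} {S : Set X} (h : {x | x ∈ S ∧ f x ∈ A}.Finite) :
    nlev A f S ≤ {x | x ∈ S ∧ f x ∈ A}.ncard := by
  have e : {l | l ∈ A ∧ ∃ x ∈ S, f x = l} ⊆ f '' {x | x ∈ S ∧ f x ∈ A} := by
    rintro l ⟨hl, x, hx, rfl⟩
    exact ⟨x, ⟨hx, hl⟩, rfl⟩
  exact (ncard_le_ncard e (h.image f)).trans (ncard_image_le h)

/-- on a connected set all levels between two values are met -/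
theorem nbet_le_nlev [TopologicalSpace X] {A : Finset ℝ} {f : X → ℝ} {S : Set X}
    (hS : IsPreconnected S) (hf : ContinuousOn f S) {x y : X} (hx : x ∈ S) (hy : y ∈ S) :
    nbet A (f x) (f y) ≤ nlev A f S := by
  refine ncard_le_ncard ?_ (finite_nlev A f S)
  rintro l ⟨hl, hlI⟩
  rcases mem_uIcc.1 hlI with h1 | h1
  · obtain ⟨z, hz, hzl⟩ := hS.intermediate_value hx hy hf h1
    exact ⟨hl, z, hz, hzl⟩
  · obtain ⟨z, hz, hzl⟩ := hS.intermediate_value hy hx hf h1
    exact ⟨hl, z, hz, hzl⟩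

theorem nbet_comm (A : Finset ℝ) (s t : ℝ) : nbet A s t = nbet A t s := by
  rw [nbet, nbet, uIcc_comm]

theorem nbet_tri (A : Finset ℝ) (s u t : ℝ) : nbet A s t ≤ nbet A s u + nbet A u t := by
  refine (ncard_le_ncard (t := {l | l ∈ A ∧ l ∈ uIcc s u} ∪ {l | l ∈ A ∧ l ∈ uIcc u t})
    (fun l hl => ?_) ((finite_nbet A s u).union (finite_nbet A u t))).trans (ncard_union_le _ _)
  rcases uIcc_subset_uIcc_union_uIcc (b := u) hl.2 with h | h
  · exact Or.inl ⟨hl.1, h⟩
  · exact Or.inr ⟨hl.1, h⟩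

/-- **the count on a face** whose levels are met on `B` or on `T` -/
theorem nlev_of_level {A : Finset ℝ} {f : X → ℝ} {S B T : Set X}
    (h : ∀ l ∈ A, ∀ x ∈ S, f x = l → ∃ y ∈ S, (y ∈ B ∨ y ∈ T) ∧ f y = l) :
    nlev A f S ≤ nlev A f (S ∩ B) + nlev A f (S ∩ T) := by
  refine le_trans ?_ (nlev_union_le A f _ _)
  refine ncard_le_ncard ?_ (finite_nlev A f _)
  rintro l ⟨hl, x, hx, hxl⟩
  obtain ⟨y, hy, h1, h2⟩ := h l hl x hx hxl
  refine ⟨hl, y, ?_, h2⟩
  rcases h1 with h1 | h1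
  · exact Or.inl ⟨hy, h1⟩
  · exact Or.inr ⟨hy, h1⟩

/-- a finite set of reals with spacing `δ` inside an interval of length `r` -/
theorem card_le_spacing (B : Finset ℝ) {δ r : ℝ} (hδ : 0 < δ)
    (hB : ∀ s ∈ B, ∀ t ∈ B, s ≠ t → δ ≤ |s - t|) (hr : ∀ s ∈ B, ∀ t ∈ B, |s - t| ≤ r)
    (hr0 : 0 ≤ r) : (B.card : ℝ) ≤ r / δ + 1 := by
  classical
  rcases B.eq_empty_or_nonempty with rfl | hne
  · simp only [Finset.card_empty, Nat.cast_zero]
    positivity
  · set m := B.min' hne with hm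
    have hmB := B.min'_mem hne
    -- `s ↦ ⌊(s - m) / δ⌋` is injective on `B`
    have hinj : Set.InjOn (fun s => ⌊(s - m) / δ⌋₊) (B : Set ℝ) := by
      intro s hs t ht hst
      by_contra hne'
      have h1 := hB s hs t ht hne'
      simp only at hst
      have hs0 : 0 ≤ (s - m) / δ := div_nonneg (by linarith [B.min'_le s hs]) hδ.le
      have ht0 : 0 ≤ (t - m) / δ := div_nonneg (by linarith [B.min'_le t ht]) hδ.le
      have a1 := Nat.floor_le hs0
      have a2 := Nat.lt_floor_add_one ((s - m) / δ)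
      have b1 := Nat.floor_le ht0
      have b2 := Nat.lt_floor_add_one ((t - m) / δ)
      rw [hst] at a1 a2
      have h2 : |(s - m) / δ - (t - m) / δ| < 1 := by
        rw [abs_lt]; constructor <;> linarith
      rw [← sub_div, abs_div, abs_of_pos hδ, div_lt_one hδ] at h2
      have h3 : s - m - (t - m) = s - t := by ring
      rw [h3] at h2
      linarith
    have hmap : ∀ s ∈ B, ⌊(s - m) / δ⌋₊ ∈ Finset.range (⌊r / δ⌋₊ + 1) := by
      intro s hs
      rw [Finset.mem_range, Nat.lt_succ_iff]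
      apply Nat.floor_le_floor
      have := hr s hs m hmB
      have := le_abs_self (s - m)
      gcongr
      linarith
    have h1 := Finset.card_le_card_of_injOn _ hmap hinj
    rw [Finset.card_range] at h1
    have h2 : ((⌊r / δ⌋₊ : ℕ) : ℝ) ≤ r / δ := Nat.floor_le (by positivity)
    have h3 : (B.card : ℝ) ≤ ((⌊r / δ⌋₊ + 1 : ℕ) : ℝ) := by exact_mod_cast h1
    push_cast at h3
    linarith

/-- levels with spacing `δ`, function with oscillation `r` -/
theorem nlev_le_spacing {A : Finset ℝ} {f : X → ℝ} {S : Set X} {δ r : ℝ} (hδ : 0 < δ)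
    (hA : ∀ s ∈ A, ∀ t ∈ A, s ≠ t → δ ≤ |s - t|) (hr0 : 0 ≤ r)
    (hr : ∀ x ∈ S, ∀ y ∈ S, |f x - f y| ≤ r) : (nlev A f S : ℝ) ≤ r / δ + 1 := by
  classical
  have e : {l | l ∈ A ∧ ∃ x ∈ S, f x = l} = ((A.filter fun l => ∃ x ∈ S, f x = l : Finset ℝ) :
      Set ℝ) := by
    ext l; simp
  rw [nlev, e, ncard_coe_finset]
  refine card_le_spacing _ hδ (fun s hs t ht => ?_) (fun s hs t ht => ?_) hr0
  · exact hA s (Finset.mem_filter.1 hs).1 t (Finset.mem_filter.1 ht).1
  · obtain ⟨x, hx, rfl⟩ := (Finset.mem_filter.1 hs).2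
    obtain ⟨y, hy, rfl⟩ := (Finset.mem_filter.1 ht).2
    exact hr x hx y hy

/-- **a face cut into strips** which meet the common edge `e₀` -/
theorem nbet_le_strips [TopologicalSpace X] {ι : Type*} {A : Finset ℝ} {f : X → ℝ} {S : Set X}
    {R : ι → Set X} {e₀ : Set X} (hcov : S ⊆ ⋃ i, R i) (hR : ∀ i, IsPreconnected (R i))
    (hfR : ∀ i, ContinuousOn f (R i)) (he : IsPreconnected e₀) (hfe : ContinuousOn f e₀)
    (hmeet : ∀ i, (R i ∩ e₀).Nonempty) {N : ℕ} (hN : ∀ i, nlev A f (R i) ≤ N) {x y : X}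
    (hx : x ∈ S) (hy : y ∈ S) : nbet A (f x) (f y) ≤ 2 * N + nlev A f e₀ := by
  obtain ⟨i, hi⟩ := mem_iUnion.1 (hcov hx)
  obtain ⟨j, hj⟩ := mem_iUnion.1 (hcov hy)
  obtain ⟨p, hp, hp'⟩ := hmeet i
  obtain ⟨q, hq, hq'⟩ := hmeet j
  have h1 := (nbet_le_nlev (A := A) (hR i) (hfR i) hi hp).trans (hN i)
  have h2 := (nbet_le_nlev (A := A) (hR j) (hfR j) hq hj).trans (hN j)
  have h3 := nbet_le_nlev (A := A) he hfe hp' hq'
  have h4 := nbet_tri A (f x) (f p) (f y)
  have h5 := nbet_tri A (f p) (f q) (f y)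
  omega

/-- **oscillation of the stairs**: `σ` are the stairs, `k` the insertion map, `F` the inserted map
over `f` -/
theorem osc_of_nbet {Y : Type*} {A : Finset ℝ} {σ k : ℝ → ℝ} {om eps : ℝ} (hom : 0 ≤ om)
    (hσ : ∀ s t, |σ s - σ t| ≤ om * (nbet A (k s) (k t) + 1) + eps) {f : X → ℝ} {F : Y → ℝ}
    {γ : Y → X} {S : Set Y} {T : Set X} (hγ : MapsTo γ S T) (hF : ∀ y ∈ S, k (F y) = f (γ y))
    {N : ℕ} (hN : ∀ x ∈ T, ∀ x' ∈ T, nbet A (f x) (f x') ≤ N) {y y' : Y} (hy : y ∈ S)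
    (hy' : y' ∈ S) : |σ (F y) - σ (F y')| ≤ om * (N + 1) + eps := by
  have h1 := hσ (F y) (F y')
  rw [hF y hy, hF y' hy'] at h1
  have h2 : (nbet A (f (γ y)) (f (γ y')) : ℝ) ≤ N := by exact_mod_cast hN _ (hγ hy) _ (hγ hy')
  have h3 := mul_le_mul_of_nonneg_left (add_le_add_left h2 1) hom
  linarith

end P073.H227
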