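import Vale.Agent.P073.H142.FaceT

/-!
# P073, H227, [OSC-TOP] (x4): the oscillation after the T-hook and its staircase

`BS.interval_le`: an interval covered by an interval of length `b` and the gaps between the bands.
`TLay.osc6`, `TLay.osc`: on a preconnected passive set near one tube, the oscillation of the
coordinate of the tube grows by at most the length of the gaps.
-/

open Set Metric Topology Filter MeasureTheory
open scoped ENNReal

namespace P073.H227

open P073 P073.Net P073.PA691 P073.H236 P073.H429 P073.H880 P073.H936 P073.H936.K3 P073.H142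
open Vale.Agent.P073.St (V)
open Vale.Agent.P073.H73 (Mesh)
open Vale.Agent.P073.H471 Vale.Agent.P073.H267

/-- an interval covered by an interval and by the gaps between the bands -/
theorem BS_interval_le {ι : Type*} [Fintype ι] {al be : ℝ} {l h : ι → ℝ} (H : BS al be l h)
    {s t m b : ℝ} (hb : 0 ≤ b)
    (hsub : ∀ v ∈ Icc s t, v ∈ Icc m (m + b) ∨ (v ∈ Icc al be ∧ ∀ i, v ∉ Icc (l i) (h i))) :
    t - s ≤ b + (be - al - blen l h) := by
  classical
  have hU : MeasurableSet (⋃ i, Icc (l i) (h i)) := MeasurableSet.iUnion fun i => measurableSet_Icc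
  have hUsub : (⋃ i, Icc (l i) (h i)) ⊆ Icc al be :=
    iUnion_subset fun i => Icc_subset_Icc (H.lo i).le (H.hi i).le
  have hUv : volume (⋃ i, Icc (l i) (h i)) = ENNReal.ofReal (blen l h) := by
    rw [measure_iUnion (fun i j hij => ?_) fun i => measurableSet_Icc, tsum_fintype]
    · unfold blen
      rw [ENNReal.ofReal_sum_of_nonneg fun i _ => sub_nonneg.2 (H.lt i).le]
      exact Finset.sum_congr rfl fun i _ => Real.volume_Icc
    · rw [Function.onFun, Set.disjoint_left]
      intro x hx hx'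
      rcases H.dis i j hij with h1 | h1
      · linarith [hx.2, hx'.1]
      · linarith [hx.1, hx'.2]
  have hN : volume (Icc al be \ ⋃ i, Icc (l i) (h i)) = ENNReal.ofReal (be - al - blen l h) := by
    rw [measure_diff hUsub hU.nullMeasurableSet (by rw [hUv]; exact ENNReal.ofReal_ne_top), hUv,
      Real.volume_Icc, ENNReal.ofReal_sub _ H.blen_pos.le]
  have h1 : Icc s t ⊆ Icc m (m + b) ∪ (Icc al be \ ⋃ i, Icc (l i) (h i)) := by
    intro v hv
    rcases hsub v hv with h2 | ⟨h2, h3⟩
    · exact Or.inl h2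
    · refine Or.inr ⟨h2, fun h4 => ?_⟩
      obtain ⟨i, hi⟩ := mem_iUnion.1 h4
      exact h3 i hi
  have h2 : volume (Icc s t) ≤ ENNReal.ofReal b + ENNReal.ofReal (be - al - blen l h) := by
    refine (measure_mono h1).trans ((measure_union_le _ _).trans ?_)
    rw [hN, Real.volume_Icc]
    simp
  rw [Real.volume_Icc, ← ENNReal.ofReal_add hb (by linarith [H.blen_le])] at h2
  have h3 : 0 ≤ b + (be - al - blen l h) := by linarith [H.blen_le]
  exact (ENNReal.ofReal_le_ofReal_iff h3).1 h2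

/-- two functions on a preconnected set which agree where the first has its value in a band or off
the window -/
theorem osc_band {ι : Type*} [Fintype ι] {al be : ℝ} {l h : ι → ℝ} (H : BS al be l h)
    {A : Set V} (hA : IsPreconnected A) {u w : V → ℝ} (hu : ContinuousOn u A) {b : ℝ}
    (hw : ∀ x ∈ A, ∀ y ∈ A, |w x - w y| ≤ b)
    (heq : ∀ x ∈ A, u x = w x ∨ (u x ∈ Icc al be ∧ ∀ i, u x ∉ Icc (l i) (h i))) :
    ∀ x ∈ A, ∀ y ∈ A, |u x - u y| ≤ b + (be - al - blen l h) := by
  have key : ∀ x ∈ A, ∀ y ∈ A, u y - u x ≤ b + (be - al - blen l h) := by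
    intro x hx y hy
    have hb : 0 ≤ b := (abs_nonneg _).trans (hw x hx x hx)
    have hne : (w '' A).Nonempty := ⟨w x, x, hx, rfl⟩
    have hbdd : BddBelow (w '' A) := by
      refine ⟨w x - b, ?_⟩
      rintro _ ⟨a, ha, rfl⟩
      have := (abs_le.1 (hw a ha x hx)).1
      linarith
    refine BS_interval_le H (m := sInf (w '' A)) hb fun v hv => ?_
    obtain ⟨a, ha, rfl⟩ := hA.intermediate_value hx hy hu hv
    rcases heq a ha with h1 | h1
    · refine Or.inl ⟨?_, ?_⟩
      · rw [h1]; exact csInf_le hbdd ⟨a, ha, rfl⟩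
      · rw [h1]
        have h2 : w a - b ≤ sInf (w '' A) := by
          refine le_csInf hne ?_
          rintro _ ⟨a', ha', rfl⟩
          have := (abs_le.1 (hw a ha a' ha')).2
          linarith
        linarith
    · exact Or.inr h1
  intro x hx y hy
  rw [abs_le]
  constructor
  · linarith [key x hx y hy]
  · linarith [key y hy x hx]

section tlay

variable {Ω Λ : Set V} {v : V} {K : BoxCx Λ v} {S : Rad K} {W : Wid K S} {B : Boxes W}
  {γ : Type} {φ : γ → K.G} {Pb : γ → Set V} {F : HFam 3 γ Λ} {D : Set V}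
  {ι : γ → Type} [∀ b, Fintype (ι b)] {l h : ∀ b, ι b → ℝ} {ς : γ → ℝ}
  {f5 h6 : ConHomeo Ω Λ} {Sm : ConHomeo Λ Λ}

/-- off the supports -/
theorem TLay_off (H : TLay B φ Pb F D l h ς f5 h6 Sm) {x : V} (hx : x ∈ Ω)
    (h1 : ∀ b, f5.toFun x ∉ (F.X b).K) : Sm.toFun (h6.toFun x) = f5.toFun x := by
  have h2 : h6.toFun x = f5.toFun x := H.off x hx fun b h3 => h1 b (H.PK b (interior_subset h3))
  rw [h2, H.isH.off _ h1]

/-- the other coordinates, off the boxes -/
theorem TLay_disp (H : TLay B φ Pb F D l h ς f5 h6 Sm) {b : γ} {y : V} (hy : y ∈ W.se (φ b)) :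
    |Sm.toFun y (F.X b).j - y (F.X b).j| ≤ (F.X b).D := by
  rw [H.eq_H hy]
  have h1 := norm_le_pi_norm ((F.X b).H.toFun y - y) (F.X b).j
  rw [Pi.sub_apply, Real.norm_eq_abs] at h1
  exact h1.trans ((F.X b).norm_sub_le y)

/-- **(x4)**: the coordinate of the tube, on a preconnected passive set near the tube `b`.
`hkeep` = [KEEP] of 936 -/
theorem TLay_osc (H : TLay B φ Pb F D l h ς f5 h6 Sm) {b : γ} {A : Set V} (hA : IsPreconnected A)
    (hAΩ : A ⊆ Ω) (hse : ∀ x ∈ A, f5.toFun x ∈ W.se (φ b))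
    (hkeep : ∀ x ∈ A, h6.toFun x ∈ Pb b → ∀ i, h6.toFun x (F.X b).j ∈ Icc (l b i) (h b i) →
      h6.toFun x (F.X b).j = f5.toFun x (F.X b).j)
    {c : ℝ} (hc : ∀ x ∈ A, ∀ y ∈ A, |f5.toFun x (F.X b).j - f5.toFun y (F.X b).j| ≤ c) :
    ∀ x ∈ A, ∀ y ∈ A, |Sm.toFun (h6.toFun x) (F.X b).j - Sm.toFun (h6.toFun y) (F.X b).j| ≤
      c + ((F.X b).be - (F.X b).al - blen (l b) (h b)) + 2 * (F.X b).D := by
  have h1 : ∀ x ∈ A, ∀ y ∈ A, |h6.toFun x (F.X b).j - h6.toFun y (F.X b).j| ≤
      c + ((F.X b).be - (F.X b).al - blen (l b) (h b)) := by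
    refine osc_band (H.bs b) hA
      (u := fun x => h6.toFun x (F.X b).j) (w := fun x => f5.toFun x (F.X b).j)
      (((continuous_apply _).comp_continuousOn (h6.cont.mono hAΩ))) hc fun x hx => ?_
    by_cases h2 : f5.toFun x ∈ Pb b
    · have h3 := (H.mem b x (hAΩ hx)).2 h2
      by_cases h4 : ∃ i, h6.toFun x (F.X b).j ∈ Icc (l b i) (h b i)
      · obtain ⟨i, hi⟩ := h4
        exact Or.inl (hkeep x hx h3 i hi)
      · push Not at h4
        exact Or.inr ⟨(H.PF b _ h3).1, h4⟩
    · left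
      have h3 : h6.toFun x = f5.toFun x := by
        refine H.off x (hAΩ hx) fun b' h4 => ?_
        by_cases hb : b' = b
        · subst hb; exact h2 (interior_subset h4)
        · exact H.not_K hb (hse x hx) (H.PK b' (interior_subset h4))
      show h6.toFun x (F.X b).j = f5.toFun x (F.X b).j
      rw [h3]
  intro x hx y hy
  have h2 := TLay_disp H (H.mem_se (hAΩ hx) (hse x hx))
  have h3 := TLay_disp H (H.mem_se (hAΩ hy) (hse y hy))
  have h4 := h1 x hx y hy
  rw [abs_le] at h2 h3 h4 ⊢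
  constructor <;> linarith [h2.1, h2.2, h3.1, h3.2, h4.1, h4.2]

end tlay

end P073.H227
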