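import Vale.Agent.P073.H227.OT1

/-!
# P073, H227, [OSC-TOP] (x4), second part: the staircase shrinks the gaps

`BS_gap`: an interval covered by an interval of length `c` and the gaps: the length is at most
`c` plus the length of the gaps inside.  `BS_sgG_le`: its image under the staircase.
`TLay_full`: passive sets laterally in the full zone; `TLay_far`: passive sets off the box.
-/

open Set Metric Topology Filter MeasureTheory
open scoped ENNReal

namespace P073.H227

open P073 P073.Net P073.PA691 P073.H236 P073.H429 P073.H880 P073.H936 P073.H936.K3 P073.H142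
open Vale.Agent.P073.St (V)
open Vale.Agent.P073.H73 (Mesh)
open Vale.Agent.P073.H471 Vale.Agent.P073.H267

theorem volume_Icc_inter {a b s t : ℝ} (hab : a ≤ b) (hst : s ≤ t) :
    volume (Icc a b ∩ Icc s t) = ENNReal.ofReal (clam a b t - clam a b s) := by
  rw [Icc_inter_Icc, Real.volume_Icc]
  rcases le_total t a with h1 | h1
  · rw [clam_of_le h1, clam_of_le (hst.trans h1), sub_self,
      ENNReal.ofReal_of_nonpos (by
        have h2 : min b t ≤ t := min_le_right _ _
        have h3 : a ≤ max a s := le_max_left _ _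
        linarith), ENNReal.ofReal_zero]
  · rcases le_total b s with h2 | h2
    · rw [clam_of_ge hab h2, clam_of_ge hab (h2.trans hst), sub_self,
        ENNReal.ofReal_of_nonpos (by
          have h3 : min b t ≤ b := min_le_left _ _
          have h4 : s ≤ max a s := le_max_right _ _
          linarith), ENNReal.ofReal_zero]
    · congr 1
      rcases le_total b t with h3 | h3
      · rw [clam_of_ge hab h3, min_eq_left h3]
        rcases le_total a s with h4 | h4
        · rw [clam_of_mem h4 h2, max_eq_right h4]; ring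
        · rw [clam_of_le h4, max_eq_left h4]; ring
      · rw [clam_of_mem h1 h3, min_eq_right h3]
        rcases le_total a s with h4 | h4
        · rw [clam_of_mem h4 h2, max_eq_right h4]; ring
        · rw [clam_of_le h4, max_eq_left h4]; ring

/-- an interval covered by an interval and by the gaps between the bands -/
theorem BS_gap {ι : Type*} [Fintype ι] {al be : ℝ} {l h : ι → ℝ} (H : BS al be l h)
    {s t m c : ℝ} (hc : 0 ≤ c) (hst : s ≤ t)
    (hsub : ∀ v ∈ Icc s t, v ∈ Icc m (m + c) ∨ (v ∈ Icc al be ∧ ∀ i, v ∉ Icc (l i) (h i))) :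
    t - s ≤ c + ((clam al be t - clam al be s) - (bt l h t - bt l h s)) := by
  classical
  set U : Set ℝ := ⋃ i, Icc (l i) (h i) ∩ Icc s t with hU
  have hUm : MeasurableSet U :=
    MeasurableSet.iUnion fun i => measurableSet_Icc.inter measurableSet_Icc
  have hUsub : U ⊆ Icc al be ∩ Icc s t :=
    iUnion_subset fun i => inter_subset_inter_left _ (Icc_subset_Icc (H.lo i).le (H.hi i).le)
  have hUv : volume U = ENNReal.ofReal (bt l h t - bt l h s) := by
    rw [hU, measure_iUnion (fun i j hij => ?_) fun i => measurableSet_Icc.inter measurableSet_Icc,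
      tsum_fintype]
    · unfold bt
      rw [← Finset.sum_sub_distrib,
        ENNReal.ofReal_sum_of_nonneg fun i _ => sub_nonneg.2 (clam_mono _ _ hst)]
      exact Finset.sum_congr rfl fun i _ => volume_Icc_inter (H.lt i).le hst
    · rw [Function.onFun, Set.disjoint_left]
      rintro x ⟨hx, -⟩ ⟨hx', -⟩
      rcases H.dis i j hij with h1 | h1
      · linarith [hx.2, hx'.1]
      · linarith [hx.1, hx'.2]
  have hN : volume ((Icc al be ∩ Icc s t) \ U) =
      ENNReal.ofReal ((clam al be t - clam al be s) - (bt l h t - bt l h s)) := by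
    rw [measure_diff hUsub hUm.nullMeasurableSet (by rw [hUv]; exact ENNReal.ofReal_ne_top), hUv,
      volume_Icc_inter H.hab.le hst, ENNReal.ofReal_sub _ (sub_nonneg.2 (BS.bt_mono hst))]
  have h1 : Icc s t ⊆ Icc m (m + c) ∪ ((Icc al be ∩ Icc s t) \ U) := by
    intro v hv
    rcases hsub v hv with h2 | ⟨h2, h3⟩
    · exact Or.inl h2
    · refine Or.inr ⟨⟨h2, hv⟩, fun h4 => ?_⟩
      obtain ⟨i, hi, -⟩ := mem_iUnion.1 h4
      exact h3 i hi
  have h0 : 0 ≤ (clam al be t - clam al be s) - (bt l h t - bt l h s) :=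
    sub_nonneg.2 (H.bt_sub_le hst)
  have h2 : volume (Icc s t) ≤ ENNReal.ofReal c +
      ENNReal.ofReal ((clam al be t - clam al be s) - (bt l h t - bt l h s)) := by
    refine (measure_mono h1).trans ((measure_union_le _ _).trans ?_)
    rw [hN, Real.volume_Icc]
    simp
  rw [Real.volume_Icc, ← ENNReal.ofReal_add hc h0] at h2
  exact (ENNReal.ofReal_le_ofReal_iff (by linarith)).1 h2

theorem BS_sgG_le {ι : Type*} [Fintype ι] {al be ς : ℝ} {l h : ι → ℝ} (H : BS al be l h)
    (h0 : 0 < ς) (h1 : ς ≤ 1) {s t m c : ℝ} (hc : 0 ≤ c) (hst : s ≤ t)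
    (hsub : ∀ v ∈ Icc s t, v ∈ Icc m (m + c) ∨ (v ∈ Icc al be ∧ ∀ i, v ∉ Icc (l i) (h i))) :
    sgG al be l h ς t - sgG al be l h ς s ≤ slG al be l h ς * c + ς * (be - al) := by
  have h2 := BS_gap H hc hst hsub
  have h3 : 0 ≤ bt l h t - bt l h s := sub_nonneg.2 (BS.bt_mono hst)
  have h4 : bt l h t - bt l h s ≤ clam al be t - clam al be s := H.bt_sub_le hst
  have h5 : clam al be t - clam al be s ≤ t - s := clam_sub_le hst
  have h6 : clam al be t - clam al be s ≤ be - al := by
    linarith [clam_le_len H.hab.le t, clam_nonneg al be s]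
  have h7 : 1 ≤ slG al be l h ς := H.one_le_slG h1
  set u := clam al be t - clam al be s with hu
  set b := bt l h t - bt l h s with hb
  have e : sgG al be l h ς t - sgG al be l h ς s =
      ((t - s) - u) + ς * (u - b) + slG al be l h ς * b := by
    unfold sgG slG
    rw [hu, hb]
    ring
  rw [e]
  have h8 : ς * (u - b) ≤ ς * (be - al) := mul_le_mul_of_nonneg_left (by linarith) h0.le
  have h9 : ((t - s) - u) + slG al be l h ς * b ≤ slG al be l h ς * c := by
    have h10 : (t - s) - u ≤ slG al be l h ς * ((t - s) - u) := by nlinarith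
    calc ((t - s) - u) + slG al be l h ς * b
        ≤ slG al be l h ς * (((t - s) - u) + b) := by nlinarith
      _ ≤ slG al be l h ς * c := mul_le_mul_of_nonneg_left (by linarith) (by linarith)
  linarith

section tlay

variable {Ω Λ : Set V} {v : V} {K : BoxCx Λ v} {S : Rad K} {W : Wid K S} {B : Boxes W}
  {γ : Type} {φ : γ → K.G} {Pb : γ → Set V} {F : HFam 3 γ Λ} {D : Set V}
  {ι : γ → Type} [∀ b, Fintype (ι b)] {l h : ∀ b, ι b → ℝ} {ς : γ → ℝ}
  {f5 h6 : ConHomeo Ω Λ} {Sm : ConHomeo Λ Λ}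

/-- a set off the box is not changed by the hook -/
theorem TLay_eq5 (H : TLay B φ Pb F D l h ς f5 h6 Sm) {b : γ} {x : V} (hx : x ∈ Ω)
    (hse : f5.toFun x ∈ W.se (φ b)) (h2 : f5.toFun x ∉ Pb b) : h6.toFun x = f5.toFun x := by
  refine H.off x hx fun b' h4 => ?_
  by_cases hb : b' = b
  · subst hb; exact h2 (interior_subset h4)
  · exact H.not_K hb hse (H.PK b' (interior_subset h4))

/-- **(x4), full zone**: the coordinate of the tube, on a preconnected passive set which is
laterally in the full zone -/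
theorem TLay_full (H : TLay B φ Pb F D l h ς f5 h6 Sm) {b : γ} {A : Set V}
    (hA : IsPreconnected A) (hAΩ : A ⊆ Ω) (hse : ∀ x ∈ A, f5.toFun x ∈ W.se (φ b))
    (hfull : ∀ x ∈ A, ∀ i, i ≠ (F.X b).j → (F.X b).lo i ≤ f5.toFun x i ∧
      f5.toFun x i ≤ (F.X b).hi i)
    (hkeep : ∀ x ∈ A, h6.toFun x ∈ Pb b → ∀ i, h6.toFun x (F.X b).j ∈ Icc (l b i) (h b i) →
      h6.toFun x (F.X b).j = f5.toFun x (F.X b).j)
    {c : ℝ} (hc : ∀ x ∈ A, ∀ y ∈ A, |f5.toFun x (F.X b).j - f5.toFun y (F.X b).j| ≤ c) :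
    ∀ x ∈ A, ∀ y ∈ A, |Sm.toFun (h6.toFun x) (F.X b).j - Sm.toFun (h6.toFun y) (F.X b).j| ≤
      slG (F.X b).al (F.X b).be (l b) (h b) (ς b) * c + ς b * ((F.X b).be - (F.X b).al) := by
  have hval : ∀ x ∈ A, Sm.toFun (h6.toFun x) (F.X b).j =
      sgG (F.X b).al (F.X b).be (l b) (h b) (ς b) (h6.toFun x (F.X b).j) := by
    intro x hx
    have h1 : ∀ i, i ≠ (F.X b).j → (F.X b).lo i ≤ h6.toFun x i ∧ h6.toFun x i ≤ (F.X b).hi i := by
      by_cases h2 : f5.toFun x ∈ Pb b
      · exact (H.PF b _ ((H.mem b x (hAΩ hx)).2 h2)).2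
      · rw [TLay_eq5 H (hAΩ hx) (hse x hx) h2]
        exact hfull x hx
    rw [H.eq_H (H.mem_se (hAΩ hx) (hse x hx)), (F.X b).full h1, Function.update_self, H.k b]
  have hcont : ContinuousOn (fun x => h6.toFun x (F.X b).j) A :=
    (continuous_apply _).comp_continuousOn (h6.cont.mono hAΩ)
  have heq : ∀ x ∈ A, h6.toFun x (F.X b).j = f5.toFun x (F.X b).j ∨
      (h6.toFun x (F.X b).j ∈ Icc (F.X b).al (F.X b).be ∧
        ∀ i, h6.toFun x (F.X b).j ∉ Icc (l b i) (h b i)) := by
    intro x hx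
    by_cases h2 : f5.toFun x ∈ Pb b
    · have h3 := (H.mem b x (hAΩ hx)).2 h2
      by_cases h4 : ∃ i, h6.toFun x (F.X b).j ∈ Icc (l b i) (h b i)
      · obtain ⟨i, hi⟩ := h4
        exact Or.inl (hkeep x hx h3 i hi)
      · push Not at h4
        exact Or.inr ⟨(H.PF b _ h3).1, h4⟩
    · left
      rw [TLay_eq5 H (hAΩ hx) (hse x hx) h2]
  have key : ∀ x ∈ A, ∀ y ∈ A, h6.toFun x (F.X b).j ≤ h6.toFun y (F.X b).j →
      |Sm.toFun (h6.toFun x) (F.X b).j - Sm.toFun (h6.toFun y) (F.X b).j| ≤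
      slG (F.X b).al (F.X b).be (l b) (h b) (ς b) * c + ς b * ((F.X b).be - (F.X b).al) := by
    intro x hx y hy hxy
    have hc0 : 0 ≤ c := (abs_nonneg _).trans (hc x hx x hx)
    have hne : ((fun x => f5.toFun x (F.X b).j) '' A).Nonempty := ⟨_, x, hx, rfl⟩
    have hbdd : BddBelow ((fun x => f5.toFun x (F.X b).j) '' A) := by
      refine ⟨f5.toFun x (F.X b).j - c, ?_⟩
      rintro _ ⟨a, ha, rfl⟩
      have := (abs_le.1 (hc a ha x hx)).1
      show f5.toFun x (F.X b).j - c ≤ f5.toFun a (F.X b).j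
      linarith
    have h1 := BS_sgG_le (H.bs b) (H.ς0 b) (H.ς1 b)
      (m := sInf ((fun x => f5.toFun x (F.X b).j) '' A)) hc0 hxy fun v hv => by
        obtain ⟨a, ha, rfl⟩ := hA.intermediate_value hx hy hcont hv
        rcases heq a ha with h1 | h1
        · refine Or.inl ⟨?_, ?_⟩
          · show _ ≤ h6.toFun a (F.X b).j
            rw [h1]; exact csInf_le hbdd ⟨a, ha, rfl⟩
          · show h6.toFun a (F.X b).j ≤ _
            rw [h1]
            have h2 : f5.toFun a (F.X b).j - c ≤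
                sInf ((fun x => f5.toFun x (F.X b).j) '' A) := by
              refine le_csInf hne ?_
              rintro _ ⟨a', ha', rfl⟩
              have := (abs_le.1 (hc a ha a' ha')).2
              show f5.toFun a (F.X b).j - c ≤ f5.toFun a' (F.X b).j
              linarith
            linarith
        · exact Or.inr h1
    have hmono : sgG (F.X b).al (F.X b).be (l b) (h b) (ς b) (h6.toFun x (F.X b).j) ≤
        sgG (F.X b).al (F.X b).be (l b) (h b) (ς b) (h6.toFun y (F.X b).j) := by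
      have h2 := (H.bs b).le_sub (H.ς1 b) hxy
      have h3 := mul_nonneg (H.ς0 b).le (sub_nonneg.2 hxy)
      linarith
    rw [hval x hx, hval y hy, abs_sub_comm, abs_of_nonneg (sub_nonneg.2 hmono)]
    exact h1
  intro x hx y hy
  rcases le_total (h6.toFun x (F.X b).j) (h6.toFun y (F.X b).j) with h1 | h1
  · exact key x hx y hy h1
  · rw [abs_sub_comm]
    exact key y hy x hx h1

/-- **(x4), off the box**: `f = S ∘ f5`; the fade costs `D / ρ` times the oscillation of the
lateral coordinates -/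
theorem TLay_far (H : TLay B φ Pb F D l h ς f5 h6 Sm) {b : γ} {A : Set V}
    (hAΩ : A ⊆ Ω) (hse : ∀ x ∈ A, f5.toFun x ∈ W.se (φ b)) (hoff : ∀ x ∈ A, f5.toFun x ∉ Pb b)
    {ρ d c : ℝ} (hρ : 0 < ρ) (hr : ∀ i, ρ ≤ (F.X b).r i) (hd0 : 0 ≤ d)
    (hd : ∀ x ∈ A, ∀ y ∈ A, ∀ i, i ≠ (F.X b).j →
      ((F.X b).lo i ≤ f5.toFun x i ∧ f5.toFun x i ≤ (F.X b).hi i) ∧
      ((F.X b).lo i ≤ f5.toFun y i ∧ f5.toFun y i ≤ (F.X b).hi i) ∨
      |f5.toFun x i - f5.toFun y i| ≤ d)
    (hc : ∀ x ∈ A, ∀ y ∈ A, |f5.toFun x (F.X b).j - f5.toFun y (F.X b).j| ≤ c) :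
    ∀ x ∈ A, ∀ y ∈ A, |Sm.toFun (h6.toFun x) (F.X b).j - Sm.toFun (h6.toFun y) (F.X b).j| ≤
      slG (F.X b).al (F.X b).be (l b) (h b) (ς b) * c + (F.X b).D * (d / ρ) := by
  intro x hx y hy
  rw [TLay_eq5 H (hAΩ hx) (hse x hx) (hoff x hx), TLay_eq5 H (hAΩ hy) (hse y hy) (hoff y hy),
    H.eq_H (hse x hx), H.eq_H (hse y hy)]
  have hsl1 : 1 ≤ slG (F.X b).al (F.X b).be (l b) (h b) (ς b) := (H.bs b).one_le_slG (H.ς1 b)
  have h10 := hx_abs_sub_le' (F.X b) hsl1
    (fun s t => by rw [H.k b]; exact (H.bs b).lip (H.ς0 b) (H.ς1 b) s t)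
    hρ hr (y := f5.toFun x) (y' := f5.toFun y) (d := d) (fun i hi => hd x hx y hy i hi) hd0
  refine h10.trans (add_le_add (mul_le_mul_of_nonneg_left (hc x hx y hy) (by linarith)) le_rfl)

end tlay

end P073.H227
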