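import Vale.Agent.P073.H227.OT2b

/-!
# P073, H227, [OSC-TOP] (x4), third part: faces which cross the wall of the full zone

`TLay_mix`: a passive set with a point in the full zone; `S5_osc_any`: all passive sets near a tube.
-/

open Set Metric Topology Filter MeasureTheory
open scoped ENNReal

namespace P073.H227

open P073 P073.Net P073.PA691 P073.H236 P073.H429 P073.H880 P073.H936 P073.H936.K3 P073.H142
open Vale.Agent.P073.St (V)
open Vale.Agent.P073.H73 (Mesh)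
open Vale.Agent.P073.H471 Vale.Agent.P073.H267

variable {Ω Λ : Set V} {v : V} {K : BoxCx Λ v} {S : Rad K} {W : Wid K S} {B : Boxes W}
  {γ : Type} {φ : γ → K.G} {Pb : γ → Set V} {F : HFam 3 γ Λ} {D : Set V}
  {ι : γ → Type} [∀ b, Fintype (ι b)] {l h : ∀ b, ι b → ℝ} {ς : γ → ℝ}
  {f5 h6 : ConHomeo Ω Λ} {Sm : ConHomeo Λ Λ}

/-- the clip is close to the full staircase where the bump is close to its maximum -/
theorem HX_abs_sub_le {n : ℕ} (B : HX n) {y : Fin n → ℝ} {e : ℝ} (he : |B.m y - B.D| ≤ e) :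
    |B.H.toFun y B.j - B.k (y B.j)| ≤ e := by
  have h1 : B.H.toFun y B.j = H236.cl B.k (B.m y) (y B.j) := by
    rw [B.H_toFun, H236.vc_same]
  have h2 : B.k (y B.j) = H236.cl B.k B.D (y B.j) := (H236.cl_eq (B.hD _)).symm
  rw [h1, h2]
  refine (H236.abs_cl_sub_cl_le (L := 1) le_rfl (by simp)).trans ?_
  simpa using he

/-- **(x4), mixed**: a preconnected passive set near the tube with a point in the full zone -/
theorem TLay_mix (H : TLay B φ Pb F D l h ς f5 h6 Sm) {b : γ} {A : Set V}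
    (hA : IsPreconnected A) (hAΩ : A ⊆ Ω) (hse : ∀ x ∈ A, f5.toFun x ∈ W.se (φ b))
    {x₀ : V} (hx₀ : ∀ i, i ≠ (F.X b).j → (F.X b).lo i ≤ f5.toFun x₀ i ∧
      f5.toFun x₀ i ≤ (F.X b).hi i) {ρ d : ℝ} (hρ : 0 < ρ) (hr : ∀ i, ρ ≤ (F.X b).r i)
    (hd0 : 0 ≤ d) (hd : ∀ x ∈ A, ∀ i, i ≠ (F.X b).j →
      ((F.X b).lo i ≤ f5.toFun x i ∧ f5.toFun x i ≤ (F.X b).hi i) ∨
      |f5.toFun x i - f5.toFun x₀ i| ≤ d)
    (hkeep : ∀ x ∈ A, h6.toFun x ∈ Pb b → ∀ i, h6.toFun x (F.X b).j ∈ Icc (l b i) (h b i) →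
      h6.toFun x (F.X b).j = f5.toFun x (F.X b).j)
    {c : ℝ} (hc : ∀ x ∈ A, ∀ y ∈ A, |f5.toFun x (F.X b).j - f5.toFun y (F.X b).j| ≤ c) :
    ∀ x ∈ A, ∀ y ∈ A, |Sm.toFun (h6.toFun x) (F.X b).j - Sm.toFun (h6.toFun y) (F.X b).j| ≤
      slG (F.X b).al (F.X b).be (l b) (h b) (ς b) * c + ς b * ((F.X b).be - (F.X b).al) +
        2 * ((F.X b).D * (d / ρ)) := by
  have hval : ∀ x ∈ A, |Sm.toFun (h6.toFun x) (F.X b).j -
      sgG (F.X b).al (F.X b).be (l b) (h b) (ς b) (h6.toFun x (F.X b).j)| ≤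
        (F.X b).D * (d / ρ) := by
    intro x hx
    rw [H.eq_H (H.mem_se (hAΩ hx) (hse x hx)), ← H.k b]
    refine HX_abs_sub_le (F.X b) ?_
    by_cases h2 : f5.toFun x ∈ Pb b
    · have h3 : (F.X b).m (h6.toFun x) = (F.X b).D :=
        bmp_full (F.X b).hr (H.PF b _ ((H.mem b x (hAΩ hx)).2 h2)).2
      rw [h3, sub_self, abs_zero]
      exact mul_nonneg (F.X b).D0 (div_nonneg hd0 hρ.le)
    · rw [TLay_eq5 H (hAΩ hx) (hse x hx) h2]
      have h3 : (F.X b).m (f5.toFun x₀) = (F.X b).D := bmp_full (F.X b).hr hx₀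
      rw [← h3]
      refine (abs_bmp_sub_le' (F.X b).D0 hρ hr (d := d) (fun i hi => ?_) hd0).trans (le_of_eq ?_)
      · rcases hd x hx i hi with h4 | h4
        · exact Or.inl ⟨h4, hx₀ i hi⟩
        · exact Or.inr h4
      · rw [h3]
  have hcont : ContinuousOn (fun x => h6.toFun x (F.X b).j) A :=
    (continuous_apply _).comp_continuousOn (h6.cont.mono hAΩ)
  have heq : ∀ x ∈ A, h6.toFun x (F.X b).j = f5.toFun x (F.X b).j ∨
      (h6.toFun x (F.X b).j ∈ Icc (F.X b).al (F.X b).be ∧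
        ∀ i, h6.toFun x (F.X b).j ∉ Icc (l b i) (h b i)) := by
    intro x hx
    by_cases h2 : f5.toFun x ∈ Pb b
    · have h3 := (H.mem b x (hAΩ hx)).2 h2
      by_cases h4 : ∃ i, h6.toFun x (F.X b).j ∈ Icc (l b i) (h b i)
      · obtain ⟨i, hi⟩ := h4
        exact Or.inl (hkeep x hx h3 i hi)
      · push Not at h4
        exact Or.inr ⟨(H.PF b _ h3).1, h4⟩
    · left
      rw [TLay_eq5 H (hAΩ hx) (hse x hx) h2]
  have key : ∀ x ∈ A, ∀ y ∈ A, h6.toFun x (F.X b).j ≤ h6.toFun y (F.X b).j →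
      |sgG (F.X b).al (F.X b).be (l b) (h b) (ς b) (h6.toFun x (F.X b).j) -
        sgG (F.X b).al (F.X b).be (l b) (h b) (ς b) (h6.toFun y (F.X b).j)| ≤
      slG (F.X b).al (F.X b).be (l b) (h b) (ς b) * c + ς b * ((F.X b).be - (F.X b).al) := by
    intro x hx y hy hxy
    have hc0 : 0 ≤ c := (abs_nonneg _).trans (hc x hx x hx)
    have hne : ((fun x => f5.toFun x (F.X b).j) '' A).Nonempty := ⟨_, x, hx, rfl⟩
    have hbdd : BddBelow ((fun x => f5.toFun x (F.X b).j) '' A) := by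
      refine ⟨f5.toFun x (F.X b).j - c, ?_⟩
      rintro _ ⟨a, ha, rfl⟩
      have := (abs_le.1 (hc a ha x hx)).1
      show f5.toFun x (F.X b).j - c ≤ f5.toFun a (F.X b).j
      linarith
    have h1 := BS_sgG_le (H.bs b) (H.ς0 b) (H.ς1 b)
      (m := sInf ((fun x => f5.toFun x (F.X b).j) '' A)) hc0 hxy fun v hv => by
        obtain ⟨a, ha, rfl⟩ := hA.intermediate_value hx hy hcont hv
        rcases heq a ha with h1 | h1
        · refine Or.inl ⟨?_, ?_⟩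
          · show _ ≤ h6.toFun a (F.X b).j
            rw [h1]; exact csInf_le hbdd ⟨a, ha, rfl⟩
          · show h6.toFun a (F.X b).j ≤ _
            rw [h1]
            have h2 : f5.toFun a (F.X b).j - c ≤
                sInf ((fun x => f5.toFun x (F.X b).j) '' A) := by
              refine le_csInf hne ?_
              rintro _ ⟨a', ha', rfl⟩
              have := (abs_le.1 (hc a ha a' ha')).2
              show f5.toFun a (F.X b).j - c ≤ f5.toFun a' (F.X b).j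
              linarith
            linarith
        · exact Or.inr h1
    have hmono : sgG (F.X b).al (F.X b).be (l b) (h b) (ς b) (h6.toFun x (F.X b).j) ≤
        sgG (F.X b).al (F.X b).be (l b) (h b) (ς b) (h6.toFun y (F.X b).j) := by
      have h2 := (H.bs b).le_sub (H.ς1 b) hxy
      have h3 := mul_nonneg (H.ς0 b).le (sub_nonneg.2 hxy)
      linarith
    rw [abs_sub_comm, abs_of_nonneg (sub_nonneg.2 hmono)]
    exact h1
  intro x hx y hy
  have h2 := hval x hx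
  have h3 := hval y hy
  have h4 : |sgG (F.X b).al (F.X b).be (l b) (h b) (ς b) (h6.toFun x (F.X b).j) -
        sgG (F.X b).al (F.X b).be (l b) (h b) (ς b) (h6.toFun y (F.X b).j)| ≤
      slG (F.X b).al (F.X b).be (l b) (h b) (ς b) * c + ς b * ((F.X b).be - (F.X b).al) := by
    rcases le_total (h6.toFun x (F.X b).j) (h6.toFun y (F.X b).j) with h1 | h1
    · exact key x hx y hy h1
    · rw [abs_sub_comm]
      exact key y hy x hx h1
  rw [abs_le] at h2 h3 h4 ⊢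
  constructor <;> linarith [h2.1, h2.2, h3.1, h3.2, h4.1, h4.2]

end P073.H227

namespace Vale.Agent.P073.H227

open _root_.P073 _root_.P073.Net _root_.P073.PA691 _root_.P073.H236 _root_.P073.H579
open _root_.P073.H936 _root_.P073.H936.K3
open _root_.P073.H142
open _root_.P073.H880.RP
open _root_.P073.H429
open _root_.P073.H227
open Vale.Agent.P073.St (V)
open Vale.Agent.P073.H471 Vale.Agent.P073.H267
open Vale.Agent.P073.H73 (Mesh)
open Vale.Agent.P073.H193 (Edges Cyc edges)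
open Vale.Agent.P073.H926
open Vale.Agent.P073.H238.K3
open Vale.Agent.P073.H267.K3

variable {c₀ n δ : ℝ} {j : ℕ} {Ω Λ : Set V} {v w : V} {ρ : V → ℝ} {M : Mesh Ω} {h : ConHomeo Ω Λ}
  {J₀ J : Set (ℕ × (Fin 3 → ℤ))} {P Z : Set M.ι} {K : BoxCx Λ w}
  {D : KIn3 c₀ n j δ v w ρ M h J₀ J P Z} {C : Cells ρ w K} {C₀ μT : ℝ}
  {X : S1 D C C₀ μT} {Y₂ : S2 X} {Ys : Set M.κ} {sc : Sharp} {Y₃ : S3 Y₂ Ys sc} {Y₄ : S4 Y₃}

/-- **(x4)**, all preconnected parts of faces near a tube: every lateral coordinate of `f5` is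
either in the full zone `YS` on the whole set, or its oscillation is at most `d` -/
theorem S5_osc_any (Y₅ : S5 Y₄) (hμ : ∀ b, 0 ≤ Y₅.μ b) {b : pG C J₀} {A : Set V}
    (hA : IsPreconnected A) {k : M.κ} (hAF : A ⊆ M.F k) (hAΩ : A ⊆ Ω)
    (hse : ∀ x ∈ A, Y₄.f5.toFun x ∈ (D.W C).se b.1) {κ d c : ℝ} (hd0 : 0 ≤ d) (hκ0 : 0 ≤ κ)
    (hκ : Y₅.μ b * (ebe (D.W C) b.1 - eal (D.W C) b.1) ≤ κ * ((D.G C).uT b.1 / 4))
    (hd : ∀ i, i ≠ K.dir b.1 →
      (∀ x ∈ A, ylo (YS (D.G C)) b.1 i ≤ Y₄.f5.toFun x i ∧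
        Y₄.f5.toFun x i ≤ yhi (YS (D.G C)) b.1 i) ∨
      ∀ x ∈ A, ∀ y ∈ A, |Y₄.f5.toFun x i - Y₄.f5.toFun y i| ≤ d)
    (hc : ∀ x ∈ A, ∀ y ∈ A, |Y₄.f5.toFun x (K.dir b.1) - Y₄.f5.toFun y (K.dir b.1)| ≤ c) :
    ∀ x ∈ A, ∀ y ∈ A, |Y₅.f.toFun x (K.dir b.1) - Y₅.f.toFun y (K.dir b.1)| ≤
      (1 + Y₅.μ b) * c + Y₅.ς b * (ebe (D.W C) b.1 - eal (D.W C) b.1) + 2 * (κ * d) := by
  classical
  have hu : 0 < (D.G C).uT b.1 / 4 := by have := (D.G C).uT_pos b.1; positivity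
  have hς := (Y₅.ς0 b).le
  have hab : 0 ≤ ebe (D.W C) b.1 - eal (D.W C) b.1 := sub_nonneg.2 (Y₅.Th b).hab.le
  have hκd : 0 ≤ κ * d := mul_nonneg hκ0 hd0
  by_cases hex : ∃ x₀ ∈ A, ∀ i, i ≠ K.dir b.1 → ylo (YS (D.G C)) b.1 i ≤ Y₄.f5.toFun x₀ i ∧
      Y₄.f5.toFun x₀ i ≤ yhi (YS (D.G C)) b.1 i
  · obtain ⟨x₀, hx₀A, hx₀⟩ := hex
    have h1 := TLay_mix Y₅.lay (b := b) hA hAΩ hse (x₀ := x₀) hx₀ (ρ := (D.G C).uT b.1 / 4) hu
      (fun i => le_rfl) hd0 (fun x hx i hi => (hd i hi).imp (fun h => h x hx)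
        fun h => h x hx x₀ hx₀A) (fun x hx h6 i hi =>
      S5_keep Y₅ (hAΩ hx) (Or.inr ⟨k, hAF hx⟩) h6 (i := i) (by
        obtain ⟨h2, h3⟩ := hi
        have e : ((tfam (Λ := Λ) (YS (D.G C)) (rT (D.G C)) (rT_pos (D.G C))
          (fun e k => (YS_p_lt (D.G C) e k).le) (fun e k => (YS_q_lt (D.G C) e k).le)
          Y₅.H.inj Y₅.Th Y₅.ς0 Y₅.ς1).X b).j = K.dir b.1 := rfl
        rw [e] at h2 h3
        rw [abs_le]
        constructor <;> linarith)) hc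
    have hD : ((tfam (Λ := Λ) (YS (D.G C)) (rT (D.G C)) (rT_pos (D.G C))
        (fun e k => (YS_p_lt (D.G C) e k).le) (fun e k => (YS_q_lt (D.G C) e k).le)
        Y₅.H.inj Y₅.Th Y₅.ς0 Y₅.ς1).X b).D ≤ Y₅.μ b * (ebe (D.W C) b.1 - eal (D.W C) b.1) :=
      (Y₅.Th b).disp_le (hμ b)
    intro x hx y hy
    have hc0 : 0 ≤ c := (abs_nonneg _).trans (hc x hx x hx)
    refine (h1 x hx y hy).trans (add_le_add (add_le_add
      (mul_le_mul_of_nonneg_right ?_ hc0) le_rfl) ?_)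
    · exact (Y₅.Th b).slG_le hς (Y₅.ς1 b) (hμ b)
    · refine mul_le_mul_of_nonneg_left ?_ zero_le_two
      calc _ ≤ κ * ((D.G C).uT b.1 / 4) * (d / ((D.G C).uT b.1 / 4)) :=
            mul_le_mul_of_nonneg_right (hD.trans hκ) (div_nonneg hd0 hu.le)
        _ = κ * d := by
          have h3 : (D.G C).uT b.1 ≠ 0 := ((D.G C).uT_pos b.1).ne'
          field_simp
  · push Not at hex
    have hoff : ∀ x ∈ A, Y₄.f5.toFun x ∉ YB (YT (D.G C) (pS C J₀)) b.1 := by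
      intro x hx hxP
      obtain ⟨i, hi, h2⟩ := hex x hx
      have h3 := (Y₅.lay.PF b _ hxP).2 i hi
      exact absurd h3.2 (not_le.2 (h2 h3.1))
    have h1 := S5_osc_far Y₅ hμ (b := b) hAΩ hse hoff hd0 hκ (fun x hx y hy i hi => by
      rcases hd i hi with h2 | h2
      · exact Or.inl ⟨h2 x hx, h2 y hy⟩
      · exact Or.inr (h2 x hx y hy)) hc
    intro x hx y hy
    have h2 := h1 x hx y hy
    have h3 := mul_nonneg hς hab
    linarith

end Vale.Agent.P073.H227
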