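import Vale.Agent.P073.H267.K3St2
import Vale.Agent.P073.H227.OT1

/-!
# P073, H227, [OSC-TOP] (x4) over `S5`: the oscillation after the T-hook and its staircase
-/

open Set Metric Topology Filter
open scoped ENNReal

set_option linter.unusedSectionVars false

namespace Vale.Agent.P073.H227

open _root_.P073 _root_.P073.Net _root_.P073.PA691 _root_.P073.H236 _root_.P073.H579
open _root_.P073.H936 _root_.P073.H936.K3
open _root_.P073.H142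
open _root_.P073.H880.RP
open _root_.P073.H429
open _root_.P073.H227
open Vale.Agent.P073.St (V)
open Vale.Agent.P073.H471 Vale.Agent.P073.H267
open Vale.Agent.P073.H73 (Mesh)
open Vale.Agent.P073.H193 (Edges Cyc edges)
open Vale.Agent.P073.H926
open Vale.Agent.P073.H238.K3
open Vale.Agent.P073.H267.K3

variable {c₀ n δ : ℝ} {j : ℕ} {Ω Λ : Set V} {v w : V} {ρ : V → ℝ} {M : Mesh Ω} {h : ConHomeo Ω Λ}
  {J₀ J : Set (ℕ × (Fin 3 → ℤ))} {P Z : Set M.ι} {K : BoxCx Λ w}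
  {D : KIn3 c₀ n j δ v w ρ M h J₀ J P Z} {C : Cells ρ w K} {C₀ μT : ℝ}
  {X : S1 D C C₀ μT} {Y₂ : S2 X} {Ys : Set M.κ} {sc : Sharp} {Y₃ : S3 Y₂ Ys sc} {Y₄ : S4 Y₃}

/-- **[KEEP]** on passive sets -/
theorem S5_keep (Y₅ : S5 Y₄) {b : pG C J₀} {x : V} (hx : x ∈ Ω)
    (hp : (∃ i, i ∉ ZbT Y₄ b ∧ x ∈ M.Q i) ∨ ∃ k, x ∈ M.F k)
    (h6 : Y₅.h6.toFun x ∈ YB (YT (D.G C) (pS C J₀)) b.1) {i : (Y₅.Th b).I}
    (hi : |Y₅.h6.toFun x (K.dir b.1) - (Y₅.Th b).c i| ≤ (Y₅.Th b).w i) :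
    Y₅.h6.toFun x (K.dir b.1) = Y₄.f5.toFun x (K.dir b.1) := by
  have h1 : (∃ i, i ∉ ZbT Y₄ b ∧ ({x} : Set V) ⊆ M.Q i) ∨ ∃ k, ({x} : Set V) ⊆ M.F k := by
    rcases hp with ⟨i, hi, hx⟩ | ⟨k, hk⟩
    · exact Or.inl ⟨i, hi, Set.singleton_subset_iff.2 hx⟩
    · exact Or.inr ⟨k, Set.singleton_subset_iff.2 hk⟩
  exact (Y₅.tube.keep b (i := i) hx h6 (fun q => Y₅.H.off h1 q rfl) hi).2.symm

/-- the kill zones of different tubes; off the supports -/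
theorem S5_f_off (Y₅ : S5 Y₄) {x : V} (hx : x ∈ Ω)
    (h1 : ∀ b : pG C J₀, Y₄.f5.toFun x ∉ YB ((YS (D.G C)).add (rT (D.G C))
      (rT_pos (D.G C)) (fun e k => (YS_p_lt (D.G C) e k).le)
      fun e k => (YS_q_lt (D.G C) e k).le) b.1) :
    Y₅.f.toFun x = Y₄.f5.toFun x := by
  refine TLay_off Y₅.lay hx fun b h2 => h1 b ?_
  exact (tX_K (r := rT (D.G C)) (hr := rT_pos (D.G C))
    (hp := fun e k => (YS_p_lt (D.G C) e k).le) (hq := fun e k => (YS_q_lt (D.G C) e k).le)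
    (Y := YS (D.G C)) (T := Y₅.Th b) (h0 := Y₅.ς0 b) (h1 := Y₅.ς1 b)) ▸ h2

/-- **(x4)**: the coordinate of the tube, on a preconnected part of a face near the tube -/
theorem S5_osc_tube (Y₅ : S5 Y₄) (hμ : ∀ b, 0 ≤ Y₅.μ b) {b : pG C J₀} {A : Set V}
    (hA : IsPreconnected A) {k : M.κ} (hAF : A ⊆ M.F k) (hAΩ : A ⊆ Ω)
    (hse : ∀ x ∈ A, Y₄.f5.toFun x ∈ (D.W C).se b.1) {c : ℝ}
    (hc : ∀ x ∈ A, ∀ y ∈ A, |Y₄.f5.toFun x (K.dir b.1) - Y₄.f5.toFun y (K.dir b.1)| ≤ c) :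
    ∀ x ∈ A, ∀ y ∈ A, |Y₅.f.toFun x (K.dir b.1) - Y₅.f.toFun y (K.dir b.1)| ≤
      c + 3 * (Y₅.μ b * (ebe (D.W C) b.1 - eal (D.W C) b.1)) := by
  have h1 := TLay_osc Y₅.lay (b := b) hA hAΩ hse (fun x hx h6 i hi =>
    S5_keep Y₅ (hAΩ hx) (Or.inr ⟨k, hAF hx⟩) h6 (i := i) (by
      obtain ⟨h2, h3⟩ := hi
      have e : ((tfam (Λ := Λ) (YS (D.G C)) (rT (D.G C)) (rT_pos (D.G C))
        (fun e k => (YS_p_lt (D.G C) e k).le) (fun e k => (YS_q_lt (D.G C) e k).le)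
        Y₅.H.inj Y₅.Th Y₅.ς0 Y₅.ς1).X b).j = K.dir b.1 := rfl
      rw [e] at h2 h3
      rw [abs_le]
      constructor <;> linarith)) hc
  have hD : ((tfam (Λ := Λ) (YS (D.G C)) (rT (D.G C)) (rT_pos (D.G C))
        (fun e k => (YS_p_lt (D.G C) e k).le) (fun e k => (YS_q_lt (D.G C) e k).le)
        Y₅.H.inj Y₅.Th Y₅.ς0 Y₅.ς1).X b).D ≤ Y₅.μ b * (ebe (D.W C) b.1 - eal (D.W C) b.1) :=
    (Y₅.Th b).disp_le (hμ b)
  have hD' : ((tfam (Λ := Λ) (YS (D.G C)) (rT (D.G C)) (rT_pos (D.G C))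
        (fun e k => (YS_p_lt (D.G C) e k).le) (fun e k => (YS_q_lt (D.G C) e k).le)
        Y₅.H.inj Y₅.Th Y₅.ς0 Y₅.ς1).X b).D = ebe (D.W C) b.1 - eal (D.W C) b.1 -
          blen (fun i => (Y₅.Th b).c i - (Y₅.Th b).w i) fun i => (Y₅.Th b).c i + (Y₅.Th b).w i := rfl
  intro x hx y hy
  refine (h1 x hx y hy).trans ?_
  change c + (ebe (D.W C) b.1 - eal (D.W C) b.1 -
    blen (fun i => (Y₅.Th b).c i - (Y₅.Th b).w i) fun i => (Y₅.Th b).c i + (Y₅.Th b).w i) + _ ≤ _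
  rw [← hD']
  linarith

end Vale.Agent.P073.H227
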