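import Vale.Agent.P073.H227.OT2
import Vale.Agent.P073.H227.OT1b

/-!
# P073, H227, [OSC-TOP] (x4) over `S5`, second part: the form without an additive error

`S5_osc_full`: passive sets laterally in the full zone of `YS`; `S5_osc_far`: off the box `YT`.
-/

open Set Metric Topology Filter
open scoped ENNReal

set_option linter.unusedSectionVars false

namespace Vale.Agent.P073.H227

open _root_.P073 _root_.P073.Net _root_.P073.PA691 _root_.P073.H236 _root_.P073.H579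
open _root_.P073.H936 _root_.P073.H936.K3
open _root_.P073.H142
open _root_.P073.H880.RP
open _root_.P073.H429
open _root_.P073.H227
open Vale.Agent.P073.St (V)
open Vale.Agent.P073.H471 Vale.Agent.P073.H267
open Vale.Agent.P073.H73 (Mesh)
open Vale.Agent.P073.H193 (Edges Cyc edges)
open Vale.Agent.P073.H926
open Vale.Agent.P073.H238.K3
open Vale.Agent.P073.H267.K3

variable {c₀ n δ : ℝ} {j : ℕ} {Ω Λ : Set V} {v w : V} {ρ : V → ℝ} {M : Mesh Ω} {h : ConHomeo Ω Λ}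
  {J₀ J : Set (ℕ × (Fin 3 → ℤ))} {P Z : Set M.ι} {K : BoxCx Λ w}
  {D : KIn3 c₀ n j δ v w ρ M h J₀ J P Z} {C : Cells ρ w K} {C₀ μT : ℝ}
  {X : S1 D C C₀ μT} {Y₂ : S2 X} {Ys : Set M.κ} {sc : Sharp} {Y₃ : S3 Y₂ Ys sc} {Y₄ : S4 Y₃}

/-- **(x4), full zone** -/
theorem S5_osc_full (Y₅ : S5 Y₄) (hμ : ∀ b, 0 ≤ Y₅.μ b) {b : pG C J₀} {A : Set V}
    (hA : IsPreconnected A) {k : M.κ} (hAF : A ⊆ M.F k) (hAΩ : A ⊆ Ω)
    (hse : ∀ x ∈ A, Y₄.f5.toFun x ∈ (D.W C).se b.1)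
    (hfull : ∀ x ∈ A, ∀ i, i ≠ K.dir b.1 → ylo (YS (D.G C)) b.1 i ≤ Y₄.f5.toFun x i ∧
      Y₄.f5.toFun x i ≤ yhi (YS (D.G C)) b.1 i) {c : ℝ}
    (hc : ∀ x ∈ A, ∀ y ∈ A, |Y₄.f5.toFun x (K.dir b.1) - Y₄.f5.toFun y (K.dir b.1)| ≤ c) :
    ∀ x ∈ A, ∀ y ∈ A, |Y₅.f.toFun x (K.dir b.1) - Y₅.f.toFun y (K.dir b.1)| ≤
      (1 + Y₅.μ b) * c + Y₅.ς b * (ebe (D.W C) b.1 - eal (D.W C) b.1) := by
  have h1 := TLay_full Y₅.lay (b := b) hA hAΩ hse hfull (fun x hx h6 i hi =>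
    S5_keep Y₅ (hAΩ hx) (Or.inr ⟨k, hAF hx⟩) h6 (i := i) (by
      obtain ⟨h2, h3⟩ := hi
      have e : ((tfam (Λ := Λ) (YS (D.G C)) (rT (D.G C)) (rT_pos (D.G C))
        (fun e k => (YS_p_lt (D.G C) e k).le) (fun e k => (YS_q_lt (D.G C) e k).le)
        Y₅.H.inj Y₅.Th Y₅.ς0 Y₅.ς1).X b).j = K.dir b.1 := rfl
      rw [e] at h2 h3
      rw [abs_le]
      constructor <;> linarith)) hc
  intro x hx y hy
  have hc0 : 0 ≤ c := (abs_nonneg _).trans (hc x hx x hx)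
  refine (h1 x hx y hy).trans (add_le_add (mul_le_mul_of_nonneg_right ?_ hc0) le_rfl)
  exact (Y₅.Th b).slG_le (Y₅.ς0 b).le (Y₅.ς1 b) (hμ b)

/-- **(x4), off the box of the hook** -/
theorem S5_osc_far (Y₅ : S5 Y₄) (hμ : ∀ b, 0 ≤ Y₅.μ b) {b : pG C J₀} {A : Set V} (hAΩ : A ⊆ Ω)
    (hse : ∀ x ∈ A, Y₄.f5.toFun x ∈ (D.W C).se b.1)
    (hoff : ∀ x ∈ A, Y₄.f5.toFun x ∉ YB (YT (D.G C) (pS C J₀)) b.1) {κ d c : ℝ} (hd0 : 0 ≤ d)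
    (hκ : Y₅.μ b * (ebe (D.W C) b.1 - eal (D.W C) b.1) ≤ κ * ((D.G C).uT b.1 / 4))
    (hd : ∀ x ∈ A, ∀ y ∈ A, ∀ i, i ≠ K.dir b.1 →
      (ylo (YS (D.G C)) b.1 i ≤ Y₄.f5.toFun x i ∧ Y₄.f5.toFun x i ≤ yhi (YS (D.G C)) b.1 i) ∧
      (ylo (YS (D.G C)) b.1 i ≤ Y₄.f5.toFun y i ∧ Y₄.f5.toFun y i ≤ yhi (YS (D.G C)) b.1 i) ∨
      |Y₄.f5.toFun x i - Y₄.f5.toFun y i| ≤ d)
    (hc : ∀ x ∈ A, ∀ y ∈ A, |Y₄.f5.toFun x (K.dir b.1) - Y₄.f5.toFun y (K.dir b.1)| ≤ c) :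
    ∀ x ∈ A, ∀ y ∈ A, |Y₅.f.toFun x (K.dir b.1) - Y₅.f.toFun y (K.dir b.1)| ≤
      (1 + Y₅.μ b) * c + κ * d := by
  have hu : 0 < (D.G C).uT b.1 / 4 := by have := (D.G C).uT_pos b.1; positivity
  have h1 := TLay_far Y₅.lay (b := b) hAΩ hse hoff (ρ := (D.G C).uT b.1 / 4) hu
    (fun i => le_rfl) hd0 hd hc
  have hD : ((tfam (Λ := Λ) (YS (D.G C)) (rT (D.G C)) (rT_pos (D.G C))
        (fun e k => (YS_p_lt (D.G C) e k).le) (fun e k => (YS_q_lt (D.G C) e k).le)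
        Y₅.H.inj Y₅.Th Y₅.ς0 Y₅.ς1).X b).D ≤ Y₅.μ b * (ebe (D.W C) b.1 - eal (D.W C) b.1) :=
    (Y₅.Th b).disp_le (hμ b)
  intro x hx y hy
  have hc0 : 0 ≤ c := (abs_nonneg _).trans (hc x hx x hx)
  refine (h1 x hx y hy).trans (add_le_add (mul_le_mul_of_nonneg_right ?_ hc0) ?_)
  · exact (Y₅.Th b).slG_le (Y₅.ς0 b).le (Y₅.ς1 b) (hμ b)
  · calc _ ≤ κ * ((D.G C).uT b.1 / 4) * (d / ((D.G C).uT b.1 / 4)) :=
          mul_le_mul_of_nonneg_right (hD.trans hκ) (div_nonneg hd0 hu.le)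
      _ = κ * d := by
        have h3 : (D.G C).uT b.1 ≠ 0 := ((D.G C).uT_pos b.1).ne'
        field_simp

end Vale.Agent.P073.H227
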