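import Vale.Agent.P073.H233.Tail3E
import Vale.Agent.P073.H233.OscPC

/-!
# P073, H227, [OSC-TOP] (g): faces with the cone estimates (`FaceOK3`), in the form of `Last3.osc`
-/

open Set Metric Topology Filter MeasureTheory
open scoped ENNReal

namespace Vale.Agent.P073.H227

open _root_.P073 _root_.P073.Net _root_.P073.PA691 _root_.P073.TM
open Vale.Agent.P073.St (V)
open Vale.Agent.P073.H471
open Vale.Agent.P073.H212 (IsSoft)
open Vale.Agent.P073.H73 (Mesh sqr onSeg)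
open Vale.Agent.P073.H193 (Edges edges)
open Vale.Agent.P073.H233
open _root_.P073.H142 (FStar Num)
open _root_.P073.H950 (bsum)

variable {Ω Λ : Set V} {M : Mesh Ω} {w : V} {K : BoxCx Λ w} {S : Rad K} {W : Wid K S}
  {B : Boxes W} {X : PSet K} {μ : ℝ}

/-- **(g)**: the oscillation on a square face from the cone estimates before the collapse -/
theorem osc_face (hμ : 0 ≤ μ) (hμ1 : μ ≤ 1) {h f : V → V} {i : M.ι} {k : M.κ}
    (hk : M.F k ⊆ M.Q i) {ε : M.κ → ℝ} {om εL : (edges M).ε → ℝ} {lam osc : M.ι → ℝ}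
    (hε : 0 < ε k) (T : Tol M h ε om εL lam osc)
    (hsq : ∃ a l σ, 0 < σ ∧ M.F k = sqr a l σ) (hf : ContinuousOn f (M.F k)) {c₁ D₀ c : ℝ}
    (hc₁ : 0 < c₁) (hD₀ : 0 ≤ D₀) (H : FaceOK3 B X h f c₁ D₀ (ε k) k)
    (hc : 880 * c₁ * D₀ ≤ c) :
    ∃ L, (∀ b > 0, FHyp M h i k b → L ≤ c * b) ∧ Ev B X μ M f (.inl k) (OscEst f k L) := by
  obtain ⟨a, l, σ, hσ, hF⟩ := hsq
  obtain ⟨St, b, h1, h2, h3⟩ := H
  obtain ⟨t₀, ht₀, h4⟩ := St.exists_eps hc₁ h2
  refine ⟨55 * (8 * c₁) * bsum M k b, fun B' hB0 hB => ?_, t₀, ht₀,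
    fun R N t Φ _ ht HS HΦ => ?_⟩
  · have h5 := bsum_le_of_num h1 hD₀ hε.le hB0.le hB.2
    have h6 := (T.eps i k hk).trans (T.osc_le i B' hB.1)
    have h7 : bsum M k b ≤ D₀ * (2 * B') :=
      h5.trans (mul_le_mul_of_nonneg_left (by linarith) hD₀)
    calc 55 * (8 * c₁) * bsum M k b ≤ 55 * (8 * c₁) * (D₀ * (2 * B')) :=
          mul_le_mul_of_nonneg_left h7 (by positivity)
      _ = 880 * c₁ * D₀ * B' := by ring
      _ ≤ c * B' := mul_le_mul_of_nonneg_right hc hB0.le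
  · have hE : St.Est (8 * c₁) b fun x => Φ.toFun (f x) := by
      intro e he x hx
      have h5 := (h3 e he x hx).est (k := (.inl k : M.κ ⊕ M.ι)) HS HΦ hμ hμ1
        (St.cone_sub he)
        (hf.mono (St.cone_sub he)) hx (St.con_nonneg hc₁.le (fun e he => (h2 e he).le) he)
        (ht.trans (h4 e he))
      filter_upwards [h5] with y hy
      rw [St.con_mul]
      exact hy
    exact est_osc hσ hF (by positivity) (fun e he => (h2 e he).le) hE

end Vale.Agent.P073.H227
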