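import Vale.Agent.P073.H227.OT3
import Vale.Agent.P073.H579.TopO
import Vale.Agent.P073.H341.PL7
import Vale.Agent.P073.H803.WorldB
import Vale.Agent.P073.H194.FaceTop3
import Vale.Agent.P073.H880.TopM

/-!
# P073, H227, [OSC-TOP]: the row `Last3.osc`, assembly

* `row_df`: the drawn faces (`FaceOK3` for all of `DF`, `osc_face`);
* `row_osc_of`: the row, from the row of the faces which are not listed (`SupF`).
-/

open Set Metric Topology Filter MeasureTheory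
open scoped ENNReal

set_option linter.unusedSectionVars false

namespace Vale.Agent.P073.H227

open _root_.P073 _root_.P073.Net _root_.P073.PA691 _root_.P073.H236 _root_.P073.H579
open _root_.P073.H142
open _root_.P073.H345 (PK tg PLev)
open _root_.P073.H919 (HB mem_HB)
open _root_.P073.H880.RP
open _root_.P073.H429
open Vale.Agent.P073.St (V)
open Vale.Agent.P073.H471 Vale.Agent.P073.H267
open Vale.Agent.P073.H73 (Mesh onSeg sqr)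
open Vale.Agent.P073.H193 (Edges edges LAtC)
open Vale.Agent.P073.H304 (Nb Zmax)
open Vale.Agent.P073.H926
open Vale.Agent.P073.H238.K3
open Vale.Agent.P073.H267.K3
open Vale.Agent.P073.H341
open Vale.Agent.P073.Top880
open Vale.Agent.P073.H233 (Xp Adm PSet LAt FaceOK3 Tol FHyp Ev OscEst)
open Vale.Agent.P073.H936.KR (NW Zw)
open Vale.Agent.P073.H345W (Tvg)

variable {c₀ n δ : ℝ} {j : ℕ} {Ω Λ : Set V} {v w : V} {ρ : V → ℝ} {M : Mesh Ω} {h : ConHomeo Ω Λ}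
  {J₀ J : Set (ℕ × (Fin 3 → ℤ))} {P Z : Set M.ι} {K : BoxCx Λ w}

section defs

variable {D : KIn3 c₀ n j δ v w ρ M h J₀ J P Z} {C : Cells ρ w K} {C₀ μT : ℝ} {Ys : Set M.κ}
  {sc : Sharp} {X : S1 D C C₀ μT} {Y₂ : S2 X} {Y₃ : S3 Y₂ Ys sc} {Y₄ : S4 Y₃}

/-- the third alternative of `Last3.osc` -/
def OscA (Y₅ : S5 Y₄) (c : ℝ) (i : M.ι) (k : M.κ) : Prop :=
  ∃ L, (∀ b > 0, FHyp M h.toFun i k b → L ≤ c * b) ∧
    Ev (D.B C) (Xp C J₀) (20 / (1 / μN n)) M Y₅.f.toFun (.inl k) (OscEst Y₅.f.toFun k L)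

theorem OscA.mono {Y₅ : S5 Y₄} {c c' : ℝ} {i : M.ι} {k : M.κ} (H : OscA Y₅ c i k) (hc : c ≤ c') :
    OscA Y₅ c' i k := by
  obtain ⟨L, h1, h2⟩ := H
  exact ⟨L, fun b hb hF => (h1 b hb hF).trans (mul_le_mul_of_nonneg_right hc hb.le), h2⟩

/-- the face `k` is off the box of the hook of the plate `s`, or high -/
def Unl (Y₃ : S3 Y₂ Ys sc) (k : M.κ) : Prop :=
  ∀ s ∈ pS C J₀, (∀ x ∈ M.F k, Y₃.h4.toFun x ∉ HB (D.G C) (29 / 32) (3 / 4) s) ∨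
    ∃ β, ¬ (D.dat C).sd s β ∧ ∀ x ∈ M.F k, Abv K s β ((D.dat C).ht s β / 2) (X.h1.toFun x)

/-- **the faces which are not listed** -/
def SupF (c : ℝ) (Y₅ : S5 Y₄) : Prop :=
  ∀ k, (∀ i ∈ P, ¬ M.F k ⊆ M.Q i) → Unl Y₃ k → ∀ i, M.F k ⊆ M.Q i → OscA Y₅ c i k

/-- the cases of the row -/
theorem osc_cases (Y₅ : S5 Y₄) (hNW : NW D C) (hW : WallOut D C (edges M) (Zw D C) X.h1) {c : ℝ}
    (hdf : ∀ k ∈ (D.dat C).DF, ∀ i, M.F k ⊆ M.Q i → OscA Y₅ c i k)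
    (hlist : ∀ s ∈ pS C J₀, ∀ k, (∀ i ∈ P, ¬ M.F k ⊆ M.Q i) →
      (∃ z ∈ M.F k, Y₃.h4.toFun z ∈ HB (D.G C) (29 / 32) (3 / 4) s) →
      PatS Y₂.L.lv s Y₂.h2.toFun (M.F k) → ∀ i, M.F k ⊆ M.Q i → OscA Y₅ c i k)
    (hsup : SupF c Y₅) {k : M.κ} (hP : ∀ i ∈ P, ¬ M.F k ⊆ M.Q i) {i : M.ι} (hk : M.F k ⊆ M.Q i) :
    OscA Y₅ c i k := by
  by_cases h1 : k ∈ (D.dat C).DF
  · exact hdf k h1 i hk
  by_cases h2 : ∃ s ∈ pS C J₀, (∃ z ∈ M.F k, Y₃.h4.toFun z ∈ HB (D.G C) (29 / 32) (3 / 4) s) ∧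
      PatS Y₂.L.lv s Y₂.h2.toFun (M.F k)
  · obtain ⟨s, hs, hz, hpat⟩ := h2
    exact hlist s hs k hP hz hpat i hk
  · push Not at h2
    refine hsup k hP (fun s hs => ?_) i hk
    by_cases h3 : ∃ z ∈ M.F k, Y₃.h4.toFun z ∈ HB (D.G C) (29 / 32) (3 / 4) s
    · right
      obtain ⟨z, hz, hz4⟩ := id h3
      obtain ⟨y, hy, hy1⟩ := H579.K3.pos_HB1 Y₃ hs hz hz4
      have h4 : X.h1.toFun y ∈ HB (D.G C) (7 / 8) (3 / 4) s := by
        obtain ⟨g1, g2⟩ := mem_HB.1 hy1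
        have hp := Geo.p_pos (G := D.G C) s
        rw [mem_HB]
        refine ⟨fun l hl => ?_, g2⟩
        have := g1 l hl
        constructor <;> linarith [this.1, this.2]
      exact (class_face Y₂ hNW hW hs hP hy h4).resolve_left (h2 s hs h3)
    · left
      push Not at h3
      exact h3

/-- no drawn faces without processed tiles -/
theorem df_empty (D : KIn3 c₀ n j δ v w ρ M h J₀ J P Z) (C : Cells ρ w K) (he : pT C J₀ = ∅)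
    {k : M.κ} (hk : k ∈ (D.dat C).DF) : False := by
  obtain ⟨⟨i, hi, hki⟩, -⟩ := hk
  obtain ⟨x, hx⟩ := (Vale.Agent.P073.H193.pgn_of_fat (M.fat k)).nonempty
  have h1 : h.toFun x ∈ Nb w J₀ (2 / 2 ^ j) := hi.2 ⟨x, hki hx, rfl⟩
  obtain ⟨t, ht, -⟩ := h1
  rw [H803.WB.J₀_empty D C he] at ht
  exact ht

/-- **(g)** the drawn faces -/
theorem osc_df (Y₅ : S5 Y₄) (hJ : J = J₀) (hm : ∀ t ∈ J₀, ∀ t' ∈ J₀, t'.1 = t.1) (hY : Ys = ∅)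
    {τ ε : M.κ → ℝ} {t4 : (D.dat C).S₀ → ℝ} {t5 : pG C J₀ → ℝ} (N : RowNum Y₅ τ ε t4 t5)
    (hg : GivF τ Y₅) (hεt : ∀ k, FTol M k (ε k) X.εe) (hC₀ : 1 ≤ C₀)
    (hμ0 : 0 ≤ 20 / (1 / μN n)) (hμ1 : 20 / (1 / μN n) ≤ 1) (hε : ∀ k, 0 < ε k)
    {om εL : (edges M).ε → ℝ} {lam osc : M.ι → ℝ} (T : Tol M h.toFun ε om εL lam osc)
    {c : ℝ} (hc : 880 * max (936 * Y₃.q + 1) (600 * C₀ + 1) ≤ c) :
    ∀ k ∈ (D.dat C).DF, ∀ i, M.F k ⊆ M.Q i → OscA Y₅ c i k := by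
  intro k hk i hki
  have hne : (pT C J₀).Nonempty := by
    rw [Set.nonempty_iff_ne_empty]
    exact fun he => df_empty D C he hk
  set c₁ : ℝ := max (936 * Y₃.q + 1) (600 * C₀ + 1) with hc₁
  have h1 : 936 * Y₃.q + 1 ≤ c₁ := le_max_left _ _
  have h2 : 600 * C₀ + 1 ≤ c₁ := le_max_right _ _
  have hF := S5.face_all (H803.WB.not_full D C hJ hm hne) N hεt le_rfl (by norm_num : (0:ℝ) ≤ 100)
    hg h1 (by linarith) (le_max_left (6 * FW31.DK sc.K * Y₃.q + 1) c₁)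
    (le_max_right (6 * FW31.DK sc.K * Y₃.q + 1) c₁) k hk c₁
    (Or.inr ⟨rfl, fun k' hk' => by rw [hY] at hk'; exact absurd hk' (notMem_empty k')⟩)
  exact osc_face hμ0 hμ1 hki (hε k) T (sqr_of_df D C hk)
    (Y₅.f.cont.mono (Vale.Agent.P073.H193.mesh_sub M k)) (by linarith) zero_le_one hF
    (by linarith)

end defs

/-- the constant of the edges -/
noncomputable def qC' (C₀ : ℝ) : ℝ := 8 * (500 * C₀ + 700) + 32 * C₀

/-- **the row `Last3.osc`**, from the row of the faces which are not listed -/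
theorem row_osc_of (D : KIn3 c₀ n j δ v w ρ M h J₀ J P Z) (C : Cells ρ w K) {C₀ μT : ℝ}
    {Ys : Set M.κ} {sc : Sharp} (hC₀ : 1 ≤ C₀) (hJ : J = J₀)
    (hm : ∀ t ∈ J₀, ∀ t' ∈ J₀, t'.1 = t.1) (hY : Ys = ∅) (hNW : NW D C)
    (hμ0 : 0 ≤ 20 / (1 / μN n)) (hμ1 : 20 / (1 / μN n) ≤ 1)
    {ε : M.κ → ℝ} {om εL : (edges M).ε → ℝ} {lam osc : M.ι → ℝ} (hε : ∀ k, 0 < ε k)
    (T : Tol M h.toFun ε om εL lam osc) {C₁ C₁' : ℝ} (hC : C₁ ≤ C₁')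
    (h1 : 880 * max (936 * qC' C₀ + 1) (600 * C₀ + 1) ≤ C₁) (h2 : 432000 * C₀ + 1 ≤ C₁)
    (HG : RowP D C C₀ μT Ys sc fun Y₅ =>
      ∃ τ t4 t5, RowNum Y₅ τ ε t4 t5 ∧ GivF τ Y₅)
    (HS : RowP D C C₀ μT Ys sc fun Y₅ => SupF C₁ Y₅) :
    RowP D C C₀ μT Ys sc fun {X _ _ _} Y₅ =>
      Tvg D C (edges M) C₀ X.εe X.h1 → WallOut D C (edges M) (Zw D C) X.h1 →
        OscF C₁ C₁' Y₅ := by
  obtain ⟨m, hm0, hm'⟩ := exists_ftol M hε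
  obtain ⟨S₁, H₁⟩ := H579.K3.row_listed (μT := μT) (Ys := Ys) (sc := sc) D C
    (by linarith : (0:ℝ) ≤ C₀) T
  obtain ⟨S₂, H₂⟩ := HG
  obtain ⟨S₃, H₃⟩ := HS
  refine ⟨{ (S₁.inf (S₂.inf S₃)) with
    εe := fun e => min (m e) ((S₁.inf (S₂.inf S₃)).εe e)
    εe0 := fun e => lt_min (hm0 e) ((S₁.inf (S₂.inf S₃)).εe0 e) }, ?_⟩
  intro N X Y₂ Y₃ Y₄ Y₅ h5 htvg hW
  have hLe : Slots.Le { (S₁.inf (S₂.inf S₃)) with
      εe := fun e => min (m e) ((S₁.inf (S₂.inf S₃)).εe e)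
      εe0 := fun e => lt_min (hm0 e) ((S₁.inf (S₂.inf S₃)).εe0 e) } (S₁.inf (S₂.inf S₃)) :=
    { εe := fun e => min_le_right _ _
      εd := fun _ => le_rfl
      m := fun _ _ => le_rfl
      sT := fun _ _ => le_rfl
      εE := fun _ _ => le_rfl
      dm := fun _ _ => le_rfl
      cm := fun _ _ _ => le_rfl
      ν := fun _ _ => le_rfl
      e₁ := fun _ _ _ _ _ => le_rfl
      tol4 := fun _ _ _ _ => le_rfl
      δT := fun _ _ => le_rfl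
      εT := fun _ _ _ => le_rfl
      tol5 := fun _ _ _ _ => le_rfl }
  have hOk := h5.mono hLe
  have hOk₁ := hOk.left
  have hOk₂ := hOk.right.left
  have hOk₃ := hOk.right.right
  obtain ⟨τ, t4, t5, HN, hg⟩ := H₂ Y₅ hOk₂
  have hq : Y₃.q = qC' C₀ := h5.q
  have hεt : ∀ k, FTol M k (ε k) X.εe := hm' X.εe fun e => (h5.εe e).trans (min_le_left _ _)
  have hdf := osc_df Y₅ hJ hm hY HN hg hεt hC₀ hμ0 hμ1 hε T (c := C₁) (by rw [hq]; exact h1)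
  intro i hi hZ c hc k hki
  by_cases hP : ∃ i' ∈ P, M.F k ⊆ M.Q i'
  · exact Or.inl hP
  right; right
  push Not at hP
  have hcc : C₁ ≤ c := by
    rcases hc with rfl | ⟨rfl, -⟩
    · exact hC
    · exact le_rfl
  refine (osc_cases Y₅ hNW hW hdf (fun s hs k hP hz hpat i hki => ?_) (H₃ Y₅ hOk₃) hP hki).mono hcc
  exact H₁ Y₅ hOk₁ htvg hs hP hz hpat hki h2 hμ0 hμ1

end Vale.Agent.P073.H227
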