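import Vale.Agent.P073.H236.Fam
import Vale.Agent.P073.H227.NLev

/-!
# P073, H227: **[OSC-S]**, the oscillation of the stairs

`sm_sub_le`: between two points of the window the stairs grow by at most `om` per level which is
between the images of the two points under the insertion map `qm`, plus `2 e`.
-/

set_option linter.unusedSectionVars false

open Set Metric Topology Filter

namespace P073.H227

open P073 P073.H236 P073.H579

variable {N : ℕ} {a : ℕ → ℝ} {c al be e : ℝ}

/-- the bands which meet an interval of the target -/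
theorem exists_bands (hN : 0 < N) (hab : al < be) (he : 0 < e) (heo : 2 * e < stp N al be)
    {p q : ℝ} (hp : al ≤ p) (hpq : p ≤ q) (hq : q ≤ be) :
    ∃ K : Finset ℕ, (∀ k ∈ K, k < N ∧ (bnd N al be e k ∩ Icc p q).Nonempty) ∧
      q - p ≤ stp N al be * K.card + 2 * e := by
  have hN' : (0:ℝ) < N := by exact_mod_cast hN
  have hst : 0 < stp N al be := div_pos (sub_pos.2 hab) hN'
  set ω := stp N al be with hω
  have hNs : (N : ℝ) * ω = be - al := by
    rw [hω]; unfold stp; rw [mul_div_cancel₀ _ hN'.ne']
  by_cases hsmall : q - p ≤ 2 * e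
  · exact ⟨∅, by simp, by simpa using hsmall⟩
  push Not at hsmall
  -- `k` with `al + k ω + e ≤ q` and `p ≤ al + (k + 1) ω - e`
  set α := (p - al + e) / ω - 1 with hα
  set β := (q - al - e) / ω with hβ
  have hβ0 : 0 ≤ β := div_nonneg (by linarith) hst.le
  have hα1 : -1 < α := by
    have : 0 < (p - al + e) / ω := div_pos (by linarith) hst
    linarith
  have hβN : β < N := by
    rw [hβ, div_lt_iff₀ hst, hNs]; linarith
  set k₁ := ⌈α⌉₊ with hk₁
  set k₂ := ⌊β⌋₊ with hk₂
  have h1 : (k₁ : ℝ) < α + 1 ∨ k₁ = 0 := by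
    rcases le_or_gt 0 α with h | h
    · exact Or.inl (Nat.ceil_lt_add_one h)
    · exact Or.inr (Nat.ceil_eq_zero.2 h.le)
  have h1' : (k₁ : ℝ) < α + 1 := by
    rcases h1 with h | h
    · exact h
    · rw [h]; push_cast; linarith
  have h2 : β < k₂ + 1 := Nat.lt_floor_add_one β
  refine ⟨Finset.Icc k₁ k₂, fun k hk => ?_, ?_⟩
  · obtain ⟨hk1, hk2⟩ := Finset.mem_Icc.1 hk
    have g1 : α ≤ k := Nat.ceil_le.1 hk1
    have g2 : (k : ℝ) ≤ β := (Nat.le_floor_iff hβ0).1 hk2
    have g3 : p ≤ al + (k + 1) * ω - e := by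
      have : (p - al + e) / ω ≤ k + 1 := by linarith
      rw [div_le_iff₀ hst] at this
      linarith
    have g4 : al + k * ω + e ≤ q := by
      rw [hβ, le_div_iff₀ hst] at g2
      linarith
    refine ⟨?_, max p (al + k * ω + e), ⟨le_max_right _ _, ?_⟩, le_max_left _ _, ?_⟩
    · have : (k : ℝ) < N := g2.trans_lt hβN
      exact_mod_cast this
    · refine max_le g3 ?_
      have : (k + 1 : ℝ) * ω = k * ω + ω := by ring
      linarith
    · exact max_le hpq g4
  · have h3 : ((Finset.Icc k₁ k₂).card : ℝ) ≥ k₂ + 1 - k₁ := by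
      rw [Nat.card_Icc]
      have : k₂ + 1 ≤ (k₂ + 1 - k₁) + k₁ := by omega
      have : ((k₂ + 1 : ℕ) : ℝ) ≤ ((k₂ + 1 - k₁ : ℕ) : ℝ) + k₁ := by exact_mod_cast this
      push_cast at this
      linarith
    have h4 : β - α - 1 ≤ ((Finset.Icc k₁ k₂).card : ℝ) := by linarith
    have h5 : β - α - 1 = (q - p - 2 * e) / ω := by
      rw [hα, hβ]; field_simp; ring
    rw [h5, div_le_iff₀ hst] at h4
    linarith

/-- **the stairs grow by `om` per level** -/
theorem sm_sub_le (h : Lvs N a c al be) (hab : al < be) (he : 0 < e) (heo : 2 * e < stp N al be)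
    {s t : ℝ} (hs : al ≤ s) (hst : s ≤ t) (ht : t ≤ be) :
    sm N a c al be al (stp N al be) e t - sm N a c al be al (stp N al be) e s ≤
      stp N al be * nbet h.L (qm h.L c s) (qm h.L c t) + 2 * e := by
  have hT := Tgt.full h.pos he heo
  have hm := sm_strictMono h hT
  have hN' : (0:ℝ) < N := by exact_mod_cast h.pos
  have hω : 0 < stp N al be := div_pos (sub_pos.2 hab) hN'
  have hal : sm N a c al be al (stp N al be) e al = al := sm_out h (Or.inl le_rfl)
  have hbe : sm N a c al be al (stp N al be) e be = be := sm_out h (Or.inr le_rfl)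
  set σ := sm N a c al be al (stp N al be) e with hσ
  have p1 : al ≤ σ s := by rw [← hal]; exact hm.monotone hs
  have p2 : σ s ≤ σ t := hm.monotone hst
  have p3 : σ t ≤ be := by rw [← hbe]; exact hm.monotone ht
  obtain ⟨K, hK, hle⟩ := exists_bands h.pos hab he heo p1 p2 p3
  refine hle.trans ?_
  have hcard : K.card ≤ nbet h.L (qm h.L c s) (qm h.L c t) := by
    have hsub : a '' (K : Set ℕ) ⊆ {l | l ∈ h.L ∧ l ∈ uIcc (qm h.L c s) (qm h.L c t)} := by
      rintro _ ⟨k, hk, rfl⟩
      obtain ⟨hkN, z, hz, hzI⟩ := hK k hk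
      have hL : a k ∈ h.L := h.mem_L.2 ⟨k, hkN, rfl⟩
      -- the point of the source
      set u := smi N a c al be al (stp N al be) e z with hu
      have hu1 : σ u = z := sm_smi h hT z
      have hflat : |u - a k| ≤ c := (smi_bnd h he heo hkN).2 hz
      have hsu : s ≤ u := by
        rw [← hm.le_iff_le]; show σ s ≤ σ u; rw [hu1]; exact hzI.1
      have hut : u ≤ t := by
        rw [← hm.le_iff_le]; show σ u ≤ σ t; rw [hu1]; exact hzI.2
      have hq : qm h.L c u = a k := qm_flat h.c0.le h.sepd hL hflat
      have hmono := qm_monotone h.c0.le h.sepd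
      refine ⟨hL, ?_⟩
      rw [← hq, uIcc_of_le (hmono hst)]
      exact ⟨hmono hsu, hmono hut⟩
    have hinj : Set.InjOn a (K : Set ℕ) := h.injOn.mono fun k hk => by
      rw [Finset.coe_range]; exact (hK k hk).1
    have h1 := ncard_le_ncard hsub (finite_nbet _ _ _)
    rw [hinj.ncard_image, ncard_coe_finset] at h1
    exact h1
  have : (K.card : ℝ) ≤ nbet h.L (qm h.L c s) (qm h.L c t) := by exact_mod_cast hcard
  have := mul_le_mul_of_nonneg_left this hω.le
  linarith

/-- the symmetric form, in the window -/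
theorem abs_sm_sub_le_nbet (h : Lvs N a c al be) (hab : al < be) (he : 0 < e)
    (heo : 2 * e < stp N al be) {s t : ℝ} (hs : s ∈ Icc al be) (ht : t ∈ Icc al be) :
    |sm N a c al be al (stp N al be) e s - sm N a c al be al (stp N al be) e t| ≤
      stp N al be * nbet h.L (qm h.L c s) (qm h.L c t) + 2 * e := by
  have hm := sm_strictMono h (Tgt.full h.pos he heo)
  rcases le_total s t with h1 | h1
  · rw [abs_sub_comm, abs_of_nonneg (sub_nonneg.2 (hm.monotone h1))]
    exact sm_sub_le h hab he heo hs.1 h1 ht.2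
  · rw [abs_of_nonneg (sub_nonneg.2 (hm.monotone h1)), nbet_comm]
    exact sm_sub_le h hab he heo ht.1 h1 hs.2

/-- the global form: outside of the window the stairs are the identity -/
theorem abs_sm_sub_le_nbet' (h : Lvs N a c al be) (hab : al < be) (he : 0 < e)
    (heo : 2 * e < stp N al be) (s t : ℝ) :
    |sm N a c al be al (stp N al be) e s - sm N a c al be al (stp N al be) e t| ≤
      stp N al be * nbet h.L (qm h.L c s) (qm h.L c t) + 2 * e +
        |s - max al (min be s)| + |t - max al (min be t)| := by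
  set σ := sm N a c al be al (stp N al be) e with hσ
  have hal : σ al = al := sm_out h (Or.inl le_rfl)
  have hbe : σ be = be := sm_out h (Or.inr le_rfl)
  -- projection onto the window
  have key : ∀ s : ℝ, max al (min be s) ∈ Icc al be ∧
      |σ s - σ (max al (min be s))| = |s - max al (min be s)| := by
    intro s
    rcases le_total s al with h1 | h1
    · have e1 : max al (min be s) = al := by
        rw [min_eq_right (h1.trans hab.le), max_eq_left h1]
      rw [e1, hal, hσ, sm_out h (Or.inl h1)]
      exact ⟨⟨le_rfl, hab.le⟩, rfl⟩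
    · rcases le_total be s with h2 | h2
      · have e1 : max al (min be s) = be := by
          rw [min_eq_left h2, max_eq_right hab.le]
        rw [e1, hbe, hσ, sm_out h (Or.inr h2)]
        exact ⟨⟨hab.le, le_rfl⟩, rfl⟩
      · have e1 : max al (min be s) = s := by rw [min_eq_right h2, max_eq_right h1]
        rw [e1]
        exact ⟨⟨h1, h2⟩, by simp⟩
  obtain ⟨hs1, hs2⟩ := key s
  obtain ⟨ht1, ht2⟩ := key t
  have h1 := abs_sm_sub_le_nbet h hab he heo hs1 ht1
  -- the count does not increase
  have hq : ∀ s : ℝ, qm h.L c al = al ∧ qm h.L c be = be := fun s =>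
    ⟨h.qm_out (Or.inl le_rfl), h.qm_out (Or.inr le_rfl)⟩
  have hmono := qm_monotone h.c0.le h.sepd
  have hcount : nbet h.L (qm h.L c (max al (min be s))) (qm h.L c (max al (min be t))) ≤
      nbet h.L (qm h.L c s) (qm h.L c t) := by
    refine ncard_le_ncard ?_ (finite_nbet _ _ _)
    rintro l ⟨hl, hlI⟩
    refine ⟨hl, ?_⟩
    obtain ⟨k, hk, rfl⟩ := h.mem_L.1 hl
    have g1 := h.first_le hk
    have g2 := h.le_last hk
    have g3 := h.c0
    -- `a k` is strictly inside the window
    have key2 : ∀ s : ℝ, (qm h.L c (max al (min be s)) ≤ a k → qm h.L c s ≤ a k) ∧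
        (a k ≤ qm h.L c (max al (min be s)) → a k ≤ qm h.L c s) := by
      intro s
      rcases le_total s al with h1 | h1
      · have e1 : max al (min be s) = al := by
          rw [min_eq_right (h1.trans hab.le), max_eq_left h1]
        rw [e1, (hq 0).1, h.qm_out (Or.inl h1)]
        exact ⟨fun _ => by linarith, fun h => by linarith⟩
      · rcases le_total be s with h2 | h2
        · have e1 : max al (min be s) = be := by
            rw [min_eq_left h2, max_eq_right hab.le]
          rw [e1, (hq 0).2, h.qm_out (Or.inr h2)]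
          exact ⟨fun h => by linarith, fun _ => by linarith⟩
        · have e1 : max al (min be s) = s := by rw [min_eq_right h2, max_eq_right h1]
          rw [e1]
          exact ⟨id, id⟩
    rcases mem_uIcc.1 hlI with ⟨h3, h4⟩ | ⟨h3, h4⟩
    · exact mem_uIcc.2 (Or.inl ⟨(key2 s).1 h3, (key2 t).2 h4⟩)
    · exact mem_uIcc.2 (Or.inr ⟨(key2 t).1 h3, (key2 s).2 h4⟩)
  have hN' : (0:ℝ) < N := by exact_mod_cast h.pos
  have hω : 0 < stp N al be := div_pos (sub_pos.2 hab) hN'
  have h2 : (nbet h.L (qm h.L c (max al (min be s))) (qm h.L c (max al (min be t))) : ℝ) ≤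
      nbet h.L (qm h.L c s) (qm h.L c t) := by exact_mod_cast hcount
  have h3 := mul_le_mul_of_nonneg_left h2 hω.le
  have h4 : |σ s - σ t| ≤ |σ s - σ (max al (min be s))| +
      |σ (max al (min be s)) - σ (max al (min be t))| + |σ t - σ (max al (min be t))| := by
    have e1 : σ s - σ t = (σ s - σ (max al (min be s))) +
      (σ (max al (min be s)) - σ (max al (min be t))) + (σ (max al (min be t)) - σ t) := by ring
    rw [e1]
    refine (abs_add_three _ _ _).trans ?_
    rw [abs_sub_comm (σ (max al (min be t))) (σ t)]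
  rw [hs2, ht2] at h4
  linarith

end P073.H227
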