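import Vale.Agent.P073.H233.OscZ5
import Vale.Agent.P073.H233.Tail3F
import Vale.Agent.P073.H919.OscOff
import Vale.Agent.P073.H803.NearF
import Vale.Agent.P073.H237.Plug1
import Vale.Agent.P073.H227.OscRow

/-!
# P073, H227, [OSC-TOP]: the faces which are not listed, local form

`osc_sup`: the oscillation after a strong collapse, on a face which is at no plate low.
-/

open Set Metric Topology Filter MeasureTheory
open scoped ENNReal

set_option linter.unusedSectionVars false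

namespace Vale.Agent.P073.H227

open _root_.P073 _root_.P073.Net _root_.P073.PA691 _root_.P073.H236 _root_.P073.H579
open _root_.P073.H142
open _root_.P073.H345 (PK tg PLev)
open _root_.P073.H919 (HB mem_HB)
open _root_.P073.H880.RP
open _root_.P073.H429
open Vale.Agent.P073.St (V)
open Vale.Agent.P073.H471 Vale.Agent.P073.H267
open Vale.Agent.P073.H73 (Mesh onSeg sqr)
open Vale.Agent.P073.H193 (Edges edges LAtC)
open Vale.Agent.P073.H304 (Nb Zmax)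
open Vale.Agent.P073.H926
open Vale.Agent.P073.H238.K3
open Vale.Agent.P073.H267.K3
open Vale.Agent.P073.H341
open Vale.Agent.P073.Top880
open Vale.Agent.P073.H233 (Xp Adm PSet LAt FaceOK3 Tol FHyp Ev OscEst InZone OscOK3)
open Vale.Agent.P073.H233.X5 (Pos5 TubN LB zone_P zone_M)
open Vale.Agent.P073.H190.Tvp (wP)

variable {c₀ n δ : ℝ} {j : ℕ} {Ω Λ : Set V} {v w : V} {ρ : V → ℝ} {M : Mesh Ω} {h : ConHomeo Ω Λ}
  {J₀ J : Set (ℕ × (Fin 3 → ℤ))} {P Z : Set M.ι} {K : BoxCx Λ w}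
  {D : KIn3 c₀ n j δ v w ρ M h J₀ J P Z} {C : Cells ρ w K} {C₀ μT : ℝ}
  {X : S1 D C C₀ μT} {Y₂ : S2 X} {Ys : Set M.κ} {sc : Sharp} {Y₃ : S3 Y₂ Ys sc} {Y₄ : S4 Y₃}

/-- the positions of `f5` on a face which is not listed -/
theorem pos5_of (Y₄ : S4 Y₃) (hJ : J = J₀) (hm : ∀ t ∈ J₀, ∀ t' ∈ J₀, t'.1 = t.1) {k : M.κ}
    (hU : Unl Y₃ k) {t : ℝ}
    (ht : ∀ s ∈ pS C J₀, (∃ z ∈ M.F k, X.h1.toFun z ∈ PK (D.G C) s) → 3 * Y₂.muP s ≤ t) :
    Pos5 Y₄ k t := by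
  intro x hx
  obtain ⟨z, hz, H⟩ := Vale.Agent.P073.H919.K3.pos_x Y₄
    (fun s hs β => Y₂.Q_emp hJ hm hs β) (k := k) (fun s hs hy => by
      rcases hU s hs with h1 | ⟨β, hsd, h1⟩
      · obtain ⟨y, hy, hyB⟩ := hy
        exact absurd hyB (h1 y hy)
      · have hht : (D.dat C).ht s β = (D.B C).τ s / 2 := D.dat_ht_not C hsd
        refine ⟨β, hsd, fun z hz => ?_⟩
        have h2 := h1 z hz
        rwa [hht, show (D.B C).τ s / 2 / 2 = (D.B C).τ s / 4 by ring] at h2) hx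
  refine ⟨z, hz, ?_⟩
  rcases H with ⟨-, h1⟩ | ⟨s, hs, h1, h2, h3, h4⟩
  · exact Or.inl h1
  · have h5 := ht s hs ⟨z, hz, h1⟩
    refine Or.inr ⟨s, hs, h1, h2, fun β => (h3 β).trans h5, ?_⟩
    rcases h4 with ⟨-, -, h4⟩ | ⟨-, h4⟩
    · left
      have h6 := (mem_HB.1 h4).2
      have h7 := (D.B C).τ_pos s
      linarith
    · exact Or.inr fun l => (h4 l).trans h5

/-- **the faces which are not listed** -/
theorem osc_sup (Y₅ : S5 Y₄) (hJ : J = J₀) (hm : ∀ t ∈ J₀, ∀ t' ∈ J₀, t'.1 = t.1) (hC₀ : 0 ≤ C₀)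
    {k : M.κ} (hP : ∀ i ∈ P, ¬ M.F k ⊆ M.Q i) (hU : Unl Y₃ k) {β : ℝ} (hβ : 0 < β)
    (hbd : ∀ x ∈ M.F k, ∀ y ∈ M.F k, ‖h.toFun x - h.toFun y‖ ≤ β)
    (hd : ∀ b : pB C J₀, (∃ z ∈ M.F k, h.toFun z ∈ (D.G C).TB false b.1) → X.εd b ≤ β)
    (hmP : ∀ s ∈ pS C J₀, (∃ z ∈ M.F k, X.h1.toFun z ∈ PK (D.G C) s) → Y₂.muP s ≤ β)
    (hmS : ∀ s ∈ pS C J₀, Y₂.muP s ≤ (D.G C).oS s / 4)
    (hsg : ∀ b : pG C J₀, (∃ x ∈ M.F k, Y₄.f5.toFun x ∈ (Y₅.Ft.X b).K) →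
      Y₅.ς b * (ebe (D.W C) b.1 - eal (D.W C) b.1) ≤ β)
    (hsT : ∀ b : pG C J₀, Y₅.ς b * (ebe (D.W C) b.1 - eal (D.W C) b.1) ≤ (D.B C).T b.1 / 4)
    (hμ0 : ∀ b, 0 ≤ Y₅.μ b) (hμ1 : ∀ b, Y₅.μ b ≤ n / 1024)
    (hμu : ∀ b : pG C J₀, Y₅.μ b * (ebe (D.W C) b.1 - eal (D.W C) b.1) =
      n / 1024 * (D.G C).uT b.1) :
    Ev (D.B C) (Xp C J₀) (20 / (1 / μN n)) M Y₅.f.toFun (.inl k)
      (OscEst Y₅.f.toFun k ((12 * C₀ + 100) * β)) := by
  have hsoft := H233.soft_mu D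
  have hn := D.pos
  have hn1 := D.lt
  have hFΩ : M.F k ⊆ Ω := Vale.Agent.P073.H193.mesh_sub M k
  obtain ⟨i, i', -, hki⟩ := M.two k
  have hki : M.F k ⊆ M.Q i := hki.trans inter_subset_left
  have hi : i ∉ P := fun h1 => hP i h1 hki
  have hnh : ∀ H : Hang K, H.s ∉ pS C J₀ := H803.WB.no_hang D C hJ hm
  have HN : TubN Y₅ (n / 256) :=
    { μ0 := hμ0
      μ1 := fun b => (hμ1 b).trans (by linarith)
      κ0 := by linarith
      κ1 := by linarith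
      κμ := fun b => (hμu b).le.trans (le_of_eq (by ring))
      ς := hsT }
  have HF : H233.X5.FB X k β (C₀ * β + β) :=
    { bd := hbd
      le := by nlinarith
      box := fun b hb => by linarith [hd b hb] }
  set L : ℝ := (3 * C₀ + 20) * β with hL
  have hL0 : 0 ≤ L := by positivity
  have hLB : ∀ t : ℝ, 0 ≤ t → t ≤ 3 * β → LB Y₅ k (n / 256) (C₀ * β + β + 2 * t) L := by
    intro t ht0 ht
    have hCβ : 0 ≤ C₀ * β := mul_nonneg hC₀ hβ.le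
    refine ⟨by rw [hL]; linarith, fun b hb => ?_⟩
    have h1 := hsg b hb
    have h2 := hμ1 b
    set c : ℝ := C₀ * β + β + 2 * t with hc
    have hc0 : 0 ≤ c := by rw [hc]; linarith
    have h3 : (1 + Y₅.μ b) * c ≤ (1 + 1 / 4) * c :=
      mul_le_mul_of_nonneg_right (by linarith) hc0
    have h4 : n / 256 * c ≤ 1 / 4 * c := mul_le_mul_of_nonneg_right (by linarith) hc0
    rw [hL]
    linarith
  have hOK : OscOK3 (D.B C) (Xp C J₀) P h.toFun Y₅.f.toFun L k := by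
    by_cases hmeet : (h.toFun '' M.Q i ∩ Nb w J₀ c₀).Nonempty
    · right; right
      by_cases hs : ∃ s ∈ pS C J₀, ∃ z ∈ M.F k, X.h1.toFun z ∈ PK (D.G C) s
      · obtain ⟨s, hs, z, hz, hzs⟩ := hs
        have h1 := hmS s hs
        have h2 := hmP s hs ⟨z, hz, hzs⟩
        have h0 := (Y₂.muP0 s).le
        have hpos : Pos5 Y₄ k (3 * Y₂.muP s) := pos5_of Y₄ hJ hm hU fun s' hs' hz' => by
          obtain ⟨z', hz', hzs'⟩ := hz'
          rw [X.PK_eq hs hP hz hzs hz' hzs']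
        exact zone_P HN hnh hi hki hs hz hzs HF hpos (by linarith) (by linarith)
          (hLB _ (by linarith) (by linarith))
      · push Not at hs
        have hpos : Pos5 Y₄ k 0 := pos5_of Y₄ hJ hm hU fun s' hs' hz' => by
          obtain ⟨z', hz', hzs'⟩ := hz'
          exact absurd hzs' (hs s' hs' z' hz')
        exact zone_M HN hnh hi hki hmeet hs HF hpos le_rfl (hLB _ le_rfl (by linarith))
    · right; left
      intro x hx
      refine Y₅.off x (hFΩ hx) fun hx0 => hmeet ⟨_, ⟨x, hki hx, rfl⟩, hx0⟩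
  have h1 := (hOK.ev hL0 hβ hbd hsoft.1 hsoft.2).resolve_left fun ⟨i, hi, h⟩ => hP i hi h
  refine h1.mono fun Φ hΦ x hx y hy => (hΦ x hx y hy).trans ?_
  rw [hL]
  nlinarith

end Vale.Agent.P073.H227
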