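import Vale.Agent.P073.H227.TopCut
import Vale.Agent.P073.H238.FatFace

/-!
# P073, H227: **[STRIP-V]**, a flat face cut into strips

`A` is a flat convex face with chart `F`, `j` a coordinate. `strip A j c c'` is the part of `A` with
`c ≤ x j ≤ c'`, `cut A j c` is the segment `x j = c`.

* `stripP`: the strips are flat convex faces;
* `exists_strips_P`: for a conical set `Y` there are finitely many cuts, such that in all strips all
  points of `Y` are joined to the boundary of the strip (`H227.TopOk`);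
* `exists_pairs`: the finitely many strips cover `A`;
* `strip_frontier`: the boundary of a strip;
* `cut_eq_segment`: the cuts are segments.
-/

set_option linter.unusedSectionVars false

open Set Metric Topology Filter

namespace P073.H227

open P073 P073.TR P073.H339 P073.H579
open Vale.Agent.P073.St (V)
open Vale.Agent.P073.H238 (PFace)

/-- a strip of a face -/
def strip (A : Set V) (j : Fin 3) (c c' : ℝ) : Set V := {x | x ∈ A ∧ c ≤ x j ∧ x j ≤ c'}

/-- a cut of a face -/
def cut (A : Set V) (j : Fin 3) (c : ℝ) : Set V := {x | x ∈ A ∧ x j = c}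

theorem strip_sub (A : Set V) (j : Fin 3) (c c' : ℝ) : strip A j c c' ⊆ A := fun _ hx => hx.1

variable {A : Set V}

theorem ch_coord (F : PFace A) (j : Fin 3) (z w : H579.P) (t : ℝ) :
    F.ch (z + t • w) j = F.ch z j + t * F.L w j := by
  show (F.o + F.L (z + t • w)) j = (F.o + F.L z) j + t * F.L w j
  simp only [map_add, map_smul, Pi.add_apply, Pi.smul_apply, smul_eq_mul]
  ring

theorem ch_combo (F : PFace A) {a b : ℝ} (hab : a + b = 1) (p q : H579.P) :
    a • F.ch p + b • F.ch q = F.ch (a • p + b • q) := by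
  show a • (F.o + F.L p) + b • (F.o + F.L q) = F.o + F.L (a • p + b • q)
  rw [map_add, map_smul, map_smul, smul_add, smul_add]
  have : F.o = a • F.o + b • F.o := by rw [← add_smul, hab, one_smul]
  nth_rewrite 3 [this]
  abel

theorem continuous_coord (F : PFace A) (j : Fin 3) : Continuous fun z => F.ch z j :=
  (continuous_apply j).comp F.continuous_ch

/-- a half plane is locally a cone -/
theorem locCone_ge (F : PFace A) (j : Fin 3) (c : ℝ) : LocCone {z | c ≤ F.ch z j} := by
  intro z
  rcases lt_trichotomy (F.ch z j) c with h | h | h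
  · have h1 : {z | c ≤ F.ch z j}ᶜ ∈ 𝓝 z := by
      have : {z | c ≤ F.ch z j}ᶜ = {z | F.ch z j < c} := by
        ext w; simp only [mem_compl_iff, mem_ofPred_eq, not_le]
      rw [this]
      exact (continuous_coord F j).continuousAt.eventually (gt_mem_nhds h)
    exact locConeAt_of_compl_mem_nhds h1
  · refine ⟨1, one_pos, fun v _ t ht => ?_⟩
    simp only [mem_ofPred_eq]
    have e1 := ch_coord F j z v t
    have e2 := ch_coord F j z v 1
    rw [one_smul] at e2
    rw [e1, e2, h]
    constructor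
    · intro h1
      have : 0 ≤ t * F.L v j := by linarith
      have := nonneg_of_mul_nonneg_right this ht.1
      linarith
    · intro h1
      have : 0 ≤ F.L v j := by linarith
      have := mul_nonneg ht.1.le this
      linarith
  · exact locConeAt_of_mem_nhds ((continuous_coord F j).continuousAt.eventually (le_mem_nhds h))

theorem locCone_le (F : PFace A) (j : Fin 3) (c : ℝ) : LocCone {z | F.ch z j ≤ c} := by
  intro z
  rcases lt_trichotomy (F.ch z j) c with h | h | h
  · exact locConeAt_of_mem_nhds ((continuous_coord F j).continuousAt.eventually (ge_mem_nhds h))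
  · refine ⟨1, one_pos, fun v _ t ht => ?_⟩
    simp only [mem_ofPred_eq]
    have e1 := ch_coord F j z v t
    have e2 := ch_coord F j z v 1
    rw [one_smul] at e2
    rw [e1, e2, h]
    constructor
    · intro h1
      have h2 : t * F.L v j ≤ 0 := by linarith
      have h3 : F.L v j ≤ 0 := by
        by_contra h4
        push Not at h4
        have := mul_pos ht.1 h4
        linarith
      linarith
    · intro h1
      have : F.L v j ≤ 0 := by linarith
      have := mul_nonpos_of_nonneg_of_nonpos ht.1.le this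
      linarith
  · have h1 : {z | F.ch z j ≤ c}ᶜ ∈ 𝓝 z := by
      have : {z | F.ch z j ≤ c}ᶜ = {z | c < F.ch z j} := by
        ext w; simp only [mem_compl_iff, mem_ofPred_eq, not_le]
      rw [this]
      exact (continuous_coord F j).continuousAt.eventually (lt_mem_nhds h)
    exact locConeAt_of_compl_mem_nhds h1

/-- the chart set of a strip -/
def stripC (F : PFace A) (j : Fin 3) (c c' : ℝ) : Set H579.P :=
  {z | z ∈ F.C ∧ c ≤ F.ch z j ∧ F.ch z j ≤ c'}

theorem stripC_eq (F : PFace A) (j : Fin 3) (c c' : ℝ) :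
    stripC F j c c' = F.C ∩ ({z | c ≤ F.ch z j} ∩ {z | F.ch z j ≤ c'}) := by
  ext z; rfl

theorem isClosed_stripC (F : PFace A) (j : Fin 3) (c c' : ℝ) : IsClosed (stripC F j c c') := by
  rw [stripC_eq]
  exact F.compact.isClosed.inter ((isClosed_le continuous_const (continuous_coord F j)).inter
    (isClosed_le (continuous_coord F j) continuous_const))

theorem exists_interior (F : PFace A) {j : Fin 3} {c c' : ℝ} (h : ∃ x ∈ A, c < x j ∧ x j < c') :
    ∃ z ∈ interior F.C, c < F.ch z j ∧ F.ch z j < c' := by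
  obtain ⟨x, hx, h1, h2⟩ := h
  obtain ⟨w, hw, rfl⟩ := F.exists_ch hx
  have hcl : w ∈ closure (interior F.C) := by
    rw [F.convex.closure_interior_eq_closure_of_nonempty_interior F.int]
    exact subset_closure hw
  have ho : IsOpen {z | c < F.ch z j ∧ F.ch z j < c'} :=
    (isOpen_lt continuous_const (continuous_coord F j)).inter
      (isOpen_lt (continuous_coord F j) continuous_const)
  obtain ⟨z, hz, hz'⟩ := mem_closure_iff.1 hcl _ ho ⟨h1, h2⟩
  exact ⟨z, hz', hz.1, hz.2⟩

/-- **the strips are flat convex faces** -/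
def stripP (F : PFace A) (j : Fin 3) (c c' : ℝ) (h : ∃ x ∈ A, c < x j ∧ x j < c') :
    PFace (strip A j c c') where
  o := F.o
  L := F.L
  C := stripC F j c c'
  inj := F.inj
  convex := by
    rintro x ⟨hx, hx1, hx2⟩ y ⟨hy, hy1, hy2⟩ a b ha hb hab
    have e : F.ch (a • x + b • y) j = a * F.ch x j + b * F.ch y j := by
      show (F.o + F.L (a • x + b • y)) j = a * (F.o + F.L x) j + b * (F.o + F.L y) j
      simp only [map_add, map_smul, Pi.add_apply, Pi.smul_apply, smul_eq_mul]
      have : F.o j = a * F.o j + b * F.o j := by rw [← add_mul, hab, one_mul]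
      linarith
    refine ⟨F.convex hx hy ha hb hab, ?_, ?_⟩
    · rw [e]
      have h1 := mul_le_mul_of_nonneg_left hx1 ha
      have h2 := mul_le_mul_of_nonneg_left hy1 hb
      have : c = a * c + b * c := by rw [← add_mul, hab, one_mul]
      linarith
    · rw [e]
      have h1 := mul_le_mul_of_nonneg_left hx2 ha
      have h2 := mul_le_mul_of_nonneg_left hy2 hb
      have : c' = a * c' + b * c' := by rw [← add_mul, hab, one_mul]
      linarith
  compact := F.compact.of_isClosed_subset (isClosed_stripC F j c c') fun _ hz => hz.1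
  cone := by
    rw [stripC_eq]
    exact F.cone.inter ((locCone_ge F j c).inter (locCone_le F j c'))
  int := by
    obtain ⟨z, hz, h1, h2⟩ := exists_interior F h
    refine ⟨z, mem_interior_iff_mem_nhds.2 ?_⟩
    filter_upwards [isOpen_interior.mem_nhds hz,
      (continuous_coord F j).continuousAt.eventually (lt_mem_nhds h1),
      (continuous_coord F j).continuousAt.eventually (gt_mem_nhds h2)] with w hw hw1 hw2
    exact ⟨interior_subset hw, hw1.le, hw2.le⟩
  eq := by
    ext x
    constructor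
    · rintro ⟨hx, h1, h2⟩
      obtain ⟨z, hz, rfl⟩ := F.exists_ch hx
      exact ⟨z, ⟨hz, h1, h2⟩, rfl⟩
    · rintro ⟨z, ⟨hz, h1, h2⟩, rfl⟩
      exact ⟨F.ch_mem hz, h1, h2⟩

theorem stripP_ch (F : PFace A) (j : Fin 3) (c c' : ℝ) (h : ∃ x ∈ A, c < x j ∧ x j < c') :
    (stripP F j c c' h).ch = F.ch := rfl

/-- a coordinate which is constant near a point of the chart is constant -/
theorem const_of_local (F : PFace A) (j : Fin 3) {z : H579.P}
    (h : ∀ᶠ w in 𝓝 z, F.ch z j ≤ F.ch w j) (w : H579.P) : F.ch w j = F.ch z j := by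
  have key : ∀ v : H579.P, 0 ≤ F.L v j := by
    intro v
    have h1 : Tendsto (fun t : ℝ => z + t • v) (𝓝[>] 0) (𝓝 z) := tendsto_add_smul' z v
    obtain ⟨t, ht, h2⟩ := eventually_unique ((h1.eventually h).and self_mem_nhdsWithin)
    have ht0 : (0:ℝ) < t := h2.2
    have h3 := h2.1
    rw [ch_coord] at h3
    have h4 : 0 ≤ t * F.L v j := by linarith
    exact nonneg_of_mul_nonneg_right h4 ht0
  have h0 : F.L (w - z) j = 0 := by
    apply le_antisymm _ (key _)
    have := key (-(w - z))
    rw [map_neg, Pi.neg_apply] at this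
    linarith
  have h1 := ch_coord F j z (w - z) 1
  rw [one_smul, add_sub_cancel, h0, mul_zero, add_zero] at h1
  exact h1

/-- interior points of the chart of a strip -/
theorem interior_stripC (F : PFace A) {j : Fin 3} {c c' : ℝ} (h : ∃ x ∈ A, c < x j ∧ x j < c')
    {z : H579.P} (hz : z ∈ interior (stripC F j c c')) :
    z ∈ interior F.C ∧ c < F.ch z j ∧ F.ch z j < c' := by
  have h0 := mem_interior_iff_mem_nhds.1 hz
  have hz' := interior_subset hz
  obtain ⟨x, hx, h1, h2⟩ := h
  obtain ⟨w, hw, rfl⟩ := F.exists_ch hx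
  refine ⟨mem_interior_iff_mem_nhds.2 (mem_of_superset h0 fun _ h => h.1), ?_, ?_⟩
  · refine lt_of_le_of_ne hz'.2.1 fun he => ?_
    have := const_of_local F j (z := z) (by
      filter_upwards [h0] with y hy
      rw [← he]; exact hy.2.1) w
    rw [this, ← he] at h1
    exact lt_irrefl _ h1
  · refine lt_of_le_of_ne hz'.2.2 fun he => ?_
    -- the opposite coordinate
    have key : ∀ v : H579.P, F.L v j ≤ 0 := by
      intro v
      have h3 : Tendsto (fun t : ℝ => z + t • v) (𝓝[>] 0) (𝓝 z) := tendsto_add_smul' z v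
      obtain ⟨t, ht, h4⟩ := eventually_unique ((h3.eventually h0).and self_mem_nhdsWithin)
      have ht0 : (0:ℝ) < t := h4.2
      have h5 := h4.1.2.2
      rw [ch_coord, he] at h5
      by_contra h6
      push Not at h6
      have := mul_pos ht0 h6
      linarith
    have h5 : F.L (w - z) j = 0 := by
      apply le_antisymm (key _)
      have := key (-(w - z))
      rw [map_neg, Pi.neg_apply] at this
      linarith
    have h6 := ch_coord F j z (w - z) 1
    rw [one_smul, add_sub_cancel, h5, mul_zero, add_zero, he] at h6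
    rw [h6] at h2
    exact lt_irrefl _ h2

/-- a conical set in the chart -/
theorem conicalSet_chart (F : PFace A) {Y : Set V} (hX : ConicalSet (A ∩ Y)) :
    ConicalSet (F.C ∩ F.ch ⁻¹' Y) := by
  rintro z ⟨hz, hzY⟩
  obtain ⟨r, hr, H⟩ := hX (F.ch z) ⟨F.ch_mem hz, hzY⟩
  have hc : Continuous fun v => F.L v := F.L.continuous_of_finiteDimensional
  obtain ⟨s, hs, hs'⟩ := Metric.nhds_basis_closedBall.mem_iff.1
    (hc.continuousAt.preimage_mem_nhds (x := (0 : H579.P)) (t := closedBall (0:V) r) (by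
      rw [map_zero]; exact closedBall_mem_nhds _ hr))
  refine ⟨s, hs, fun v hv hzv t ht => ?_⟩
  have e : ∀ t : ℝ, F.ch (z + t • v) = F.ch z + t • F.L v := fun t => by
    show F.o + F.L (z + t • v) = F.o + F.L z + t • F.L v
    rw [map_add, map_smul]; abel
  have h1 : ‖F.L v‖ ≤ r := by
    have := hs' (show v ∈ closedBall (0 : H579.P) s by rwa [mem_closedBall, dist_zero_right])
    rwa [mem_preimage, mem_closedBall, dist_zero_right] at this
  have h2 := e 1
  rw [one_smul, one_smul] at h2
  have h3 := H (F.L v) h1 (by rw [← h2]; exact ⟨F.ch_mem hzv.1, hzv.2⟩) t ht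
  rw [← e t] at h3
  refine ⟨?_, h3.2⟩
  have : z + t • v ∈ F.ch ⁻¹' A := h3.1
  rwa [F.ch_preimage] at this

/-- **[STRIP-V]**: finitely many cuts such that in every strip the points of `Y` are joined to the
boundary of the strip -/
theorem exists_strips_P (F : PFace A) (j : Fin 3) {Y : Set V} (hY : IsClosed (A ∩ Y))
    (hX : ConicalSet (A ∩ Y)) :
    ∃ S : Finset ℝ, ∀ c c' : ℝ, (∃ x ∈ A, c < x j ∧ x j < c') → (∀ s ∈ S, s ∉ Ioo c c') →
      JoinedB (stripC F j c c' ∩ F.ch ⁻¹' Y) (frontier (stripC F j c c')) := by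
  have hYc : IsClosed (F.C ∩ F.ch ⁻¹' Y) := by
    have : F.C ∩ F.ch ⁻¹' Y = F.ch ⁻¹' (A ∩ Y) := by
      rw [preimage_inter, F.ch_preimage]
    rw [this]
    exact hY.preimage F.continuous_ch
  obtain ⟨S, -, h⟩ := exists_cuts F.compact hYc (conicalSet_chart F hX)
  classical
  refine ⟨S.image fun z => F.ch z j, fun c c' hcc hS => ?_⟩
  refine h _ (isClosed_stripC F j c c') (fun z hz => hz.1) fun s hs hi => ?_
  exact hS _ (Finset.mem_image_of_mem _ hs) (interior_stripC F hcc hi).2

/-- consecutive points of a finite set -/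
def Consec (S : Finset ℝ) (p : ℝ × ℝ) : Prop :=
  p.1 ∈ S ∧ p.2 ∈ S ∧ p.1 < p.2 ∧ ∀ s ∈ S, s ∉ Ioo p.1 p.2

theorem finite_consec (S : Finset ℝ) : {p | Consec S p}.Finite :=
  (S ×ˢ S).finite_toSet.subset fun p hp => by
    rw [Finset.mem_coe, Finset.mem_product]; exact ⟨hp.1, hp.2.1⟩

/-- consecutive points around a point -/
theorem exists_consec {S : Finset ℝ} {a b x : ℝ} (ha : a ∈ S) (hb : b ∈ S) (hab : a < b)
    (hx : x ∈ Icc a b) : ∃ p, Consec S p ∧ p.1 ≤ x ∧ x ≤ p.2 := by
  classical
  rcases hx.2.lt_or_eq with hxb | hxb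
  · -- `p.1 = max (S ∩ Iic x)`, `p.2 = min (S ∩ Ioi x)`
    have h1 : (S.filter (· ≤ x)).Nonempty := ⟨a, Finset.mem_filter.2 ⟨ha, hx.1⟩⟩
    have h2 : (S.filter (x < ·)).Nonempty := ⟨b, Finset.mem_filter.2 ⟨hb, hxb⟩⟩
    have m1 := Finset.mem_filter.1 (Finset.max'_mem _ h1)
    have m2 := Finset.mem_filter.1 (Finset.min'_mem _ h2)
    refine ⟨((S.filter (· ≤ x)).max' h1, (S.filter (x < ·)).min' h2),
      ⟨m1.1, m2.1, m1.2.trans_lt m2.2, fun s hs hsI => ?_⟩, m1.2, m2.2.le⟩
    rcases le_or_gt s x with h3 | h3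
    · exact absurd (Finset.le_max' _ s (Finset.mem_filter.2 ⟨hs, h3⟩)) (not_le.2 hsI.1)
    · exact absurd (Finset.min'_le _ s (Finset.mem_filter.2 ⟨hs, h3⟩)) (not_le.2 hsI.2)
  · have h1 : (S.filter (· < b)).Nonempty := ⟨a, Finset.mem_filter.2 ⟨ha, hab⟩⟩
    have m1 := Finset.mem_filter.1 (Finset.max'_mem _ h1)
    refine ⟨((S.filter (· < b)).max' h1, b), ⟨m1.1, hb, m1.2, fun s hs hsI => ?_⟩,
      m1.2.le.trans hxb.ge, hxb.le⟩
    exact absurd (Finset.le_max' _ s (Finset.mem_filter.2 ⟨hs, hsI.2⟩)) (not_le.2 hsI.1)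

/-- the relative boundary of a strip -/
theorem strip_frontier (F : PFace A) {j : Fin 3} {c c' : ℝ} :
    F.ch '' frontier (stripC F j c c') ⊆
      (F.ch '' frontier F.C ∩ strip A j c c') ∪ (cut A j c ∪ cut A j c') := by
  rintro _ ⟨z, hz, rfl⟩
  have hzs : z ∈ stripC F j c c' := (isClosed_stripC F j c c').frontier_subset hz
  by_cases h1 : z ∈ frontier F.C
  · exact Or.inl ⟨⟨z, h1, rfl⟩, F.ch_mem hzs.1, hzs.2.1, hzs.2.2⟩
  · right
    have hzi : z ∈ interior F.C := by
      by_contra h2
      exact h1 ⟨subset_closure hzs.1, h2⟩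
    by_contra h2
    have h3 : F.ch z j ≠ c := fun e => h2 (Or.inl ⟨F.ch_mem hzs.1, e⟩)
    have h4 : F.ch z j ≠ c' := fun e => h2 (Or.inr ⟨F.ch_mem hzs.1, e⟩)
    have h5 := lt_of_le_of_ne hzs.2.1 (Ne.symm h3)
    have h6 := lt_of_le_of_ne hzs.2.2 h4
    refine hz.2 (mem_interior_iff_mem_nhds.2 ?_)
    filter_upwards [isOpen_interior.mem_nhds hzi,
      (continuous_coord F j).continuousAt.eventually (lt_mem_nhds h5),
      (continuous_coord F j).continuousAt.eventually (gt_mem_nhds h6)] with w hw hw1 hw2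
    exact ⟨interior_subset hw, hw1.le, hw2.le⟩

/-- **the cuts are segments** with end points on the relative boundary of the face -/
theorem cut_eq_segment (F : PFace A) {j : Fin 3} {c : ℝ} (h1 : ∃ x ∈ A, x j < c)
    (h2 : ∃ x ∈ A, c < x j) : ∃ p q, p ≠ q ∧ p ∈ F.ch '' frontier F.C ∧ q ∈ F.ch '' frontier F.C ∧
      cut A j c = segment ℝ p q ∧ openSegment ℝ p q ⊆ F.ch '' interior F.C := by
  -- a point in the interior
  obtain ⟨x, hx, hxc⟩ := h1
  obtain ⟨y, hy, hyc⟩ := h2
  obtain ⟨z, hz, rfl⟩ := F.exists_ch hx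
  obtain ⟨w, hw, rfl⟩ := F.exists_ch hy
  have hcl : ∀ z ∈ F.C, z ∈ closure (interior F.C) := fun z hz => by
    rw [F.convex.closure_interior_eq_closure_of_nonempty_interior F.int]
    exact subset_closure hz
  obtain ⟨z', hz', hz'i⟩ := mem_closure_iff.1 (hcl z hz) _
    (isOpen_lt (continuous_coord F j) continuous_const) hxc
  obtain ⟨w', hw', hw'i⟩ := mem_closure_iff.1 (hcl w hw) _
    (isOpen_lt continuous_const (continuous_coord F j)) hyc
  have hpre : IsPreconnected (interior F.C) := F.convex.interior.isPreconnected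
  obtain ⟨z₀, hz₀, hz₀c⟩ := hpre.intermediate_value hz'i hw'i
    (continuous_coord F j).continuousOn ⟨hz'.le, hw'.le⟩
  simp only at hz₀c
  -- the direction of the line
  set α : ℝ := F.L (1, 0) j with hα
  set β : ℝ := F.L (0, 1) j with hβ
  have hL : ∀ v : H579.P, F.L v j = v.1 * α + v.2 * β := by
    intro v
    have e : v = v.1 • (1, 0) + v.2 • (0, 1) := by
      ext <;> simp
    conv_lhs => rw [e, map_add, map_smul, map_smul]
    simp only [Pi.add_apply, Pi.smul_apply, smul_eq_mul, hα, hβ]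
  have hne : α ≠ 0 ∨ β ≠ 0 := by
    by_contra hcon
    push Not at hcon
    have e1 := ch_coord F j z (w - z) 1
    rw [one_smul, add_sub_cancel, hL, hcon.1, hcon.2, mul_zero, mul_zero, add_zero, mul_zero,
      add_zero] at e1
    linarith
  set v : H579.P := (β, -α) with hv
  have hLv : F.L v j = 0 := by rw [hL]; simp only [hv]; ring
  have hv0 : v ≠ 0 := by
    intro h0
    rw [hv, Prod.mk_eq_zero, neg_eq_zero] at h0
    rcases hne with h | h
    · exact h h0.2
    · exact h h0.1
  have hline : ∀ z, F.ch z j = c → ∃ t : ℝ, z = z₀ + t • v := by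
    intro z hz
    have e1 := ch_coord F j z₀ (z - z₀) 1
    rw [one_smul, add_sub_cancel, hz, one_mul, hL, hz₀c] at e1
    have e2 : (z - z₀).1 * α + (z - z₀).2 * β = 0 := by linarith
    rcases hne with h | h
    · refine ⟨-(z - z₀).2 / α, ?_⟩
      have e3 : (z - z₀).1 = -(z - z₀).2 / α * β := by
        field_simp
        linarith
      ext
      · simp only [Prod.fst_add, Prod.smul_fst, smul_eq_mul, hv]
        rw [← e3]; simp
      · simp only [Prod.snd_add, Prod.smul_snd, smul_eq_mul, hv]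
        have : -(z - z₀).2 / α * -α = (z - z₀).2 := by field_simp
        rw [this]; simp
    · refine ⟨(z - z₀).1 / β, ?_⟩
      have e3 : (z - z₀).2 = (z - z₀).1 / β * -α := by
        field_simp
        linarith
      ext
      · simp only [Prod.fst_add, Prod.smul_fst, smul_eq_mul, hv]
        have : (z - z₀).1 / β * β = (z - z₀).1 := by field_simp
        rw [this]; simp
      · simp only [Prod.snd_add, Prod.smul_snd, smul_eq_mul, hv]
        rw [← e3]; simp
  have hcoord : ∀ t : ℝ, F.ch (z₀ + t • v) j = c := fun t => by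
    rw [ch_coord, hLv, mul_zero, add_zero, hz₀c]
  -- the parameters
  set γ : ℝ → H579.P := fun t => z₀ + t • v with hγ
  have hγc : Continuous γ := by fun_prop
  set T : Set ℝ := γ ⁻¹' F.C with hT
  have hTc : IsClosed T := F.compact.isClosed.preimage hγc
  have hTb : Bornology.IsBounded T := by
    obtain ⟨R, hR⟩ := F.compact.isBounded.subset_closedBall z₀
    refine (Metric.isBounded_closedBall (x := (0:ℝ)) (r := R / ‖v‖)).subset fun t ht => ?_
    have h3 := hR (show γ t ∈ F.C from ht)
    rw [mem_closedBall, dist_eq_norm] at h3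
    have h4 : γ t - z₀ = t • v := by simp [hγ]
    rw [h4, norm_smul] at h3
    rw [mem_closedBall, dist_zero_right]
    rwa [le_div_iff₀ (norm_pos_iff.2 hv0)]
  have hTcomp : IsCompact T := Metric.isCompact_of_isClosed_isBounded hTc hTb
  have h0T : (0:ℝ) ∈ T := by
    show z₀ + (0:ℝ) • v ∈ F.C
    rw [zero_smul, add_zero]; exact interior_subset hz₀
  obtain ⟨t₁, ht₁, hmin⟩ := hTcomp.exists_isMinOn ⟨0, h0T⟩ continuousOn_id
  obtain ⟨t₂, ht₂, hmax⟩ := hTcomp.exists_isMaxOn ⟨0, h0T⟩ continuousOn_id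
  have hnear : ∀ t, γ t ∈ interior F.C → ∀ᶠ s in 𝓝 t, s ∈ T := fun t ht => by
    have := hγc.continuousAt.preimage_mem_nhds (mem_interior_iff_mem_nhds.1 ht)
    exact this
  have hn1 : γ t₁ ∉ interior F.C := by
    intro hi
    obtain ⟨ε, hε, hb⟩ := Metric.eventually_nhds_iff.1 (hnear t₁ hi)
    have h3 : t₁ - ε / 2 ∈ T := hb (by
      rw [Real.dist_eq, sub_sub_cancel_left, abs_neg, abs_of_pos (by linarith)]; linarith)
    have h4 : t₁ ≤ t₁ - ε / 2 := hmin h3
    linarith
  have hn2 : γ t₂ ∉ interior F.C := by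
    intro hi
    obtain ⟨ε, hε, hb⟩ := Metric.eventually_nhds_iff.1 (hnear t₂ hi)
    have h3 : t₂ + ε / 2 ∈ T := hb (by
      rw [Real.dist_eq, add_sub_cancel_left, abs_of_pos (by linarith)]; linarith)
    have h4 : t₂ + ε / 2 ≤ t₂ := hmax h3
    linarith
  have hγ0 : γ 0 = z₀ := by simp [hγ]
  have hlt1 : t₁ < 0 := lt_of_le_of_ne (hmin h0T) fun e => hn1 (by rw [e, hγ0]; exact hz₀)
  have hlt2 : 0 < t₂ := lt_of_le_of_ne (hmax h0T) fun e => hn2 (by rw [← e, hγ0]; exact hz₀)
  have hseg : ∀ t : ℝ, γ t = z₀ + t • v := fun t => rfl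
  have hconv : ∀ a b : ℝ, a + b = 1 → a • γ t₁ + b • γ t₂ = γ (a * t₁ + b * t₂) := by
    intro a b hab
    rw [hseg, hseg, hseg, smul_add, smul_add, add_smul, smul_smul, smul_smul]
    have : z₀ = a • z₀ + b • z₀ := by rw [← add_smul, hab, one_smul]
    nth_rewrite 3 [this]
    abel
  have hchc : ∀ a b : ℝ, a + b = 1 → a • F.ch (γ t₁) + b • F.ch (γ t₂) =
      F.ch (γ (a * t₁ + b * t₂)) := by
    intro a b hab
    rw [← hconv a b hab]
    exact ch_combo F hab _ _
  have hfr : ∀ t, t ∈ T → γ t ∉ interior F.C → F.ch (γ t) ∈ F.ch '' frontier F.C :=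
    fun t ht hi => ⟨γ t, ⟨subset_closure ht, hi⟩, rfl⟩
  refine ⟨F.ch (γ t₁), F.ch (γ t₂), fun e => ?_, hfr t₁ ht₁ hn1, hfr t₂ ht₂ hn2, ?_, ?_⟩
  · have h3 := F.ch_inj e
    rw [hseg, hseg] at h3
    have h4 : (t₁ - t₂) • v = 0 := by
      rw [sub_smul, sub_eq_zero]; exact add_left_cancel h3
    rcases smul_eq_zero.1 h4 with h5 | h5
    · linarith
    · exact hv0 h5
  · apply Subset.antisymm
    · rintro x ⟨hx, hxc⟩
      obtain ⟨z, hz, rfl⟩ := F.exists_ch hx
      obtain ⟨t, rfl⟩ := hline z hxc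
      have h3 : t₁ ≤ t := hmin (show t ∈ T from hz)
      have h4 : t ≤ t₂ := hmax (show t ∈ T from hz)
      have hd : 0 < t₂ - t₁ := by linarith
      refine ⟨(t₂ - t) / (t₂ - t₁), (t - t₁) / (t₂ - t₁), div_nonneg (by linarith) hd.le,
        div_nonneg (by linarith) hd.le, by field_simp; ring, ?_⟩
      rw [hchc _ _ (by field_simp; ring)]
      have : (t₂ - t) / (t₂ - t₁) * t₁ + (t - t₁) / (t₂ - t₁) * t₂ = t := by
        field_simp; ring
      rw [this]
    · rintro _ ⟨a, b, ha, hb, hab, rfl⟩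
      rw [hchc a b hab]
      have h3 : γ (a * t₁ + b * t₂) ∈ F.C := by
        rw [← hconv a b hab]; exact F.convex ht₁ ht₂ ha hb hab
      exact ⟨F.ch_mem h3, hcoord _⟩
  · rintro _ ⟨a, b, ha, hb, hab, rfl⟩
    rw [hchc a b hab]
    refine ⟨_, ?_, rfl⟩
    -- the point is between `z₀` and an end point
    set t := a * t₁ + b * t₂ with ht
    have h3 : t₁ < t := by
      have : t - t₁ = b * (t₂ - t₁) := by
        rw [ht]; have : a = 1 - b := by linarith
        rw [this]; ring
      have := mul_pos hb (show (0:ℝ) < t₂ - t₁ by linarith)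
      linarith
    have h4 : t < t₂ := by
      have : t₂ - t = a * (t₂ - t₁) := by
        rw [ht]; have : b = 1 - a := by linarith
        rw [this]; ring
      have := mul_pos ha (show (0:ℝ) < t₂ - t₁ by linarith)
      linarith
    have key : ∀ s : ℝ, s ∈ T → s ≠ 0 → ∀ τ : ℝ, 0 ≤ τ → τ < 1 → γ (τ * s) ∈ interior F.C := by
      intro s hs _ τ h5 h6
      have h7 : γ (τ * s) = (1 - τ) • z₀ + τ • γ s := by
        rw [hseg, hseg, smul_add, smul_smul, sub_smul, one_smul]; abel
      rw [h7]
      exact F.convex.combo_interior_self_mem_interior hz₀ hs (by linarith) h5 (by ring)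
    rcases le_total 0 t with h5 | h5
    · have := key t₂ ht₂ hlt2.ne' (t / t₂) (div_nonneg h5 hlt2.le) ((div_lt_one hlt2).2 h4)
      rwa [div_mul_cancel₀ _ hlt2.ne'] at this
    · have := key t₁ ht₁ hlt1.ne (t / t₁) (div_nonneg_of_nonpos h5 hlt1.le)
        ((div_lt_one_of_neg hlt1).2 h3)
      rwa [div_mul_cancel₀ _ hlt1.ne] at this

end P073.H227
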