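import Vale.Agent.P073.H341.PlateZ2
import Vale.Agent.P073.H227.StripV

/-!
# P073, H227: **[TOP-OSC]** for the output of [PLATE-Z]

`PlatesOutZ.level`: let `A t` be a listed piece in a plate such that all points of `A t` in the
untouched set `YZ` are joined to the boundary of the piece (inside `A t ∩ YZ`). Then every level of
the plate which is met by the new map on `A t` is met on the relative boundary of `A t` or on
`A t ∩ YZ` (where the new map has the levels of the old one).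
`PlatesOutZ.level_strip`: the same for the strips of `stripP`.
-/

set_option linter.unusedSectionVars false

open Set Metric Topology Filter

namespace P073.H227

open P073 P073.TR P073.H579 P073.H805 P073.H341
open Vale.Agent.P073.H238 (PFace)
open Vale.Agent.P073.St (V)

variable {Ω Λ : Set V} {Γ γ τ : Type}

/-- the trace of a regular function on a flat piece -/
theorem reg1_piece (hΩ : IsOpen Ω) {A : Set V} (F : PFace A) (hA : A ⊆ Ω) {w : V → ℝ}
    (hc : ConicalOn w Ω) (hw : ContinuousOn w Ω) {L : Finset ℝ}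
    (hr : ∀ x ∈ A, w x ∈ L → H805.Reg w (fun _ : Unit => A) x) :
    Reg1 F.C (w ∘ F.ch) (L : Set ℝ) := by
  refine ⟨fun z hz => ?_, fun z hz => ?_, L.finite_toSet, fun z hz hzL => ?_⟩
  · exact ContinuousAt.comp (hw.continuousAt (hΩ.mem_nhds (hA (F.ch_mem hz))))
      F.continuous_ch.continuousAt
  · exact ConicalAt.comp_chart (hc.conicalAt hΩ (hA (F.ch_mem hz)))
  · obtain ⟨σ, r, hb⟩ := hr _ (F.ch_mem hz) hzL
    obtain ⟨σ', r', -, h'⟩ := FlowBox.pull (i₀ := ()) F.inj F.eq hz hb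
    refine ⟨σ', r', ?_⟩
    have h3 : (fun w => F.o + F.L w) ⁻¹' A = F.C := F.ch_preimage
    rw [h3] at h'
    exact h'

/-- two regular functions give a web on a flat piece -/
theorem web_piece (hΩ : IsOpen Ω) {A : Set V} (F : PFace A) (hA : A ⊆ Ω) {u v : V → ℝ}
    (hcu : ConicalOn u Ω) (hu : ContinuousOn u Ω) (hcv : ConicalOn v Ω) (hv : ContinuousOn v Ω)
    {a b : Finset ℝ} (hru : ∀ x ∈ A, u x ∈ a → H805.Reg u (fun _ : Unit => A) x)
    (hrv : ∀ x ∈ A, v x ∈ b → H805.Reg v (fun _ : Unit => A) x)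
    (hruv : ∀ x ∈ A, u x ∈ a → v x ∈ b →
      H805.Reg (fun y => (u y, v y)) (fun _ : Unit => A) x) :
    Web F.C (traces F.C (fun i => bif i then v ∘ F.ch else u ∘ F.ch)
      (fun i => bif i then (b : Set ℝ) else a)) := by
  refine web_traces F.convex F.int F.compact F.cone ?_ ?_
  · intro i
    cases i
    · exact reg1_piece hΩ F hA hcu hu hru
    · exact reg1_piece hΩ F hA hcv hv hrv
  · intro z hz h1 h2
    obtain ⟨σ, r, h3⟩ := hruv _ (F.ch_mem hz) h1 h2
    obtain ⟨σ', r', -, h'⟩ := FlowBox.pull (i₀ := ()) F.inj F.eq hz h3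
    have h5 : (fun w => F.o + F.L w) ⁻¹' A = F.C := F.ch_preimage
    rw [h5] at h'
    exact ⟨σ', r', h'⟩

variable {h h' : ConHomeo Ω Λ} {A : τ → Set V} {pf : ∀ t, PFace (A t)} {G : Γ → Set V}
  {P : γ → Plate} {Z : γ → Set V} {Act : Set τ}

/-- **[TOP-OSC]** on the plates -/
theorem PlatesOutZ.level (hΩ : IsOpen Ω) (H : PlateInZ h A G P Z Act)
    (O : PlatesOutZ h h' A pf G P Z Act) {c : γ} {t : τ} (ht : t ∈ Act)
    (hU : A t ⊆ (P c).U h) (hd : Disjoint (intrinsicInterior ℝ (A t)) ((P c).B h))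
    (hT : JoinedB ((pf t).C ∩ (pf t).ch ⁻¹' YZ h P Z c) (frontier (pf t).C)) :
    (∀ l ∈ (P c).a, ∀ x ∈ A t, h'.toFun x (P c).i = l → ∃ y ∈ A t,
      (y ∈ intrinsicFrontier ℝ (A t) ∨ y ∈ YZ h P Z c) ∧ h'.toFun y (P c).i = l) ∧
    (∀ l ∈ (P c).b, ∀ x ∈ A t, h'.toFun x (P c).j = l → ∃ y ∈ A t,
      (y ∈ intrinsicFrontier ℝ (A t) ∨ y ∈ YZ h P Z c) ∧ h'.toFun y (P c).j = l) := by
  obtain ⟨u, v, R⟩ := O.reg c
  have hAΩ : A t ⊆ Ω := hU.trans (H.U_sub c)
  obtain ⟨g, hg⟩ := H.piece t ht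
  have re : ∀ {F : Type} [NormedAddCommGroup F] [NormedSpace ℝ F] {w : V → F} {x : V},
      H805.Reg w (pFam h G P) x → H805.Reg w (fun _ : Unit => A t) x := fun hr =>
    hr.reindex fun _ => ⟨Sum.inl g, hg.symm⟩
  have hin : A t ⊆ {x | x ∈ Ω ∧ ∀ d, d ≠ c → h.toFun x ∉ interior (Icc (P d).lo (P d).hi)} :=
    fun x hx => ⟨hAΩ hx, fun d hdc hxd =>
      Set.disjoint_left.1 (H.dis d c hdc) hxd ((H.ok c).mem_U.1 (hU hx)).2⟩
  have su := R.su.mono hin
  have sv := R.sv.mono hin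
  have hW := web_piece hΩ (pf t) hAΩ R.conu R.contu R.conv R.contv
    (fun x hx h1 => re (R.regu x (hAΩ hx) h1)) (fun x hx h1 => re (R.regv x (hAΩ hx) h1))
    (fun x hx h1 h2 => re (R.reguv x (hAΩ hx) h1 h2))
  -- the traces of the state are the traces of `h'`
  have etr : traces (pf t).C (fun i => bif i then v ∘ (pf t).ch else u ∘ (pf t).ch)
      (fun i => bif i then ((P c).b : Set ℝ) else (P c).a) = trP (pf t) h'.toFun (P c) := by
    funext i
    cases i
    · ext z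
      rw [mem_trP_false]
      exact and_congr_right fun hz => (su.mem ((pf t).ch_mem hz)).symm
    · ext z
      rw [mem_trP_true]
      exact and_congr_right fun hz => (sv.mem ((pf t).ch_mem hz)).symm
  rw [etr] at hW
  have hmeet : ∀ K, CleanDisc (pf t).C (trP (pf t) h'.toFun (P c)) K →
      (K ∩ (pf t).ch ⁻¹' YZ h P Z c).Nonempty := fun K hK => by
    obtain ⟨_, ⟨z, hzK, rfl⟩, hzY⟩ := Set.not_disjoint_iff.1 (O.clean c t ht hU hd K hK)
    exact ⟨z, hzK, hzY⟩
  have hfr : ∀ {z}, z ∈ (pf t).C → z ∈ frontier (pf t).C ∨ z ∈ (pf t).ch ⁻¹' YZ h P Z c →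
      (pf t).ch z ∈ intrinsicFrontier ℝ (A t) ∨ (pf t).ch z ∈ YZ h P Z c := by
    intro z hz h1
    rcases h1 with h1 | h1
    · left
      rw [(pf t).intrinsicFrontier_eq]
      exact mem_image_of_mem _ h1
    · exact Or.inr h1
  constructor
  · intro l hl x hx hxl
    obtain ⟨z₀, hz₀, rfl⟩ := (pf t).exists_ch hx
    have h1 : u ((pf t).ch z₀) = l := ((su l hl _ hx).1).1 hxl
    obtain ⟨z, hz, h2, h3⟩ := level_chart (i := false) hW (pf t).int (pf t).compact (pf t).cone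
      (reg1_piece hΩ (pf t) hAΩ R.conu R.contu fun x hx h1 => re (R.regu x (hAΩ hx) h1))
      (by rw [← etr]; exact Subset.rfl) hT hmeet (Finset.mem_coe.2 hl) hz₀ h1
    exact ⟨(pf t).ch z, (pf t).ch_mem hz, hfr hz h2,
      ((su l hl _ ((pf t).ch_mem hz)).1).2 h3⟩
  · intro l hl x hx hxl
    obtain ⟨z₀, hz₀, rfl⟩ := (pf t).exists_ch hx
    have h1 : v ((pf t).ch z₀) = l := ((sv l hl _ hx).1).1 hxl
    obtain ⟨z, hz, h2, h3⟩ := level_chart (i := true) hW (pf t).int (pf t).compact (pf t).cone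
      (reg1_piece hΩ (pf t) hAΩ R.conv R.contv fun x hx h1 => re (R.regv x (hAΩ hx) h1))
      (by rw [← etr]; exact Subset.rfl) hT hmeet (Finset.mem_coe.2 hl) hz₀ h1
    exact ⟨(pf t).ch z, (pf t).ch_mem hz, hfr hz h2,
      ((sv l hl _ ((pf t).ch_mem hz)).1).2 h3⟩

/-- the set `YZ` meets every compact conical set in a closed conical set, as soon as `YZ` is closed
and conical -/
theorem YZ.closed_conical {A : Set V} {Y : Set V} (hA : IsClosed A) (hAc : ConicalSet A)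
    (hY : IsClosed Y) (hYc : ConicalSet Y) : IsClosed (A ∩ Y) ∧ ConicalSet (A ∩ Y) := by
  refine ⟨hA.inter hY, fun x hx => ?_⟩
  obtain ⟨r, hr, h1⟩ := hAc x hx.1
  obtain ⟨s, hs, h2⟩ := hYc x hx.2
  exact ⟨min r s, lt_min hr hs, fun v hv hxv t ht =>
    ⟨h1 v (hv.trans (min_le_left _ _)) hxv.1 t ht,
      h2 v (hv.trans (min_le_right _ _)) hxv.2 t ht⟩⟩

end P073.H227
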