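import Vale.Agent.P073.H227.NLev
import Vale.Agent.P073.H227.TopPlate

/-!
# P073, H227: **[OSC-W]**, the levels between two values on a face cut into strips

`Cuts F j S'`: admissible finite set of cut coordinates (it contains the minimum and the maximum of
the coordinate `j` on the face). `exists_cutset`: it exists such that all points of `A ∩ Y` in a
strip are joined to the boundary of the strip. `nbet_face`: the bound.
-/

set_option linter.unusedSectionVars false

open Set Metric Topology Filter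

namespace P073.H227

open P073 P073.TR P073.H579 P073.H805 P073.H341
open Vale.Agent.P073.H238 (PFace)
open Vale.Agent.P073.St (V)

variable {A : Set V}

/-- admissible cut coordinates -/
structure Cuts (A : Set V) (j : Fin 3) (S : Finset ℝ) : Prop where
  lo : ∃ x ∈ A, x j ∈ S ∧ ∀ y ∈ A, x j ≤ y j
  hi : ∃ x ∈ A, x j ∈ S ∧ ∀ y ∈ A, y j ≤ x j
  mem : ∀ s ∈ S, ∃ x ∈ A, x j = s

theorem isCompact_pface (F : PFace A) : IsCompact A := by
  rw [F.eq]; exact F.compact.image F.continuous_ch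

theorem nonempty_pface (F : PFace A) : A.Nonempty := by
  obtain ⟨z, hz⟩ := F.int
  exact ⟨_, F.ch_mem (interior_subset hz)⟩

theorem isPreconnected_pface (F : PFace A) : IsPreconnected A := by
  rw [F.eq]; exact F.convex.isPreconnected.image _ F.continuous_ch.continuousOn

theorem isPreconnected_strip (F : PFace A) (j : Fin 3) (c c' : ℝ) :
    IsPreconnected (strip A j c c') := by
  have e : strip A j c c' = F.ch '' stripC F j c c' := by
    ext x
    constructor
    · rintro ⟨hx, h1, h2⟩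
      obtain ⟨z, hz, rfl⟩ := F.exists_ch hx
      exact ⟨z, ⟨hz, h1, h2⟩, rfl⟩
    · rintro ⟨z, ⟨hz, h1, h2⟩, rfl⟩
      exact ⟨F.ch_mem hz, h1, h2⟩
  rw [e]
  refine IsPreconnected.image ?_ _ F.continuous_ch.continuousOn
  apply Convex.isPreconnected
  rintro x ⟨hx, hx1, hx2⟩ y ⟨hy, hy1, hy2⟩ a b ha hb hab
  have e : F.ch (a • x + b • y) j = a * F.ch x j + b * F.ch y j := by
    rw [← ch_combo F hab]; rfl
  refine ⟨F.convex hx hy ha hb hab, ?_, ?_⟩
  · rw [e]
    have h1 := mul_le_mul_of_nonneg_left hx1 ha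
    have h2 := mul_le_mul_of_nonneg_left hy1 hb
    have : c = a * c + b * c := by rw [← add_mul, hab, one_mul]
    linarith
  · rw [e]
    have h1 := mul_le_mul_of_nonneg_left hx2 ha
    have h2 := mul_le_mul_of_nonneg_left hy2 hb
    have : c' = a * c' + b * c' := by rw [← add_mul, hab, one_mul]
    linarith

/-- **the cut set** -/
theorem exists_cutset (F : PFace A) (j : Fin 3) {Y : Set V} (hY : IsClosed (A ∩ Y))
    (hX : ConicalSet (A ∩ Y)) :
    ∃ S : Finset ℝ, Cuts A j S ∧ ∀ p, Consec S p →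
      ∃ _ : ∃ x ∈ A, p.1 < x j ∧ x j < p.2,
        JoinedB (stripC F j p.1 p.2 ∩ F.ch ⁻¹' Y) (frontier (stripC F j p.1 p.2)) := by
  classical
  obtain ⟨S, hS⟩ := exists_strips_P F j hY hX
  have hcj : ContinuousOn (fun x : V => x j) A := (continuous_apply j).continuousOn
  obtain ⟨p, hp, hpm⟩ := (isCompact_pface F).exists_isMinOn (nonempty_pface F) hcj
  obtain ⟨q, hq, hqm⟩ := (isCompact_pface F).exists_isMaxOn (nonempty_pface F) hcj
  have hlo : ∀ y ∈ A, p j ≤ y j := fun y hy => hpm hy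
  have hhi : ∀ y ∈ A, y j ≤ q j := fun y hy => hqm hy
  have hival : ∀ s, p j ≤ s → s ≤ q j → ∃ x ∈ A, x j = s := fun s h1 h2 => by
    obtain ⟨x, hx, h3⟩ := (isPreconnected_pface F).intermediate_value hp hq hcj ⟨h1, h2⟩
    exact ⟨x, hx, h3⟩
  set S' : Finset ℝ := insert (p j) (insert (q j) (S.filter fun s => s ∈ Icc (p j) (q j)))
  have hmem : ∀ s ∈ S', p j ≤ s ∧ s ≤ q j := by
    intro s hs
    rcases Finset.mem_insert.1 hs with rfl | hs
    · exact ⟨le_rfl, hlo q hq⟩
    · rcases Finset.mem_insert.1 hs with rfl | hs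
      · exact ⟨hhi p hp, le_rfl⟩
      · exact (Finset.mem_filter.1 hs).2
  refine ⟨S', ⟨⟨p, hp, Finset.mem_insert_self _ _, hlo⟩, ⟨q, hq,
    Finset.mem_insert_of_mem (Finset.mem_insert_self _ _), hhi⟩, fun s hs =>
    hival s (hmem s hs).1 (hmem s hs).2⟩, fun r hr => ?_⟩
  obtain ⟨h1, h2, h3, h4⟩ := hr
  obtain ⟨x, hx, hxe⟩ := hival ((r.1 + r.2) / 2) (by linarith [(hmem _ h1).1])
    (by linarith [(hmem _ h2).2])
  have hex : ∃ x ∈ A, r.1 < x j ∧ x j < r.2 := ⟨x, hx, by linarith, by linarith⟩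
  refine ⟨hex, hS r.1 r.2 hex fun s hs hsI => ?_⟩
  refine h4 s ?_ hsI
  exact Finset.mem_insert_of_mem (Finset.mem_insert_of_mem (Finset.mem_filter.2 ⟨hs,
    (hmem _ h1).1.trans hsI.1.le, hsI.2.le.trans (hmem _ h2).2⟩))

/-- every strip meets the relative boundary of the face -/
theorem strip_meets (F : PFace A) {j : Fin 3} {c c' : ℝ} (h : ∃ x ∈ A, c < x j ∧ x j < c') :
    (strip A j c c' ∩ F.ch '' frontier F.C).Nonempty := by
  obtain ⟨x, hx, h1, h2⟩ := h
  obtain ⟨z, hz, rfl⟩ := F.exists_ch hx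
  -- a direction in which the coordinate is constant
  obtain ⟨v, hv0, hv⟩ : ∃ v : H579.P, v ≠ 0 ∧ F.L v j = 0 := by
    by_cases hα : F.L (1, 0) j = 0
    · exact ⟨(1, 0), by simp, hα⟩
    · refine ⟨(F.L (0, 1) j, -F.L (1, 0) j), fun h0 => hα ?_, ?_⟩
      · rw [Prod.mk_eq_zero, neg_eq_zero] at h0; exact h0.2
      · have e : ((F.L (0, 1) j, -F.L (1, 0) j) : H579.P) =
            F.L (0, 1) j • (1, 0) + (-F.L (1, 0) j) • (0, 1) := by
          ext <;> simp
        rw [e, map_add, map_smul, map_smul]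
        simp only [Pi.add_apply, Pi.smul_apply, smul_eq_mul]
        ring
  set γ : ℝ → H579.P := fun t => z + t • v with hγ
  have hγc : Continuous γ := by fun_prop
  have hcoord : ∀ t, F.ch (γ t) j = F.ch z j := fun t => by
    show F.ch (z + t • v) j = _
    rw [ch_coord, hv, mul_zero, add_zero]
  set T : Set ℝ := γ ⁻¹' F.C with hT
  have hTc : IsClosed T := F.compact.isClosed.preimage hγc
  have hTb : Bornology.IsBounded T := by
    obtain ⟨R, hR⟩ := F.compact.isBounded.subset_closedBall z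
    refine (Metric.isBounded_closedBall (x := (0:ℝ)) (r := R / ‖v‖)).subset fun t ht => ?_
    have h3 := hR (show γ t ∈ F.C from ht)
    rw [mem_closedBall, dist_eq_norm] at h3
    have h4 : γ t - z = t • v := by simp [hγ]
    rw [h4, norm_smul] at h3
    rw [mem_closedBall, dist_zero_right]
    rwa [le_div_iff₀ (norm_pos_iff.2 hv0)]
  have h0T : (0:ℝ) ∈ T := by
    show z + (0:ℝ) • v ∈ F.C
    rw [zero_smul, add_zero]; exact hz
  obtain ⟨t, ht, hmax⟩ := (Metric.isCompact_of_isClosed_isBounded hTc hTb).exists_isMaxOn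
    ⟨0, h0T⟩ continuousOn_id
  have hni : γ t ∉ interior F.C := by
    intro hi
    have hn : ∀ᶠ s in 𝓝 t, s ∈ T := hγc.continuousAt.preimage_mem_nhds
      (mem_interior_iff_mem_nhds.1 hi)
    obtain ⟨ε, hε, hb⟩ := Metric.eventually_nhds_iff.1 hn
    have h3 : t + ε / 2 ∈ T := hb (by
      rw [Real.dist_eq, add_sub_cancel_left, abs_of_pos (by linarith)]; linarith)
    have h4 : t + ε / 2 ≤ t := hmax h3
    linarith
  exact ⟨F.ch (γ t), ⟨F.ch_mem ht, by rw [hcoord]; exact h1.le, by rw [hcoord]; exact h2.le⟩,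
    γ t, ⟨subset_closure ht, hni⟩, rfl⟩

/-- **[OSC-W]**: the number of levels between two values on a face which is cut into strips -/
theorem nbet_face (F : PFace A) {j : Fin 3} {S : Finset ℝ} (hC : Cuts A j S)
    (hne : ∃ x ∈ A, ∃ y ∈ A, x j < y j) (hS : ∀ p, Consec S p → ∃ x ∈ A, p.1 < x j ∧ x j < p.2)
    (hb : IsPreconnected (intrinsicFrontier ℝ A)) {f : V → ℝ} (hf : ContinuousOn f A)
    {L : Finset ℝ} {T : Set V} {Nb Nc NT : ℕ} (hNb : nlev L f (intrinsicFrontier ℝ A) ≤ Nb)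
    (hNc : ∀ s ∈ S, nlev L f (cut A j s) ≤ Nc) (hNT : nlev L f (A ∩ T) ≤ NT)
    (hlev : ∀ p, Consec S p → ∀ l ∈ L, ∀ x ∈ strip A j p.1 p.2, f x = l →
      ∃ y ∈ strip A j p.1 p.2,
        (y ∈ intrinsicFrontier ℝ (strip A j p.1 p.2) ∨ y ∈ T) ∧ f y = l)
    {x y : V} (hx : x ∈ A) (hy : y ∈ A) :
    nbet L (f x) (f y) ≤ 2 * (Nb + 2 * Nc + NT) + Nb := by
  have hfr : intrinsicFrontier ℝ A ⊆ A :=
    intrinsicFrontier_subset (isCompact_pface F).isClosed
  -- one strip
  have hstrip : ∀ p, Consec S p → nlev L f (strip A j p.1 p.2) ≤ Nb + 2 * Nc + NT := by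
    intro p hp
    have hex := hS p hp
    refine (nlev_of_level (hlev p hp)).trans ?_
    have h1 : strip A j p.1 p.2 ∩ intrinsicFrontier ℝ (strip A j p.1 p.2) ⊆
        intrinsicFrontier ℝ A ∪ (cut A j p.1 ∪ cut A j p.2) := by
      rintro x ⟨-, hx⟩
      have h2 := (stripP F j p.1 p.2 hex).intrinsicFrontier_eq
      rw [h2] at hx
      have h3 := strip_frontier F (j := j) (c := p.1) (c' := p.2) hx
      rcases h3 with h3 | h3
      · left
        rw [F.intrinsicFrontier_eq]; exact h3.1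
      · exact Or.inr h3
    have h2 : nlev L f (strip A j p.1 p.2 ∩ intrinsicFrontier ℝ (strip A j p.1 p.2)) ≤
        Nb + (Nc + Nc) := by
      refine (nlev_mono h1).trans ((nlev_union_le _ _ _ _).trans ?_)
      refine Nat.add_le_add hNb ((nlev_union_le _ _ _ _).trans ?_)
      exact Nat.add_le_add (hNc _ hp.1) (hNc _ hp.2.1)
    have h3 : nlev L f (strip A j p.1 p.2 ∩ T) ≤ NT :=
      (nlev_mono (inter_subset_inter_left _ (strip_sub A j p.1 p.2))).trans hNT
    omega
  obtain ⟨a, ha, haS, hamin⟩ := hC.lo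
  obtain ⟨b, hb', hbS, hbmax⟩ := hC.hi
  have hab : a j < b j := by
    obtain ⟨p, hp, q, hq, hpq⟩ := hne
    exact (hamin p hp).trans_lt (hpq.trans_le (hbmax q hq))
  refine nbet_le_strips (ι := {p // Consec S p}) (R := fun p => strip A j p.1.1 p.1.2)
    (e₀ := intrinsicFrontier ℝ A) (S := A) (fun z hz => ?_)
    (fun p => isPreconnected_strip F j _ _) (fun p => hf.mono (strip_sub A j _ _)) hb
    (hf.mono hfr) (fun p => ?_) (fun p => hstrip p.1 p.2) hx hy |>.trans ?_
  · obtain ⟨p, hp, h1, h2⟩ := exists_consec haS hbS hab ⟨hamin z hz, hbmax z hz⟩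
    exact mem_iUnion.2 ⟨⟨p, hp⟩, hz, h1, h2⟩
  · rw [F.intrinsicFrontier_eq]
    exact strip_meets F (hS p.1 p.2)
  · exact Nat.add_le_add_left hNb _

end P073.H227
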