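import Vale.Agent.P073.H227.OscRow
import Vale.Agent.P073.H880.TopF
import Vale.Agent.P073.H726.TopR2
import Vale.Agent.P073.H345.TvRow

/-!
# P073, H227, [OSC-TOP]: `RowsO`, the row of the second part

* `SupRow C₀`: the row of the faces which are not listed;
* `GivRow C₀`: the row of the drawn faces which are not peeled;
* `rowsO_of`: `RowsO C₀` from these two.
-/

open Set Metric Topology Filter MeasureTheory
open scoped ENNReal

set_option linter.unusedSectionVars false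

namespace Vale.Agent.P073.H227

open _root_.P073 _root_.P073.Net _root_.P073.PA691 _root_.P073.H236 _root_.P073.H579
open _root_.P073.H142
open Vale.Agent.P073.St (V)
open Vale.Agent.P073.H471 Vale.Agent.P073.H267
open Vale.Agent.P073.H73 (Mesh onSeg sqr)
open Vale.Agent.P073.H193 (Edges edges LAtC)
open Vale.Agent.P073.H926
open Vale.Agent.P073.H238.K3
open Vale.Agent.P073.H267.K3
open Vale.Agent.P073.Top880
open Vale.Agent.P073.H233 (Xp Adm PSet LAt FaceOK3 Tol FHyp Ev OscEst)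
open Vale.Agent.P073.H936.KR (NW Zw)

/-- **the row of the faces which are not listed** -/
def SupRow (C₀ : ℝ) : Prop :=
  ∃ c₂ : ℝ, ∀ c : ℝ, c₂ ≤ c →
  ∀ {c₀ n δ : ℝ} {j : ℕ} {Ω Λ : Set V} {v w : V} {ρ : V → ℝ} {M : Mesh Ω} {h : ConHomeo Ω Λ}
    {J₀ J : Set (ℕ × (Fin 3 → ℤ))} {P Z : Set M.ι} {K : BoxCx Λ w}
    (D : KIn3 c₀ n j δ v w ρ M h J₀ J P Z) (C : Cells ρ w K) (Ys : Set M.κ) {p μ r ν : ℝ}
    {sc : Sharp}, Cn p μ r sc ν n δ → ∀ {ε : M.κ → ℝ} {om εL : (edges M).ε → ℝ} {lam osc : M.ι → ℝ},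
    (∀ k, 0 < ε k) → Tol M h.toFun ε om εL lam osc →
    J = J₀ → (∀ t ∈ J₀, ∀ t' ∈ J₀, t'.1 = t.1) →
    RowP D C C₀ (n / 128) Ys sc fun Y₅ => SupF c Y₅

/-- **the row of the drawn faces which are not peeled** -/
def GivRow (C₀ : ℝ) : Prop :=
  ∀ {c₀ n δ : ℝ} {j : ℕ} {Ω Λ : Set V} {v w : V} {ρ : V → ℝ} {M : Mesh Ω} {h : ConHomeo Ω Λ}
    {J₀ J : Set (ℕ × (Fin 3 → ℤ))} {P Z : Set M.ι} {K : BoxCx Λ w}
    (D : KIn3 c₀ n j δ v w ρ M h J₀ J P Z) (C : Cells ρ w K) (Ys : Set M.κ) {p μ r ν : ℝ}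
    {sc : Sharp}, Cn p μ r sc ν n δ → ∀ τ₀ : M.κ → ℝ, (∀ k, 0 < τ₀ k) →
    RowP D C C₀ (n / 128) Ys sc fun {X _ _ _} Y₅ => GivF (tauF τ₀ X.bn) Y₅

/-- **the row of the second part** -/
theorem rowsO_of {C₀ : ℝ} (hC₀ : 1 ≤ C₀) (HG : GivRow C₀) (HS : SupRow C₀) : RowsO C₀ := by
  obtain ⟨c₂, HS⟩ := HS
  refine ⟨max c₂ (max (880 * max (936 * qC C₀ + 1) (600 * C₀ + 1)) (432000 * C₀ + 1)),
    fun C₁ hC₁ C₁' hC => ?_⟩
  have h0 : c₂ ≤ C₁ := (le_max_left _ _).trans hC₁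
  have h1 : 880 * max (936 * qC C₀ + 1) (600 * C₀ + 1) ≤ C₁ :=
    ((le_max_left _ _).trans (le_max_right _ _)).trans hC₁
  have h2 : 432000 * C₀ + 1 ≤ C₁ := ((le_max_right _ _).trans (le_max_right _ _)).trans hC₁
  intro c₀ n δ j Ω Λ v w ρ M h J₀ J P Z K D C Ys p μ r ν sc HN ε om εL lam osc hε T hJ hm hY hNW
  have hsoft := H233.soft_mu D
  have hrow := row_osc_of D C hC₀ hJ hm hY hNW hsoft.1 hsoft.2 hε T hC h1 h2
    (RowP.mono ((row_rowNum D C hC₀ hε (fun k => one_pos)).and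
      (HG D C Ys HN (fun _ => 1) fun _ => one_pos)) fun {X _ _ _} Y₅ H => by
        obtain ⟨⟨t4, t5, h3⟩, h4⟩ := H
        exact ⟨tauF (fun _ => 1) X.bn, t4, t5, h3, h4⟩)
    (HS C₁ h0 D C Ys HN hε T hJ hm)
  exact RowP.mono hrow fun {X _ _ _} Y₅ H => H X.out.tvg

end Vale.Agent.P073.H227
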