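import Vale.Agent.P073.H227.RowsO
import Vale.Agent.P073.H851.RowF

/-!
# P073, H227, [OSC-TOP]: `RowsO` from `SupRow` alone
-/

namespace Vale.Agent.P073.H227

open Vale.Agent.P073.Top880

theorem givRow (C₀ : ℝ) : GivRow C₀ :=
  fun D C _ _ _ _ _ _ _ _ hτ₀ => Top880.row_giv D C hτ₀

/-- **`RowsO` from the row of the faces which are not listed** -/
theorem rowsO_of_sup {C₀ : ℝ} (hC₀ : 1 ≤ C₀) (HS : SupRow C₀) : RowsO C₀ :=
  rowsO_of hC₀ (givRow C₀) HS

end Vale.Agent.P073.H227
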