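import Vale.Agent.P073.H227.OscSup
import Vale.Agent.P073.H227.RowsO2
import Vale.Agent.P073.H236.SlotP
import Vale.Agent.P073.H253.TubeTv3

/-!
# P073, H227, [OSC-TOP]: the row of the faces which are not listed

`supRow`: all numbers of `osc_sup` in slots; `rowsO`: the row of the second part.
-/

open Set Metric Topology Filter MeasureTheory
open scoped ENNReal

set_option linter.unusedSectionVars false

namespace Vale.Agent.P073.H227

open _root_.P073 _root_.P073.Net _root_.P073.PA691 _root_.P073.H236 _root_.P073.H579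
open _root_.P073.H142
open _root_.P073.H345 (PK tg PLev)
open _root_.P073.H880.RP
open _root_.P073.H429
open Vale.Agent.P073.St (V)
open Vale.Agent.P073.H471 Vale.Agent.P073.H267
open Vale.Agent.P073.H73 (Mesh onSeg sqr)
open Vale.Agent.P073.H193 (Edges edges LAtC)
open Vale.Agent.P073.H304 (Nb Zmax)
open Vale.Agent.P073.H926
open Vale.Agent.P073.H238.K3
open Vale.Agent.P073.H267.K3
open Vale.Agent.P073.H341
open Vale.Agent.P073.Top880
open _root_.Vale.Agent.P073.H236.Slot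
open Vale.Agent.P073.H233 (Xp Adm PSet LAt FaceOK3 Tol FHyp Ev OscEst)

section osch

variable {Ω Λ : Set V}

/-- the oscillation of `h` on the face `k` -/
noncomputable def oscH (M : Mesh Ω) (h : ConHomeo Ω Λ) (k : M.κ) : ℝ := diam (h.toFun '' M.F k)

theorem le_oscH (M : Mesh Ω) (h : ConHomeo Ω Λ) {k : M.κ} {x y : V} (hx : x ∈ M.F k)
    (hy : y ∈ M.F k) : ‖h.toFun x - h.toFun y‖ ≤ oscH M h k := by
  have hc : IsCompact (h.toFun '' M.F k) := (H233.isCompact_face M k).image_of_continuousOn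
    (h.cont.mono (Vale.Agent.P073.H193.mesh_sub M k))
  have := dist_le_diam_of_mem hc.isBounded (mem_image_of_mem _ hx) (mem_image_of_mem _ hy)
  rwa [dist_eq_norm] at this

theorem oscH_pos (M : Mesh Ω) (h : ConHomeo Ω Λ) (k : M.κ) : 0 < oscH M h k := by
  obtain ⟨T⟩ := _root_.P073.H142.exists_fstar (edges M) k
  have h1 : (edges M).seg (Vale.Agent.P073.H155.ce T.C 0) ⊆ M.F k := T.C.sub _
  have ha := h1 (left_mem_segment ℝ _ _)
  have hb := h1 (right_mem_segment ℝ _ _)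
  have hΩ := Vale.Agent.P073.H193.mesh_sub M k
  refine lt_of_lt_of_le ?_ (le_oscH M h ha hb)
  refine norm_pos_iff.2 (sub_ne_zero.2 fun h2 => (edges M).ne (Vale.Agent.P073.H155.ce T.C 0) ?_)
  exact h.injOn (hΩ ha) (hΩ hb) h2

theorem oscH_le {M : Mesh Ω} {h : ConHomeo Ω Λ} {i : M.ι} {k : M.κ} {b : ℝ} (hb : 0 ≤ b)
    (hki : M.F k ⊆ M.Q i) (H : FHyp M h.toFun i k b) : oscH M h k ≤ b := by
  refine diam_le_of_forall_dist_le hb ?_
  rintro _ ⟨x, hx, rfl⟩ _ ⟨y, hy, rfl⟩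
  rw [dist_eq_norm]
  exact H.1 x (hki hx) y (hki hy)

end osch

/-- **the row of the faces which are not listed** -/
theorem supRow {C₀ : ℝ} (hC₀ : 0 ≤ C₀) : SupRow C₀ := by
  classical
  refine ⟨12 * C₀ + 100, fun c hc => ?_⟩
  intro c₀ n δ j Ω Λ v w ρ M h J₀ J P Z K D C Ys p μ r ν sc HN ε om εL lam osc hε T hJ hm
  have hβ0 : ∀ k, 0 < oscH M h k := oscH_pos M h
  obtain ⟨d, hd0, hd⟩ := exists_min_over h (A := M.F)
    (Vale.Agent.P073.H193.mesh_sub M) M.ffin (N := fun b : pB C J₀ => (D.G C).TB false b.1)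
    (fun _ => isCompact_Icc) (fun b => (D.G C).TB_sub b.1) hβ0
  obtain ⟨mP, hmP0, hmP⟩ := exists_mP_gen D C (A := M.F)
    (Vale.Agent.P073.H193.mesh_sub M) M.ffin hβ0
  choose t5 ht5 H5 using fun (X : S1 D C C₀ (n / 128)) (Y₂ : S2 X) (Y₃ : S3 Y₂ Ys sc)
      (Y₄ : S4 Y₃) =>
    H253.Tube.exists_epsb (D := D) (C := C) Y₄.f5 J₀ (t := oscH M h) hβ0
  have hlen : ∀ b : pG C J₀, 0 < ebe (D.W C) b.1 - eal (D.W C) b.1 := fun b =>
    sub_pos.2 (eal_lt_ebe (D.W C) b.1)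
  refine ⟨{ (Slots.one : Slots D C C₀ (n / 128) Ys sc) with
    εd := d
    εd0 := hd0
    m := fun _ s => min (mP s) ((D.G C).oS s / 4)
    m0 := fun _ s => lt_min (hmP0 s) (by have := Vale.Agent.P073.H805.oS_pos (D.G C) s; positivity)
    tol5 := fun Y₄ _ _ b => min (t5 _ _ _ Y₄ b) ((D.B C).T b.1 / 4) /
      (ebe (D.W C) b.1 - eal (D.W C) b.1)
    tol50 := fun Y₄ _ _ b => div_pos (lt_min (ht5 _ _ _ Y₄ b)
      (by have := (D.B C).T_pos b.1; positivity)) (hlen b) }, ?_⟩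
  intro N X Y₂ Y₃ Y₄ Y₅ H k hP hU i hki
  have hς : ∀ b : pG C J₀, Y₅.ς b * (ebe (D.W C) b.1 - eal (D.W C) b.1) ≤
      min (t5 X Y₂ Y₃ Y₄ b) ((D.B C).T b.1 / 4) := fun b => by
    have h1 : Y₅.ς b ≤ min (t5 X Y₂ Y₃ Y₄ b) ((D.B C).T b.1 / 4) /
      (ebe (D.W C) b.1 - eal (D.W C) b.1) := (Y₅.ςε b).trans (H.ε5 b)
    rwa [le_div_iff₀ (hlen b)] at h1
  refine ⟨(12 * C₀ + 100) * oscH M h k, fun b hb hF => ?_, ?_⟩
  · have h1 := oscH_le hb.le hki hF
    calc (12 * C₀ + 100) * oscH M h k ≤ (12 * C₀ + 100) * b :=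
          mul_le_mul_of_nonneg_left h1 (by linarith)
      _ ≤ c * b := mul_le_mul_of_nonneg_right hc hb.le
  refine osc_sup Y₅ hJ hm hC₀ hP hU (hβ0 k) (fun x hx y hy => le_oscH M h hx hy)
    (fun b hb => ?_) (fun s hs hz => ?_) (fun s hs => ?_) (fun b hx => ?_) (fun b => ?_)
    (fun b => ?_) (fun b => ?_) fun b => ?_
  · obtain ⟨z, hz, hzb⟩ := hb
    exact (H.εd b).trans (hd b k ⟨_, ⟨z, hz, rfl⟩, hzb⟩)
  · obtain ⟨z, hz, hzs⟩ := hz
    exact ((H.muP s).trans (min_le_left _ _)).trans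
      (hmP X.h1.toFun (fun x hx q hq => X.out.near3 x hx q hq) s k ⟨_, hzs, z, hz, rfl⟩)
  · exact (H.muP s).trans (min_le_right _ _)
  · obtain ⟨x, hx, hxK⟩ := hx
    rw [Y₅.Ft_K b] at hxK
    have h1 := H5 X Y₂ Y₃ Y₄ b k ⟨_, ⟨x, hx, rfl⟩, hxK⟩
    have h2 : 0 ≤ diam (M.F k) := diam_nonneg
    have h3 := ht5 X Y₂ Y₃ Y₄ b
    have h4 := (hς b).trans (min_le_left _ _)
    nlinarith
  · exact (hς b).trans (min_le_right _ _)
  · rw [H.μ5]
    exact (H212.K3.muT_pos D C b.1).le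
  · rw [H.μ5]
    exact H212.K3.muT_le D C b.1
  · rw [H.μ5]
    exact H212.K3.muT_len D C b.1

/-- **the row of the second part** -/
theorem rowsO {C₀ : ℝ} (hC₀ : 1 ≤ C₀) : RowsO C₀ :=
  rowsO_of_sup hC₀ (supRow (by linarith))

end Vale.Agent.P073.H227
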