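import Vale.Agent.P073.H227.TopLev

/-!
# P073, H227: **[TOP-OSC] (L3)**, the cuts of a face which crosses the top of a box

A compact conical set `X` has finitely many centres, such that every point of `X` is joined to a
centre by a segment in `X` (`exists_centres`). If a closed set `R` contains no centre in its
interior, then every point of `R ∩ X` is joined to the frontier of `R` inside `R ∩ X`
(`joinedB_of_centres`). So if a face is cut into convex pieces whose interiors contain no centre of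
`F ∩ Y`, then all pieces satisfy `TopOk`.
-/

set_option linter.unusedSectionVars false

open Set Metric Topology Filter

namespace P073.H227

open P073 P073.TR P073.SCH P073.H339 P073.H579 P073.H805 P073.H341

section general

variable {E : Type*} [NormedAddCommGroup E] [NormedSpace ℝ E]

/-- finitely many centres -/
theorem exists_centres {X : Set E} (hX : IsCompact X) (hc : ConicalSet X) :
    ∃ S : Finset E, (∀ s ∈ S, s ∈ X) ∧ ∀ y ∈ X, ∃ s ∈ S, segment ℝ s y ⊆ X := by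
  choose! r hr H using hc
  obtain ⟨S, hS, hcov⟩ := hX.elim_nhds_subcover (fun x => closedBall x (r x))
    (fun x hx => closedBall_mem_nhds x (hr x hx))
  refine ⟨S, hS, fun y hy => ?_⟩
  obtain ⟨s, hs, hys⟩ := mem_iUnion₂.1 (hcov hy)
  refine ⟨s, hs, ?_⟩
  have h1 : ‖y - s‖ ≤ r s := by rwa [mem_closedBall, dist_eq_norm] at hys
  have h2 := H s (hS s hs) (y - s) h1 (by rw [add_sub_cancel]; exact hy)
  rw [segment_eq_image_lineMap]
  rintro _ ⟨t, ht, rfl⟩
  rw [AffineMap.lineMap_apply_module']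
  rw [add_comm]
  exact h2 t ht

/-- first exit along a segment -/
theorem joinedB_of_centres {X R : Set E} (hR : IsClosed R)
    (h : ∀ y ∈ R ∩ X, ∃ s, s ∉ interior R ∧ segment ℝ s y ⊆ X) : JoinedB (R ∩ X) (frontier R) := by
  intro y hy
  obtain ⟨s, hs, hsy⟩ := h y hy
  set γ : ℝ → E := fun t => AffineMap.lineMap y s t with hγ
  have hγc : Continuous γ := AffineMap.lineMap_continuous
  set T : Set ℝ := {t | t ∈ Icc (0:ℝ) 1 ∧ γ t ∉ interior R} with hT
  have hTc : IsClosed T := by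
    have : T = Icc (0:ℝ) 1 ∩ (γ ⁻¹' interior R)ᶜ := by
      ext t; rfl
    rw [this]
    exact isClosed_Icc.inter (isOpen_interior.preimage hγc).isClosed_compl
  have hne : T.Nonempty := ⟨1, ⟨zero_le_one, le_rfl⟩, by simpa [hγ] using hs⟩
  have hbdd : BddBelow T := ⟨0, fun t ht => ht.1.1⟩
  set t₀ := sInf T with ht₀
  have h0 : t₀ ∈ T := hTc.csInf_mem hne hbdd
  have hlt : ∀ t ∈ Ico 0 t₀, γ t ∈ interior R := by
    intro t ht
    by_contra hcon
    have : t ∈ T := ⟨⟨ht.1, (ht.2.le.trans h0.1.2)⟩, hcon⟩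
    exact absurd (csInf_le hbdd this) (not_le.2 ht.2)
  have hmem : ∀ t ∈ Icc 0 t₀, γ t ∈ R := by
    intro t ht
    rcases ht.2.lt_or_eq with h1 | h1
    · exact interior_subset (hlt t ⟨ht.1, h1⟩)
    · rcases ht.1.lt_or_eq with h2 | h2
      · -- limit
        have h3 : Tendsto γ (𝓝[<] t) (𝓝 (γ t)) := hγc.continuousAt.tendsto.mono_left
          nhdsWithin_le_nhds
        refine hR.mem_of_tendsto h3 ?_
        have : Ico 0 t ∈ 𝓝[<] t := Ico_mem_nhdsLT h2
        filter_upwards [this] with τ hτ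
        exact interior_subset (hlt τ ⟨hτ.1, hτ.2.trans_le h1.le⟩)
      · rw [← h2]
        have : γ 0 = y := by simp [hγ]
        rw [this]; exact hy.1
  refine ⟨γ '' Icc 0 t₀, ?_, ?_, ⟨0, ⟨le_rfl, h0.1.1⟩, by simp [hγ]⟩, γ t₀,
    ⟨t₀, ⟨h0.1.1, le_rfl⟩, rfl⟩, ?_⟩
  · rintro _ ⟨t, ht, rfl⟩
    refine ⟨hmem t ht, hsy ?_⟩
    rw [segment_symm, segment_eq_image_lineMap]
    exact ⟨t, ⟨ht.1, ht.2.trans h0.1.2⟩, rfl⟩
  · exact isPreconnected_Icc.image γ hγc.continuousOn
  · rw [hR.frontier_eq]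
    exact ⟨hmem t₀ ⟨h0.1.1, le_rfl⟩, h0.2⟩

end general

variable {E : Type*} [NormedAddCommGroup E] [NormedSpace ℝ E] {ι J : Type*} {D : Data E ι}

/-- **[TOP-OSC] (L3)**: the centres of a compact planar set `C` in a chart `ch`; every closed piece
`C'` of `C` without centres in the interior satisfies `TopOk` -/
theorem exists_cuts {ch : P → E} {C : Set P} {Y : Set E} (hC : IsCompact C)
    (hY : IsClosed (C ∩ ch ⁻¹' Y)) (hX : ConicalSet (C ∩ ch ⁻¹' Y)) :
    ∃ S : Finset P, (∀ s ∈ S, s ∈ C) ∧ ∀ C' : Set P, IsClosed C' → C' ⊆ C →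
      (∀ s ∈ S, s ∉ interior C') → JoinedB (C' ∩ ch ⁻¹' Y) (frontier C') := by
  have hXc : IsCompact (C ∩ ch ⁻¹' Y) := hC.of_isClosed_subset hY inter_subset_left
  obtain ⟨S, hS, h⟩ := exists_centres hXc hX
  refine ⟨S, fun s hs => (hS s hs).1, fun C' hC' hsub hint => ?_⟩
  have e : C' ∩ ch ⁻¹' Y = C' ∩ (C ∩ ch ⁻¹' Y) := by
    ext x
    exact ⟨fun hx => ⟨hx.1, hsub hx.1, hx.2⟩, fun hx => ⟨hx.1, hx.2.2⟩⟩
  rw [e]
  refine joinedB_of_centres hC' fun y hy => ?_
  obtain ⟨s, hs, hsy⟩ := h y hy.2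
  exact ⟨s, hint s hs, hsy⟩

/-- strips: cuts in the first coordinate through all centres -/
theorem exists_strips {ch : P → E} {a b : P} {Y : Set E}
    (hY : IsClosed (Icc a b ∩ ch ⁻¹' Y)) (hX : ConicalSet (Icc a b ∩ ch ⁻¹' Y)) :
    ∃ S : Finset ℝ, ∀ c c' : ℝ, a.1 ≤ c → c' ≤ b.1 → (∀ s ∈ S, s ∉ Ioo c c') →
      JoinedB (Icc (c, a.2) (c', b.2) ∩ ch ⁻¹' Y) (frontier (Icc (c, a.2) (c', b.2) : Set P)) := by
  obtain ⟨S, -, h⟩ := exists_cuts isCompact_Icc hY hX
  classical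
  refine ⟨S.image Prod.fst, fun c c' hc hc' hS => ?_⟩
  refine h _ isClosed_Icc (fun z hz => ?_) fun s hs hi => ?_
  · exact ⟨⟨hc.trans hz.1.1, hz.1.2⟩, ⟨hz.2.1.trans hc', hz.2.2⟩⟩
  · refine hS s.1 (Finset.mem_image_of_mem _ hs) ?_
    have e : (Icc (c, a.2) (c', b.2) : Set P) = Icc c c' ×ˢ Icc a.2 b.2 := by
      rw [Icc_prod_eq]
    rw [e, interior_prod_eq, interior_Icc] at hi
    exact hi.1

end P073.H227
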