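import Vale.Agent.P073.H227.TopCut
import Vale.Agent.P073.H805.E3Box

/-!
# P073, H227: **[TOP-OSC]**, the exchange process in a box with arbitrary listed faces

`exists_e3T`: the version of `H805.exists_e3` without conditions on the listed faces `F`. The
sub-family `F ∘ ρ` of the faces satisfying `Touch` gets good patterns (`E3Out`), for all faces with
`TopOk` the levels are controlled by the levels on the boundary and on the untouched part
(`E3Lev`).
-/

set_option linter.unusedSectionVars false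

open Set Metric Topology Filter

namespace P073.H227

open P073 P073.TR P073.H579 P073.H805 P073.H341

variable {E : Type*} [NormedAddCommGroup E] [NormedSpace ℝ E] {ι J : Type*} {Ω : Set E}
  {Λ : Set (Fin 3 → ℝ)}

/-- the levels of the new map on a face which is partly untouched -/
structure E3Lev (h : ConHomeo Ω Λ) (M : ι → Set E) (lo hi : Fin 3 → ℝ) (i j : Fin 3)
    (a b : Finset ℝ) (F : J → Face (boxData h M lo hi i j a b)) (Y : Set E)
    (g : E → Fin 3 → ℝ) : Prop where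
  levi : ∀ k, TopOk (F k) Y → ∀ l ∈ a, ∀ x ∈ M (F k).i₀, g x i = l →
    ∃ y ∈ M (F k).i₀, (y ∈ (F k).bd ∨ y ∈ Y) ∧ g y i = l
  levj : ∀ k, TopOk (F k) Y → ∀ l ∈ b, ∀ x ∈ M (F k).i₀, g x j = l →
    ∃ y ∈ M (F k).i₀, (y ∈ (F k).bd ∨ y ∈ Y) ∧ g y j = l

theorem E3Lev.congr {h : ConHomeo Ω Λ} {M : ι → Set E} {lo hi : Fin 3 → ℝ} {i j : Fin 3}
    {a b : Finset ℝ} {F : J → Face (boxData h M lo hi i j a b)} {Y : Set E}
    {g g' : E → Fin 3 → ℝ} (H : E3Lev h M lo hi i j a b F Y g)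
    (hg : EqOn g' g (h.invFun '' Icc lo hi)) : E3Lev h M lo hi i j a b F Y g' where
  levi := fun k hk l hl x hx hxl => by
    have hU : ∀ z ∈ M (F k).i₀, g' z = g z := fun z hz => hg ((F k).subU hz)
    rw [hU x hx] at hxl
    obtain ⟨y, hy, h1, h2⟩ := H.levi k hk l hl x hx hxl
    exact ⟨y, hy, h1, by rw [hU y hy]; exact h2⟩
  levj := fun k hk l hl x hx hxl => by
    have hU : ∀ z ∈ M (F k).i₀, g' z = g z := fun z hz => hg ((F k).subU hz)
    rw [hU x hx] at hxl
    obtain ⟨y, hy, h1, h2⟩ := H.levj k hk l hl x hx hxl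
    exact ⟨y, hy, h1, by rw [hU y hy]; exact h2⟩

/-- **[E3BOX] with arbitrary listed faces** -/
theorem exists_e3T [FiniteDimensional ℝ E] [Finite ι] [Fintype J] (h3 : Module.finrank ℝ E = 3)
    {h : ConHomeo Ω Λ} {M : ι → Set E} {lo hi : Fin 3 → ℝ}
    {i j : Fin 3} {a b : Finset ℝ} (H : BoxOk h M lo hi i j a b)
    (F : J → Face (boxData h M lo hi i j a b)) (hM : MeshOk F) {Y : Set E}
    (hY : Safe (boxData h M lo hi i j a b) (fun x => h.toFun x i) (fun x => h.toFun x j) Y)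
    {J' : Type*} (ρ : J' → J) (hball : ∀ k, ConBall 2 (M (F (ρ k)).i₀) (F (ρ k)).bd)
    (hT : ∀ k, Touch (F (ρ k)) (fun x => h.toFun x i) (fun x => h.toFun x j) Y) :
    ∃ g : ConHomeo (h.invFun '' Icc lo hi) (Icc lo hi),
      EqOn g.toFun h.toFun (h.invFun '' frontier (Icc lo hi)) ∧
      E3Out h M lo hi i j a b (fun k => F (ρ k)) Y g.toFun ∧
      E3Lev h M lo hi i j a b F Y g.toFun := by
  obtain ⟨u, v, hs, hr, hall, hu, hv⟩ := exists_state_clean h3 H.ok F hM H.init hY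
  have hgood : ∀ k, H579.Good ((F (ρ k)).tr u v) := fun k =>
    AllMeet.good H.ok hs (hall (ρ k)) (Touch.keep (hT k) hr hu hv)
  obtain ⟨g, hgB, hgu, hgv⟩ := H.final hs
  have su : SameLev a (h.invFun '' Icc lo hi) (fun x => g.toFun x i) u := fun k hk x hx =>
    hgu k hk x hx
  have sv : SameLev b (h.invFun '' Icc lo hi) (fun x => g.toFun x j) v := fun k hk x hx =>
    hgv k hk x hx
  obtain ⟨n, hn⟩ := H.iU
  refine ⟨g, hgB, ⟨rel_congr hr su sv, fun k => ?_, ?_, ?_, fun m x hx hxU hxa => ?_,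
    fun m x hx hxU hxa => ?_, u, v, hs.conu, hs.contu, hs.conv, hs.contv, su, sv, hs.off, hs.regu,
    hs.regv, hs.reguv⟩, ⟨fun k hk l hl x hx hxl => ?_, fun k hk l hl x hx hxl => ?_⟩⟩
  · obtain ⟨A, hA, S, cd, lev, hP⟩ := hs.facePat H.ok (F (ρ k)) (hgood k) (hball k)
    refine ⟨A, hA, S, cd, lev, hP.congr fun β l hl x hx => ?_⟩
    have hx' : x ∈ h.invFun '' Icc lo hi := (F (ρ k)).subU hx
    cases β
    · exact su l hl x hx'
    · exact sv l hl x hx'
  · exact (su.mono hY.sub).trans (SameLev.of_eqOn hu)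
  · exact (sv.mono hY.sub).trans (SameLev.of_eqOn hv)
  · have e1 := (su _ hxa x hxU).1.1 rfl
    obtain ⟨σ, r, hb⟩ := hs.regu x hxU (by rw [e1]; exact hxa)
    have h1 := crosses_of_box hb (m := m) (n := n) hx (by
      rw [show (boxData h M lo hi i j a b).M n = _ from hn]; exact hxU)
    have h2 : (boxData h M lo hi i j a b).M n = h.invFun '' Icc lo hi := hn
    rw [h2] at h1
    refine h1.congr (fun y hy h3 => ?_) (fun y hy h3 => ?_)
    · rw [e1] at h3
      exact (su _ hxa y hy.2).2.2.2 h3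
    · rw [e1] at h3
      exact (su _ hxa y hy.2).2.1.2 h3
  · have e1 := (sv _ hxa x hxU).1.1 rfl
    obtain ⟨σ, r, hb⟩ := hs.regv x hxU (by rw [e1]; exact hxa)
    have h1 := crosses_of_box hb (m := m) (n := n) hx (by
      rw [show (boxData h M lo hi i j a b).M n = _ from hn]; exact hxU)
    have h2 : (boxData h M lo hi i j a b).M n = h.invFun '' Icc lo hi := hn
    rw [h2] at h1
    refine h1.congr (fun y hy h3 => ?_) (fun y hy h3 => ?_)
    · rw [e1] at h3
      exact (sv _ hxa y hy.2).2.2.2 h3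
    · rw [e1] at h3
      exact (sv _ hxa y hy.2).2.1.2 h3
  · have hxU : x ∈ h.invFun '' Icc lo hi := (F k).subU hx
    have h1 : u x = l := ((su l hl x hxU).1).1 hxl
    obtain ⟨y, hy, h2, h3⟩ := exists_level_u H.ok hs (hall k) hk hl hx h1
    exact ⟨y, hy, h2, ((su l hl y ((F k).subU hy)).1).2 h3⟩
  · have hxU : x ∈ h.invFun '' Icc lo hi := (F k).subU hx
    have h1 : v x = l := ((sv l hl x hxU).1).1 hxl
    obtain ⟨y, hy, h2, h3⟩ := exists_level_v H.ok hs (hall k) hk hl hx h1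
    exact ⟨y, hy, h2, ((sv l hl y ((F k).subU hy)).1).2 h3⟩

end P073.H227
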