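import Vale.Agent.P073.H341.Lift5

/-!
# P073, H227: **[TOP-OSC] (L1)**, the geometry of one step, relative to the clean disc only

`H341.exists_geoB` and `H341.exists_geoC` with the callback on the clean disc `K` itself (instead of
the open face): the untouched set may meet the open face, only `K` has to miss it.
-/

set_option linter.unusedSectionVars false

open Set Metric Topology Filter

namespace P073.H227

open P073 P073.TR P073.H339 P073.H579 P073.H805 P073.H341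

variable {E : Type*} [NormedAddCommGroup E] [NormedSpace ℝ E] [FiniteDimensional ℝ E]
  {ι J : Type*} {D : Data E ι}

/-- **(GEO)**, bigon -/
theorem exists_geoBK [Finite ι] (h3 : Module.finrank ℝ E = 3) (hD : D.Ok) (F : J → Face D)
    (hF : MeshOk F) {u v : E → ℝ} (h : State D u v) (j : J) {K : Set P} (hK : P073.AmbDisc K)
    (hKC : K ⊆ interior (F j).C) (clean : ∀ i, Disjoint ((F j).tr u v i) (interior K))
    {a b : Set P} {p q : P} (ha : IsArc a p q) (hb : IsArc b p q)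
    (haA : a ⊆ (F j).tr u v false) (hbA : b ⊆ (F j).tr u v true)
    (haT : a ∩ (F j).tr u v true = {p, q}) (hbF : b ∩ (F j).tr u v false = {p, q})
    (hab : a ∩ b = {p, q}) (hfr : frontier K = a ∪ b) {Y : Set E} (hYc : IsClosed Y)
    (hY : ∀ {s t k l : ℝ} {X α β : Set E} {p q : E} {Z Z' l₀ : Set E}, k ∈ D.a → l ∈ D.b →
      (s = 1 ∨ s = -1) → (t = 1 ∨ t = -1) →
      Pair D.U D.B (fun x => s * (u x - k)) (fun x => t * (v x - l)) →
      X ⊆ (F j).ch '' K → BG D.U D.B (fun x => s * (u x - k))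
        (fun x => t * (v x - l)) X α β p q Z Z' l₀ → Disjoint Z Y) :
    ∃ (s t k l : ℝ) (N O : Set E) (fh : E → ℝ) (L : E →L[ℝ] ℝ) (c κ : ℝ) (X α β : Set E)
      (p q : E), GeoB F u v j s t k l N O fh L c κ X α β p q ∧ Disjoint N Y := by
  obtain ⟨φ, h0, hn, hker⟩ := exists_normal h3 (F j).L (F j).inj
  set G := F j with hG
  have hUo : IsOpen (D.U \ D.B) := hD.ball.isOpen_diff' h3
  have hKc : ∀ {z}, z ∈ K → z ∈ G.C := fun {z} hz => interior_subset (hKC hz)
  have hch : ∀ {z}, z ∈ K → G.ch z ∈ D.U \ D.B := fun {z} hz => G.int_sub (hKC hz)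
  have hfrK : frontier K ⊆ K := hK.isClosed.frontier_subset
  have haK : a ⊆ K := (subset_union_left.trans hfr.ge).trans hfrK
  have hbK : b ⊆ K := (subset_union_right.trans hfr.ge).trans hfrK
  have hpa : p ∈ a := ha.left_mem
  have hpb : p ∈ b := hb.left_mem
  -- continuity
  have hcu : ∀ {x}, x ∈ D.U → ContinuousAt u x := fun {x} hx =>
    h.contu.continuousAt (hD.isOpen.mem_nhds (hD.UW hx))
  have hcv : ∀ {x}, x ∈ D.U → ContinuousAt v x := fun {x} hx =>
    h.contv.continuousAt (hD.isOpen.mem_nhds (hD.UW hx))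
  have hcuK : ContinuousOn (fun z => u (G.ch z)) K := fun z hz =>
    (ContinuousAt.comp (f := G.ch) (hcu (hch hz).1) G.continuous_ch.continuousAt).continuousWithinAt
  have hcvK : ContinuousOn (fun z => v (G.ch z)) K := fun z hz =>
    (ContinuousAt.comp (f := G.ch) (hcv (hch hz).1) G.continuous_ch.continuousAt).continuousWithinAt
  -- the levels
  set k := u (G.ch p) with hk'
  set l := v (G.ch p) with hl'
  have hk : k ∈ D.a := (haA hpa).2
  have hl : l ∈ D.b := (hbA hpb).2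
  have hak : ∀ z ∈ a, u (G.ch z) = k := fun z hz =>
    const_level ha.isConnected.isPreconnected (hcuK.mono haK) (fun x hx => (haA hx).2) hz hpa
  have hbl : ∀ z ∈ b, v (G.ch z) = l := fun z hz =>
    const_level hb.isConnected.isPreconnected (hcvK.mono hbK) (fun x hx => (hbA hx).2) hz hpb
  have clu : ∀ z ∈ interior K, u (G.ch z) ∉ D.a := fun z hz hz' =>
    Set.disjoint_left.1 (clean false) (show z ∈ G.tr u v false from
      ⟨hKc (interior_subset hz), hz'⟩) hz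
  have clv : ∀ z ∈ interior K, v (G.ch z) ∉ D.b := fun z hz hz' =>
    Set.disjoint_left.1 (clean true) (show z ∈ G.tr u v true from
      ⟨hKc (interior_subset hz), hz'⟩) hz
  obtain ⟨s, hs, sp, sn⟩ := exists_sign hK hcuK (k := k) fun z hz hz' => clu z hz (hz' ▸ hk)
  obtain ⟨t, ht, tp, tn⟩ := exists_sign hK hcvK (k := l) fun z hz hz' => clv z hz (hz' ▸ hl)
  -- the points of `K` on the levels
  have onu : ∀ z ∈ K, u (G.ch z) ∈ D.a → z ∈ a := by
    intro z hz hz'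
    have hzi : z ∉ interior K := fun hzi => clu z hzi hz'
    have hzf : z ∈ frontier K := ⟨subset_closure hz, hzi⟩
    rw [hfr] at hzf
    rcases hzf with h1 | h1
    · exact h1
    · have h2 : z ∈ b ∩ G.tr u v false := ⟨h1, hKc hz, hz'⟩
      rw [hbF, ← hab] at h2
      exact h2.1
  have onv : ∀ z ∈ K, v (G.ch z) ∈ D.b → z ∈ b := by
    intro z hz hz'
    have hzi : z ∉ interior K := fun hzi => clv z hzi hz'
    have hzf : z ∈ frontier K := ⟨subset_closure hz, hzi⟩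
    rw [hfr] at hzf
    rcases hzf with h1 | h1
    · have h2 : z ∈ a ∩ G.tr u v true := ⟨h1, hKc hz, hz'⟩
      rw [haT, ← hab] at h2
      exact h2.2
    · exact h1
  set u₁ : E → ℝ := fun x => s * (u x - k) with hu₁
  set v₁ : E → ℝ := fun x => t * (v x - l) with hv₁
  have hP : Pair D.U D.B u₁ v₁ :=
    StateGeo.pair hD h hs ht hk hl (x := G.ch p) (hch (haK hpa)).1 rfl rfl
  -- the disc
  have disc : ConBall 2 (G.ch '' K) (G.ch '' a ∪ G.ch '' b) := by
    have h1 := (SCH.conBall_of_ambDisc hK).image_affine G.aff G.ch_inj G.continuous_ch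
    rw [hfr] at h1
    rw [← image_union]
    exact h1
  have hαβ : G.ch '' a ∩ G.ch '' b = {G.ch p, G.ch q} := by
    rw [← image_inter G.ch_inj, hab, image_pair]
  have hα : ∀ x ∈ G.ch '' K, (x ∈ G.ch '' a ↔ u x = k) := by
    rintro _ ⟨z, hz, rfl⟩
    rw [mem_ch_image]
    exact ⟨hak z, fun h1 => onu z hz (h1 ▸ hk)⟩
  have hβ : ∀ x ∈ G.ch '' K, (x ∈ G.ch '' b ↔ v x = l) := by
    rintro _ ⟨z, hz, rfl⟩
    rw [mem_ch_image]
    exact ⟨hbl z, fun h1 => onv z hz (h1 ▸ hl)⟩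
  have pos : ∀ z ∈ K, 0 ≤ u₁ (G.ch z) ∧ 0 ≤ v₁ (G.ch z) := fun z hz => ⟨sn z hz, tn z hz⟩
  obtain ⟨Z, Z', l₀, hbg⟩ := hP.bigon disc (isArc_ch G ha) (isArc_ch G hb) hαβ
    (by rintro _ ⟨z, hz, rfl⟩; exact (hch hz).1)
    (by rintro _ ⟨z, hz, rfl⟩; exact (pos z hz).1)
    (by rintro _ ⟨z, hz, rfl⟩; exact (pos z hz).2)
    (by
      rw [Set.disjoint_left]
      rintro _ ⟨z, hz, rfl⟩
      exact (hch hz).2)
    (fun x hx => by rw [hα x hx, hu₁]; exact (sign_mul_eq_zero hs).symm)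
    (fun x hx => by rw [hβ x hx, hv₁]; exact (sign_mul_eq_zero ht).symm)
  have hXM : G.ch '' K ⊆ D.M G.i₀ := by
    rintro _ ⟨z, hz, rfl⟩
    exact G.ch_mem (hKc hz)
  -- regularity
  have regU : ∀ x ∈ D.U, u₁ x = 0 → Reg u₁ D.M x := fun x hx hx0 => by
    obtain ⟨σ, r, hf⟩ := h.regu x hx ((sign_mul_eq_zero hs).1 hx0 ▸ hk)
    exact ⟨_, _, flowBox_sign hf hs k⟩
  have regV : ∀ x ∈ D.U, v₁ x = 0 → Reg v₁ D.M x := fun x hx hx0 => by
    obtain ⟨σ, r, hf⟩ := h.regv x hx ((sign_mul_eq_zero ht).1 hx0 ▸ hl)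
    exact ⟨_, _, flowBox_sign hf ht l⟩
  have regUV : ∀ x ∈ D.U, u₁ x = 0 → v₁ x = 0 → Reg (fun y => (u₁ y, v₁ y)) D.M x :=
    fun x hx hx0 hx1 => by
      obtain ⟨σ, r, hf⟩ := h.reguv x hx ((sign_mul_eq_zero hs).1 hx0 ▸ hk)
        ((sign_mul_eq_zero ht).1 hx1 ▸ hl)
      exact ⟨_, _, flowBox_sign2 hf hs ht k l⟩
  have cau : ∀ x ∈ D.U, ContinuousAt u₁ x := fun x hx =>
    continuousAt_const.mul ((hcu hx).sub continuousAt_const)
  have cav : ∀ x ∈ D.U, ContinuousAt v₁ x := fun x hx =>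
    continuousAt_const.mul ((hcv hx).sub continuousAt_const)
  have hZcl : IsClosed Z := hbg.hZ.isClosed
  obtain ⟨R', -, -, -, hZ'b⟩ := hbg.hZ'
  have g : GeoData D.U u₁ v₁ φ (φ G.o) (G.ch '' K) Z Z' := by
    refine geoData G h0 hker hn hK hKC hUo
      (by rintro _ ⟨z, hz, rfl⟩; exact cau _ (hch hz).1)
      (by rintro _ ⟨z, hz, rfl⟩; exact cav _ (hch hz).1) pos
      (fun z hz => ⟨sp z hz, tp z hz⟩) ?_
      (fun z hz hz0 => regU _ (hch hz).1 hz0) (fun z hz hz0 => regV _ (hch hz).1 hz0)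
      (fun z hz hz0 hz1 => regUV _ (hch hz).1 hz0 hz1) hZcl hZ'b.isClosed hbg.un hbg.int
      hbg.dense hbg.dense'
    intro z hz
    rw [hfr] at hz
    rcases hz with hz | hz
    · exact Or.inl ((sign_mul_eq_zero hs).2 (hak z hz))
    · exact Or.inr ((sign_mul_eq_zero ht).2 (hbl z hz))
  have hZQ : ∀ x ∈ Z, x ∈ D.U ∧ 0 ≤ u₁ x ∧ 0 ≤ v₁ x := fun x hx => by
    have : x ∈ Z ∪ Z' := Or.inl hx
    rw [hbg.un] at this; exact this
  have hZU : Z ⊆ D.U \ D.B := fun x hx =>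
    ⟨(hZQ x hx).1, fun hxB => Set.disjoint_left.1 hbg.hZB hx hxB⟩
  have hXZ : G.ch '' K ⊆ Z := fun x hx => (hbg.int.symm.subset hx).1
  have hpZ : G.ch p ∈ Z := hXZ (mem_image_of_mem _ (haK hpa))
  have hZpre : IsPreconnected Z := hbg.hZ.isPreconnected'
  -- the other sheets miss `Z`
  have avu : ∀ a' ∈ D.a, a' ≠ k → Disjoint {x | x ∈ D.U ∧ u x = a'} Z := by
    intro a' ha' hne
    refine hbg.avoid hP (fun x hx => hx.1) (h.two.hS a' ha')
      (fun x hx hx0 => hne (hx.2.symm.trans ((sign_mul_eq_zero hs).1 hx0))) ?_ ?_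
    · rw [Set.disjoint_left]
      rintro _ ⟨hx1, hx2⟩ ⟨z, hz, rfl⟩
      have h1 := onu z hz (hx2 ▸ ha')
      exact hne (hx2.symm.trans (hak z h1))
    · have e : {x | x ∈ D.U ∧ v₁ x = 0} = {x | x ∈ D.U ∧ v x = l} := by
        ext y; simp only [mem_ofPred_eq, hv₁, sign_mul_eq_zero ht]
      rw [e]
      exact h.two.hX a' ha' l hl
  have avv : ∀ b' ∈ D.b, b' ≠ l → Disjoint {x | x ∈ D.U ∧ v x = b'} Z := by
    intro b' hb' hne
    -- swap the two families
    have hP' := hP.swap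
    have hbg' : BG D.U D.B v₁ u₁ (G.ch '' K) (G.ch '' b) (G.ch '' a) (G.ch p) (G.ch q) Z Z' l₀ := by
      refine ⟨?_, ?_, ?_, hbg.int, hbg.hZB, hbg.hB, hbg.hA, hbg.hl, ?_, hbg.hBX, hbg.hAX⟩
      · have := hbg.hZ
        rwa [union_comm {x | x ∈ Z ∧ u₁ x = 0}] at this
      · obtain ⟨R, r1, r2, r3, r4⟩ := hbg.hZ'
        exact ⟨R, r1, r2, fun x hx h1 h2 h3 h4 => r3 x hx h2 h1 h3.symm h4, r4⟩
      · rw [hbg.un]; ext x; simp only [mem_ofPred_eq]; tauto
      · intro x; rw [hbg.hl']; tauto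
    refine hbg'.avoid hP' (fun x hx => hx.1) (h.two.hT b' hb')
      (fun x hx hx0 => hne (hx.2.symm.trans ((sign_mul_eq_zero ht).1 hx0))) ?_ ?_
    · rw [Set.disjoint_left]
      rintro _ ⟨hx1, hx2⟩ ⟨z, hz, rfl⟩
      have h1 := onv z hz (hx2 ▸ hb')
      exact hne (hx2.symm.trans (hbl z h1))
    · have e : {x | x ∈ D.U ∧ u₁ x = 0} = {x | x ∈ D.U ∧ u x = k} := by
        ext y; simp only [mem_ofPred_eq, hu₁, sign_mul_eq_zero hs]
      rw [e]
      exact h.two.swap.hX b' hb' k hk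
  -- the separation of levels on `Z`
  have lev : ∀ {w : E → ℝ} {A : Finset ℝ} {s k : ℝ}, (s = 1 ∨ s = -1) → ContinuousOn w D.W →
      w (G.ch p) = k → (∀ x ∈ Z, 0 ≤ s * (w x - k)) →
      (∀ a' ∈ A, a' ≠ k → Disjoint {x | x ∈ D.U ∧ w x = a'} Z) → ∀ z ∈ Z, ∀ a ∈ A,
      (0 < s * (a - k) → s * (w z - k) < s * (a - k)) ∧
      (s * (a - k) < 0 → s * (a - k) < s * (w z - k)) := by
    intro w A s k hs hw hwp hpos hav z hz a' ha'
    refine ⟨fun h1 => ?_, fun h1 => h1.trans_le (hpos z hz)⟩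
    refine lt_of_preconn hZpre (f := fun x => s * (w x - k))
      (continuousOn_sign (hw.mono fun x hx => hD.UW (hZQ x hx).1) s k) (fun x hx hx' => ?_) hpZ hz ?_
    · have h2 : w x = a' := by
        have := mul_left_cancel₀ (sign_ne hs) hx'
        linarith
      have h3 : a' ≠ k := by
        rintro rfl
        simp at h1
      exact Set.disjoint_left.1 (hav a' ha' h3) ⟨(hZQ x hx).1, h2⟩ hx
    · show s * (w (G.ch p) - k) < s * (a' - k)
      rw [hwp, sub_self, mul_zero]; exact h1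
  have levu := lev (A := D.a) hs h.contu rfl (fun x hx => (hZQ x hx).2.1) avu
  have levv := lev (A := D.b) ht h.contv rfl (fun x hx => (hZQ x hx).2.2) avv
  have hYZ : Disjoint Z Y := hY hk hl hs ht hP Subset.rfl hbg
  -- the good points
  obtain ⟨N, O, fh, L, c, κ, cN, NU, Ng, oO, fO, fN, nor, face, XO, ZN, hX, mesh, faces, hκ, fcon,
    fcont, floc, hZi⟩ := geo_core F hF j h0 hker hK hKC g hbg.hZ.isCompact hUo hZU
    (fun y => (∀ a ∈ D.a, (0 < s * (a - k) → s * (u y - k) < s * (a - k)) ∧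
      (s * (a - k) < 0 → s * (a - k) < s * (u y - k))) ∧
      (∀ b ∈ D.b, (0 < t * (b - l) → t * (v y - l) < t * (b - l)) ∧
      (t * (b - l) < 0 → t * (b - l) < t * (v y - l))) ∧ y ∉ Y)
    (fun z hz => (eventually_levels (hcu (hZQ z hz).1) (levu z hz)).and
      ((eventually_levels (hcv (hZQ z hz).1) (levv z hz)).and
      (hYc.isOpen_compl.mem_nhds (Set.disjoint_left.1 hYZ hz))))
  refine ⟨s, t, k, l, N, O, fh, L, c, κ, G.ch '' K, G.ch '' a, G.ch '' b, G.ch p, G.ch q,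
    ⟨hs, ht, hk, hl, ?_, hP, fun x hx => (NU hx).1, ?_, fun x hx => (Ng x hx).1,
    fun x hx => (Ng x hx).2.1, oO, fO, fN, nor, face, XO, hXZ.trans ZN, image_mono hKC, hX, disc,
    isArc_ch G ha, isArc_ch G hb, hαβ, hα, hβ, mesh, faces⟩,
    Set.disjoint_left.2 fun x hx => (Ng x hx).2.2⟩
  · exact
      { oW := hD.isOpen
        cN := cN
        NW := fun x hx => hD.UW (NU hx).1
        ucon := conicalOn_sign h.conu s k
        ucont := continuousOn_sign h.contu s k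
        vcon := conicalOn_sign h.conv t l
        vcont := continuousOn_sign h.contv t l
        fcon := fcon
        fcont := fcont
        cpos := hκ
        floc := floc
        hZ := hZi
        hF := hD.cone
        ru := fun x hx => regU x (NU hx).1
        rv := fun x hx => regV x (NU hx).1
        ruv := fun x hx => regUV x (NU hx).1 }
  · exact Set.disjoint_left.2 fun x hx => (NU hx).2

/-- **(GEO)**, circle of the first family -/
theorem exists_geoCK [Finite ι] (h3 : Module.finrank ℝ E = 3) (hD : D.Ok) (F : J → Face D)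
    (hF : MeshOk F) {u v : E → ℝ} (h : State D u v) (j : J) {K : Set P} (hK : P073.AmbDisc K)
    (hKC : K ⊆ interior (F j).C) (clean : ∀ i, Disjoint ((F j).tr u v i) (interior K))
    (hfr : frontier K ⊆ (F j).tr u v false) (hfr' : Disjoint (frontier K) ((F j).tr u v true))
    {Y : Set E} (hYc : IsClosed Y)
    (hY : ∀ {s k : ℝ} {X c Z Z' : Set E}, k ∈ D.a → (s = 1 ∨ s = -1) →
      One D.U D.B (fun x => s * (u x - k)) →
      X ⊆ (F j).ch '' K → CG D.U D.B (fun x => s * (u x - k)) X c Z Z' →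
      Disjoint Z Y) :
    ∃ (s k : ℝ) (N O : Set E) (fh : E → ℝ) (L : E →L[ℝ] ℝ) (c κ : ℝ) (X : Set E) (σ : Set P),
      GeoC F u v j s k N O fh L c κ X σ ∧ Disjoint N Y := by
  obtain ⟨φ, h0, hn, hker⟩ := exists_normal h3 (F j).L (F j).inj
  set G := F j with hG
  have hUo : IsOpen (D.U \ D.B) := hD.ball.isOpen_diff' h3
  have hKc : ∀ {z}, z ∈ K → z ∈ G.C := fun {z} hz => interior_subset (hKC hz)
  have hch : ∀ {z}, z ∈ K → G.ch z ∈ D.U \ D.B := fun {z} hz => G.int_sub (hKC hz)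
  have hfrK : frontier K ⊆ K := hK.isClosed.frontier_subset
  obtain ⟨p, hp⟩ : (frontier K).Nonempty := SCH.AmbDisc.frontier_nonempty hK
  have hpre : IsPreconnected (frontier K) := SCH.AmbDisc.isPreconnected_frontier hK
  -- continuity
  have hcu : ∀ {x}, x ∈ D.U → ContinuousAt u x := fun {x} hx =>
    h.contu.continuousAt (hD.isOpen.mem_nhds (hD.UW hx))
  have hcv : ∀ {x}, x ∈ D.U → ContinuousAt v x := fun {x} hx =>
    h.contv.continuousAt (hD.isOpen.mem_nhds (hD.UW hx))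
  have hcuK : ContinuousOn (fun z => u (G.ch z)) K := fun z hz =>
    (ContinuousAt.comp (f := G.ch) (hcu (hch hz).1) G.continuous_ch.continuousAt).continuousWithinAt
  -- the level
  set k := u (G.ch p) with hk'
  have hk : k ∈ D.a := (hfr hp).2
  have hak : ∀ z ∈ frontier K, u (G.ch z) = k := fun z hz =>
    const_level hpre (hcuK.mono hfrK) (fun x hx => (hfr hx).2) hz hp
  have clu : ∀ z ∈ interior K, u (G.ch z) ∉ D.a := fun z hz hz' =>
    Set.disjoint_left.1 (clean false) (show z ∈ G.tr u v false from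
      ⟨hKc (interior_subset hz), hz'⟩) hz
  have clv : ∀ z ∈ K, v (G.ch z) ∉ D.b := fun z hz hz' => by
    by_cases hzi : z ∈ interior K
    · exact Set.disjoint_left.1 (clean true) (show z ∈ G.tr u v true from ⟨hKc hz, hz'⟩) hzi
    · exact Set.disjoint_left.1 hfr' ⟨subset_closure hz, hzi⟩
        (show z ∈ G.tr u v true from ⟨hKc hz, hz'⟩)
  obtain ⟨s, hs, sp, sn⟩ := exists_sign hK hcuK (k := k) fun z hz hz' => clu z hz (hz' ▸ hk)
  have onu : ∀ z ∈ K, u (G.ch z) ∈ D.a → z ∈ frontier K := fun z hz hz' =>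
    ⟨subset_closure hz, fun hzi => clu z hzi hz'⟩
  set u₁ : E → ℝ := fun x => s * (u x - k) with hu₁
  have hP : One D.U D.B u₁ := StateGeo.one hD h hs hk (x := G.ch p) (hch (hfrK hp)).1 rfl
  have disc : ConBall 2 (G.ch '' K) (G.ch '' frontier K) :=
    (SCH.conBall_of_ambDisc hK).image_affine G.aff G.ch_inj G.continuous_ch
  have hα : ∀ x ∈ G.ch '' K, (x ∈ G.ch '' frontier K ↔ u x = k) := by
    rintro _ ⟨z, hz, rfl⟩
    rw [mem_ch_image]
    exact ⟨hak z, fun h1 => onu z hz (h1 ▸ hk)⟩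
  obtain ⟨Z, Z', hbg⟩ := hP.circ disc
    (by rintro _ ⟨z, hz, rfl⟩; exact (hch hz).1)
    (by rintro _ ⟨z, hz, rfl⟩; exact sn z hz)
    (by
      rw [Set.disjoint_left]
      rintro _ ⟨z, hz, rfl⟩
      exact (hch hz).2)
    (fun x hx => by rw [hα x hx, hu₁]; exact (sign_mul_eq_zero hs).symm)
  have hXM : G.ch '' K ⊆ D.M G.i₀ := by
    rintro _ ⟨z, hz, rfl⟩
    exact G.ch_mem (hKc hz)
  have regU : ∀ x ∈ D.U, u₁ x = 0 → Reg u₁ D.M x := fun x hx hx0 => by
    obtain ⟨σ, r, hf⟩ := h.regu x hx ((sign_mul_eq_zero hs).1 hx0 ▸ hk)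
    exact ⟨_, _, flowBox_sign hf hs k⟩
  have cau : ∀ x ∈ D.U, ContinuousAt u₁ x := fun x hx =>
    continuousAt_const.mul ((hcu hx).sub continuousAt_const)
  have hZcl : IsClosed Z := hbg.hZ.isClosed
  obtain ⟨R', -, -, -, hZ'b⟩ := hbg.hZ'
  have un1 : Z ∪ Z' = {x | x ∈ D.U ∧ 0 ≤ u₁ x ∧ (0:ℝ) ≤ 1} := by
    rw [hbg.un]; ext x
    simp only [mem_ofPred_eq]
    exact ⟨fun hx => ⟨hx.1, hx.2, zero_le_one⟩, fun hx => ⟨hx.1, hx.2.1⟩⟩
  have g : GeoData D.U u₁ (fun _ => 1) φ (φ G.o) (G.ch '' K) Z Z' := by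
    refine geoData G h0 hker hn hK hKC hUo
      (by rintro _ ⟨z, hz, rfl⟩; exact cau _ (hch hz).1)
      (fun x _ => continuousAt_const) (fun z hz => ⟨sn z hz, zero_le_one⟩)
      (fun z hz => ⟨sp z hz, one_pos⟩)
      (fun z hz => Or.inl ((sign_mul_eq_zero hs).2 (hak z hz)))
      (fun z hz hz0 => regU _ (hch hz).1 hz0) (fun z hz hz0 => absurd hz0 one_ne_zero)
      (fun z hz hz0 hz1 => absurd hz1 one_ne_zero) hZcl hZ'b.isClosed un1 hbg.int
      hbg.dense hbg.dense'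
  have hZQ : ∀ x ∈ Z, x ∈ D.U ∧ 0 ≤ u₁ x := fun x hx => by
    have : x ∈ Z ∪ Z' := Or.inl hx
    rw [hbg.un] at this; exact this
  have hZU : Z ⊆ D.U \ D.B := fun x hx =>
    ⟨(hZQ x hx).1, fun hxB => Set.disjoint_left.1 hbg.hZB hx hxB⟩
  have hXZ : G.ch '' K ⊆ Z := fun x hx => (hbg.int.symm.subset hx).1
  have hpZ : G.ch p ∈ Z := hXZ (mem_image_of_mem _ (hfrK hp))
  have hZpre : IsPreconnected Z := hbg.hZ.isPreconnected'
  -- the other sheets miss `Z`
  have avu : ∀ a' ∈ D.a, a' ≠ k → Disjoint {x | x ∈ D.U ∧ u x = a'} Z := by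
    intro a' ha' hne
    have hb := h.two.hS a' ha'
    refine hbg.avoid₁ hP (fun x hx => hx.1) hb.isPreconnected'
      (by obtain ⟨x, hx⟩ := hb.bdry_nonempty'; exact ⟨x, hx.1, hx.2⟩)
      (fun x hx _ hx0 => hne (hx.2.symm.trans ((sign_mul_eq_zero hs).1 hx0))) ?_
    rw [Set.disjoint_left]
    rintro _ ⟨hx1, hx2⟩ ⟨z, hz, rfl⟩
    have h1 := onu z hz (hx2 ▸ ha')
    exact hne (hx2.symm.trans (hak z h1))
  have avv : ∀ b' ∈ D.b, Disjoint {x | x ∈ D.U ∧ v x = b'} Z := by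
    intro b' hb'
    refine hbg.avoid₂ hP (fun x hx => hx.1) (h.two.hT b' hb') ?_ ?_
    · rw [Set.disjoint_left]
      rintro _ ⟨hx1, hx2⟩ ⟨z, hz, rfl⟩
      exact clv z hz (hx2 ▸ hb')
    · have e : {x | x ∈ D.U ∧ u₁ x = 0} = {x | x ∈ D.U ∧ u x = k} := by
        ext y; simp only [mem_ofPred_eq, hu₁, sign_mul_eq_zero hs]
      rw [e]
      exact h.two.swap.hX b' hb' k hk
  have levu : ∀ z ∈ Z, ∀ a ∈ D.a, (0 < s * (a - k) → s * (u z - k) < s * (a - k)) ∧
      (s * (a - k) < 0 → s * (a - k) < s * (u z - k)) := by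
    intro z hz a' ha'
    refine ⟨fun h1 => ?_, fun h1 => h1.trans_le (hZQ z hz).2⟩
    refine lt_of_preconn hZpre (f := fun x => s * (u x - k))
      (continuousOn_sign (h.contu.mono fun x hx => hD.UW (hZQ x hx).1) s k) (fun x hx hx' => ?_)
      hpZ hz ?_
    · have h2 : u x = a' := by
        have := mul_left_cancel₀ (sign_ne hs) hx'
        linarith
      have h3 : a' ≠ k := by
        rintro rfl
        simp at h1
      exact Set.disjoint_left.1 (avu a' ha' h3) ⟨(hZQ x hx).1, h2⟩ hx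
    · show s * (u (G.ch p) - k) < s * (a' - k)
      rw [← hk', sub_self, mul_zero]; exact h1
  have levv : ∀ z ∈ Z, ∀ᶠ y in 𝓝 z, v y ∉ D.b := by
    intro z hz
    have h1 : v z ∉ (D.b : Set ℝ) := fun h2 =>
      Set.disjoint_left.1 (avv (v z) h2) ⟨(hZQ z hz).1, rfl⟩ hz
    have h2 : (D.b : Set ℝ)ᶜ ∈ 𝓝 (v z) := D.b.finite_toSet.isClosed.isOpen_compl.mem_nhds h1
    exact (hcv (hZQ z hz).1).eventually h2
  have hYZ : Disjoint Z Y := hY hk hs hP Subset.rfl hbg
  obtain ⟨N, O, fh, L, c, κ, cN, NU, Ng, oO, fO, fN, nor, face, XO, ZN, hX, mesh, faces, hκ, fcon,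
    fcont, floc, hZi⟩ := geo_core F hF j h0 hker hK hKC g hbg.hZ.isCompact hUo hZU
    (fun y => (∀ a ∈ D.a, (0 < s * (a - k) → s * (u y - k) < s * (a - k)) ∧
      (s * (a - k) < 0 → s * (a - k) < s * (u y - k))) ∧ v y ∉ D.b ∧ y ∉ Y)
    (fun z hz => (eventually_levels (hcu (hZQ z hz).1) (levu z hz)).and
      ((levv z hz).and (hYc.isOpen_compl.mem_nhds (Set.disjoint_left.1 hYZ hz))))
  have hcirc : IsCircle (frontier K) := hK.frontier_isCircle
  refine ⟨s, k, N, O, fh, L, c, κ, G.ch '' K, frontier K,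
    ⟨hs, hk, ?_, hP, fun x hx => (NU hx).1, ?_, fun x hx => (Ng x hx).1,
    fun x hx => (Ng x hx).2.1, oO, fO, fN, nor, face, XO, hXZ.trans ZN, image_mono hKC,
    fun x hx => ?_, disc, hcirc, ?_, hfrK.trans hKC, hα, mesh, faces⟩,
    Set.disjoint_left.2 fun x hx => (Ng x hx).2.2⟩
  · exact
      { oW := hD.isOpen
        cN := cN
        NW := fun x hx => hD.UW (NU hx).1
        ucon := conicalOn_sign h.conu s k
        ucont := continuousOn_sign h.contu s k
        fcon := fcon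
        fcont := fcont
        cpos := hκ
        floc := floc
        hZ := fun x hx h1 h2 => hZi x hx h1 zero_le_one h2
        hF := hD.cone
        ru := fun x hx => regU x (NU hx).1 }
  · exact Set.disjoint_left.2 fun x hx => (NU hx).2
  · rw [hX x hx]
    exact ⟨fun h1 => ⟨h1.1, h1.2.2⟩, fun h1 => ⟨h1.1, zero_le_one, h1.2⟩⟩
  · exact conSphere_iff.1 disc.conSphere

end P073.H227
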