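import Vale.Agent.P073.H227.TopStep
import Vale.Agent.P073.H579.Arcs

/-!
# P073, H227: **[TOP-OSC] (L2)**, the levels on a face which is partly untouched

`F` is a face such that every clean disc of the traces meets `Y` (output of `exists_state_clean`),
and every point of `F ∩ Y` is joined to the relative boundary of `F` inside `F ∩ Y`. Then every
level on `F` is present on the boundary of `F` or on `F ∩ Y`.
-/

set_option linter.unusedSectionVars false

open Set Metric Topology Filter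

namespace P073.H227

open P073 P073.TR P073.SCH P073.H339 P073.H579 P073.H805 P073.H341

variable {E : Type*} [NormedAddCommGroup E] [NormedSpace ℝ E] {ι J : Type*} {D : Data E ι}

/-- a circle of the traces bounds a disc which contains a clean disc -/
theorem exists_clean_in {C : Set P} {A : Bool → Set P} (h : Web C A) {i : Bool} {σ : Set P}
    (hσ : IsCircle σ) (hs : σ ⊆ A i) :
    ∃ Δ, P073.AmbDisc Δ ∧ frontier Δ = σ ∧ Δ ⊆ C ∧ ∃ K ⊆ Δ, CleanDisc C A K := by
  obtain ⟨J, hJ, K, hK⟩ := h.exists_comps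
  obtain ⟨Δ, hΔ, hf⟩ := schoenflies hσ
  have hA : Adm A Δ := ⟨hΔ, Or.inl ⟨i, by rw [hf]; exact hs⟩⟩
  obtain ⟨D', h1, h2, h3⟩ := exists_clean_disc h hK hA
  exact ⟨Δ, hΔ, hf, hA.sub h, D', h2, cleanDisc_of_adm h h1 h3⟩

/-- a level which misses the boundary of the face contains a circle through any of its points -/
theorem exists_circle_level {C : Set P} {w : P → ℝ} {L : Set ℝ} (h : Reg1 C w L)
    (hC : Convex ℝ C) (hi : (interior C).Nonempty) (hc : IsCompact C) (hl : LocCone C) {k : ℝ}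
    (hk : k ∈ L) (hno : ∀ z ∈ frontier C, w z ≠ k) {z₀ : P} (hz : z₀ ∈ C) (hz0 : w z₀ = k) :
    ∃ σ, IsCircle σ ∧ z₀ ∈ σ ∧ ∀ z ∈ σ, z ∈ C ∧ w z = k := by
  have h1 : Reg1 C w {k} := h.mono (singleton_subset_iff.2 hk)
  obtain ⟨J, hJ, S, hU, hd, hb⟩ := (h1.curve hC hi hc hl).exists_components
  have hz1 : z₀ ∈ ⋃ j, S j := by rw [hU]; exact ⟨hz, hz0⟩
  obtain ⟨j, hj⟩ := mem_iUnion.1 hz1
  have hsub : S j ⊆ trace C w {k} := hU ▸ subset_iUnion S j
  rcases hb j with ⟨h2, -⟩ | ⟨p, q, h2, h3, -, -⟩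
  · exact ⟨S j, conSphere_iff.1 h2, hj, fun z hz => ⟨(hsub hz).1, (hsub hz).2⟩⟩
  · exfalso
    have hp : p ∈ trace C w {k} := hsub (arc_left h2)
    refine hno p ⟨subset_closure hp.1, fun h4 => ?_⟩ hp.2
    have h5 := (h1.ncard hC hi hp).1 h4
    omega

/-- **[TOP-OSC] (L2)**, in the chart -/
theorem level_chart {C : Set P} {A : Bool → Set P} (hW : Web C A) (hi : (interior C).Nonempty)
    (hc : IsCompact C) (hl : LocCone C) {i : Bool} {w : P → ℝ} {L : Set ℝ} (h : Reg1 C w L)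
    (hA : trace C w L ⊆ A i) {T : Set P} (hT : JoinedB (C ∩ T) (frontier C))
    (hmeet : ∀ K, CleanDisc C A K → (K ∩ T).Nonempty) {k : ℝ} (hk : k ∈ L) {z₀ : P}
    (hz : z₀ ∈ C) (hz0 : w z₀ = k) : ∃ z ∈ C, (z ∈ frontier C ∨ z ∈ T) ∧ w z = k := by
  by_contra hcon
  push Not at hcon
  have hfC : frontier C ⊆ C := hc.isClosed.frontier_subset
  obtain ⟨σ, hσ, -, hσk⟩ := exists_circle_level h hW.convex hi hc hl hk
    (fun z hz => hcon z (hfC hz) (Or.inl hz)) hz hz0
  have hσA : σ ⊆ A i := fun z hz => hA ⟨(hσk z hz).1, by rw [(hσk z hz).2]; exact hk⟩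
  obtain ⟨Δ, hΔ, hf, hΔC, K, hKΔ, hK⟩ := exists_clean_in hW hσ hσA
  obtain ⟨y, hyK, hyT⟩ := hmeet K hK
  have hyΔ : y ∈ Δ := hKΔ hyK
  obtain ⟨S, hS, hSp, hyS, b, hbS, hbf⟩ := hT y ⟨hΔC hyΔ, hyT⟩
  -- the boundary of `Δ` is in the interior of `C`
  have hbΔ : b ∉ Δ := by
    intro hb
    by_cases hbi : b ∈ interior Δ
    · exact hbf.2 (interior_mono hΔC hbi)
    · have : b ∈ σ := by rw [← hf]; exact ⟨subset_closure hb, hbi⟩
      exact hcon b (hσk b this).1 (Or.inl hbf) (hσk b this).2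
  -- `S` meets the boundary of `Δ`
  have hmeetσ : (S ∩ frontier Δ).Nonempty := by
    by_contra hne
    rw [Set.not_nonempty_iff_eq_empty] at hne
    have h1 : S ⊆ interior Δ ∪ Δᶜ := by
      intro x hx
      by_cases hxi : x ∈ interior Δ
      · exact Or.inl hxi
      · right
        intro hxΔ
        have : x ∈ S ∩ frontier Δ := ⟨hx, subset_closure hxΔ, hxi⟩
        rw [hne] at this
        exact this
    have h2 : y ∈ interior Δ := by
      by_contra h3
      have : y ∈ S ∩ frontier Δ := ⟨hyS, subset_closure hyΔ, h3⟩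
      rw [hne] at this
      exact this
    rcases (isPreconnected_iff_subset_of_disjoint.1 hSp) _ _ isOpen_interior
      hΔ.isClosed.isOpen_compl h1 (by
        rw [Set.eq_empty_iff_forall_notMem]
        rintro x ⟨-, h4, h5⟩
        exact h5 (interior_subset h4)) with h3 | h3
    · exact hbΔ (interior_subset (h3 hbS))
    · exact h3 hyS hyΔ
  obtain ⟨x, hxS, hxf⟩ := hmeetσ
  rw [hf] at hxf
  exact hcon x (hσk x hxf).1 (Or.inr (hS hxS).2) (hσk x hxf).2

/-- the point set of a face -/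
theorem Face.image_ch (F : Face D) : F.ch '' F.C = D.M F.i₀ := F.eq.symm

variable {u v : E → ℝ} {Y : Set E}

/-- the face meets `Y` in a set which is joined to the boundary of the face -/
def TopOk (F : Face D) (Y : Set E) : Prop := JoinedB (F.C ∩ F.ch ⁻¹' Y) (frontier F.C)

/-- if the boundary of the face, or the complement of the face, contains `F ∩ Y`: trivial case -/
theorem TopOk.of_disjoint {F : Face D} (h : Disjoint (D.M F.i₀) Y) : TopOk F Y := by
  rintro x ⟨hx, hxY⟩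
  exact absurd hxY (Set.disjoint_left.1 h (F.ch_mem hx))

theorem exists_level (hD : D.Ok) (h : State D u v) {F : Face D} (hA : AllMeet F u v Y)
    (hT : TopOk F Y) (i : Bool) {w : E → ℝ} {L : Finset ℝ} (hR : Reg1 F.C (w ∘ F.ch) (L : Set ℝ))
    (hL : trace F.C (w ∘ F.ch) (L : Set ℝ) ⊆ F.tr u v i) {k : ℝ} (hk : k ∈ L) {x : E}
    (hx : x ∈ D.M F.i₀) (hxk : w x = k) :
    ∃ y ∈ D.M F.i₀, (y ∈ F.bd ∨ y ∈ Y) ∧ w y = k := by
  rw [F.eq] at hx
  obtain ⟨z₀, hz₀, rfl⟩ := hx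
  obtain ⟨z, hz, hz1, hz2⟩ := level_chart (h.web hD F) F.int F.compact F.cone hR hL hT
    (fun K hK => by
      obtain ⟨_, ⟨z, hzK, rfl⟩, hzY⟩ := Set.not_disjoint_iff.1 (hA K hK)
      exact ⟨z, hzK, hzY⟩) (Finset.mem_coe.2 hk) hz₀ hxk
  refine ⟨F.ch z, F.ch_mem hz, ?_, hz2⟩
  rcases hz1 with h1 | h1
  · exact Or.inl ⟨z, h1, rfl⟩
  · exact Or.inr h1

/-- **[TOP-OSC] (L2)**: every level of `u` on the face is present on the boundary of the face or
on the untouched part -/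
theorem exists_level_u (hD : D.Ok) (h : State D u v) {F : Face D} (hA : AllMeet F u v Y)
    (hT : TopOk F Y) {k : ℝ} (hk : k ∈ D.a) {x : E} (hx : x ∈ D.M F.i₀) (hxk : u x = k) :
    ∃ y ∈ D.M F.i₀, (y ∈ F.bd ∨ y ∈ Y) ∧ u y = k :=
  exists_level hD h hA hT false (State.reg1 hD F h.conu h.contu h.regu) Subset.rfl hk hx hxk

theorem exists_level_v (hD : D.Ok) (h : State D u v) {F : Face D} (hA : AllMeet F u v Y)
    (hT : TopOk F Y) {k : ℝ} (hk : k ∈ D.b) {x : E} (hx : x ∈ D.M F.i₀) (hxk : v x = k) :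
    ∃ y ∈ D.M F.i₀, (y ∈ F.bd ∨ y ∈ Y) ∧ v y = k :=
  exists_level hD h hA hT true (State.reg1 hD F h.conv h.contv h.regv) Subset.rfl hk hx hxk

end P073.H227
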