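import Vale.Agent.P073.H341.StepI
import Vale.Agent.P073.H227.TopGeo

/-!
# P073, H227: **[TOP-OSC] (L1)**, the exchange process with arbitrary faces

No hypothesis on the position of the listed faces relative to the untouched set `Y`: clean discs
which miss `Y` are removed, so in the end every clean disc meets `Y`.
-/

set_option linter.unusedSectionVars false

open Set Metric Topology Filter

namespace P073.H227

open P073 P073.TR P073.H339 P073.H579 P073.H805 P073.H341

variable {E : Type*} [NormedAddCommGroup E] [NormedSpace ℝ E] [FiniteDimensional ℝ E]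
  {ι J : Type*} {D : Data E ι}

/-- **(GEO)** for every clean disc which misses `Y` -/
theorem geoOutK [Finite ι] (h3 : Module.finrank ℝ E = 3) (hD : D.Ok) (F : J → Face D)
    (hF : MeshOk F) {u v : E → ℝ} (h : State D u v) {Y : Set E} (hY : Safe D u v Y) (j : J)
    {K : Set P} (hK : CleanDisc (F j).C ((F j).tr u v) K) (hj : Disjoint ((F j).ch '' K) Y) :
    GeoOut F Y u v j := by
  rcases hK.bd with ⟨i, hi, hi'⟩ | ⟨a, b, p, q, ha, hb, haA, hbA, haT, hbF, hab, hfr⟩
  · cases i
    · right; left
      exact exists_geoCK h3 hD F hF h j hK.disc hK.int hK.clean hi hi' hY.closed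
        fun hk hs _ hX hg => hY.disjoint_circle hs hk hg (h.contu.mono hD.UW) (hj.mono_left hX)
    · right; right
      have hY' := safe_swap hY
      exact exists_geoCK (D := swapD D) (u := v) (v := u) h3 (ok_swap hD) (fun j => swapF (F j)) hF
        (state_swap hD h) j hK.disc hK.int (fun i => by
          have := hK.clean (!i)
          cases i <;> exact this) hi hi' hY.closed
        fun hk hs _ hX hg => hY'.disjoint_circle hs hk hg (h.contv.mono hD.UW) (hj.mono_left hX)
  · left
    exact exists_geoBK h3 hD F hF h j hK.disc hK.int hK.clean ha hb haA hbA haT hbF hab hfr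
      hY.closed fun hk hl hs ht _ hX hg => hY.disjoint_bigon hs ht hk hl hg
        (h.contu.mono hD.UW) (h.contv.mono hD.UW) (hj.mono_left hX)

/-- every clean disc of the face meets `Y` -/
def AllMeet (F : Face D) (u v : E → ℝ) (Y : Set E) : Prop :=
  ∀ K, CleanDisc F.C (F.tr u v) K → ¬ Disjoint (F.ch '' K) Y

/-- the pattern of a face without clean discs away from `Y` is good, if the open face misses `Y`,
or if it has no crossings and no circles, or if it is inside `Y` and its traces are good -/
theorem AllMeet.good (hD : D.Ok) {F : Face D} {u v : E → ℝ} {Y : Set E} (h : State D u v)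
    (hA : AllMeet F u v Y) (hT : Touch F u v Y) : H579.Good (F.tr u v) := by
  rcases good_or_cleanDisc (h.web hD F) with hg | ⟨K, hK⟩
  · exact hg
  · rcases hT with h1 | ⟨h1, h2⟩ | ⟨-, h1⟩
    · exact absurd (h1.mono_left (image_mono hK.int)) (hA K hK)
    · exact absurd hK (not_cleanDisc F h1 h2 K)
    · exact h1

/-- **[TOP-OSC] (L1)**: the exchange process with arbitrary faces -/
theorem exists_state_clean [Finite ι] [Fintype J] (h3 : Module.finrank ℝ E = 3) (hD : D.Ok)
    (F : J → Face D) (hF : MeshOk F) {Y : Set E} {u v : E → ℝ} (h : State D u v)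
    (hY : Safe D u v Y) :
    ∃ u' v', State D u' v' ∧ Rel D u v u' v' ∧ (∀ j, AllMeet (F j) u' v' Y) ∧
      EqOn u' u Y ∧ EqOn v' v Y := by
  have key : ∀ n m : ℕ, ∀ u v : E → ℝ, State D u v → Safe D u v Y →
      nX F u v = n → nC F u v = m →
      ∃ u' v', State D u' v' ∧ Rel D u v u' v' ∧ (∀ j, AllMeet (F j) u' v' Y) ∧
      EqOn u' u Y ∧ EqOn v' v Y := by
    intro n
    induction n using Nat.strong_induction_on with
    | _ n ihn =>
      intro m
      induction m using Nat.strong_induction_on with
      | _ m ihm =>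
        intro u v h hY hn hm
        by_cases hg : ∀ j, AllMeet (F j) u v Y
        · exact ⟨u, v, h, Rel.refl D u v, hg, fun _ _ => rfl, fun _ _ => rfl⟩
        · unfold AllMeet at hg
          push Not at hg
          obtain ⟨j, K, hK, hj⟩ := hg
          obtain ⟨u', v', h1, h2, h3, h4, h5⟩ := step_of_geo hD h (geoOutK h3 hD F hF h hY j hK hj)
          have hY' : Safe D u' v' Y := hY.congr h4 h5
          have h6 : ∃ u'' v'', State D u'' v'' ∧ Rel D u' v' u'' v'' ∧
              (∀ j, AllMeet (F j) u'' v'' Y) ∧ EqOn u'' u' Y ∧ EqOn v'' v' Y := by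
            rcases h3 with h3 | ⟨h3, h3'⟩
            · exact ihn _ (hn ▸ h3) _ u' v' h1 hY' rfl rfl
            · rcases h3.lt_or_eq with h5 | h5
              · exact ihn _ (hn ▸ h5) _ u' v' h1 hY' rfl rfl
              · exact ihm _ (hm ▸ h3') u' v' h1 hY' (h5.trans hn) rfl
          obtain ⟨u'', v'', k1, k2, k3, k4, k5⟩ := h6
          exact ⟨u'', v'', k1, h2.trans k2, k3, fun x hx => (k4 hx).trans (h4 hx),
            fun x hx => (k5 hx).trans (h5 hx)⟩
  exact key _ _ u v h hY rfl rfl

/-- a face satisfying `Touch` keeps it -/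
theorem Touch.keep {F : Face D} {u v u' v' : E → ℝ} {Y : Set E} (hT : Touch F u v Y)
    (hR : Rel D u v u' v') (hu : EqOn u' u Y) (hv : EqOn v' v Y) : Touch F u' v' Y := by
  rcases hT with k1 | ⟨k1, k2⟩ | ⟨k1, k2⟩
  · exact Or.inl k1
  · exact Or.inr (Or.inl ⟨hR.off _ k1, hR.circ _ k1 k2⟩)
  · refine Or.inr (Or.inr ⟨k1, ?_⟩)
    rw [tr_congr k1 hu hv]; exact k2

end P073.H227
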